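import Vale.Agent.P262.H713.CF1
import Vale.Agent.P262.H712.FieldRot

/-!
# P262, milestone 2, CF3 part a: the change of the excess of the cut-off field on a tree

Two families of payoffs `g`, `g'` (complements of the body before and after a rotation, read at the
same labels).  The excess `pay - fl` changes in mean, at every label, by at most `rotA`: at a killed
label the change of the payoff, at an alive label
`24 c (min q (Δ / max D c) + min q' (Δ / max D c))`, where `Δ` is the change of the payoff weighted
with the slope product (no compounding of constants).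
-/

set_option linter.all false

open MeasureTheory ProbabilityTheory Set
open scoped ENNReal RealInnerProductSpace Classical

namespace Vale.Agent.P262.H174

open Vale.Agent.P262.H395 (mix fib Inv measurable_fib fib_mono fib_const fib_add fib_mul
  fib_eq_self inv_fib fib_tower starProjection_mix measurable_mix_right fib_add_right)
open Vale.Agent.P262.H847 (UI)
open Vale.Agent.P262.H654 (tr phi sg Bd InvR fr phi_zero phi_mul phi_nonneg phi_le_one phi_mono
  invR_fr fr_mono fr_const fr_add fr_sub fr_const_mul fr_nonneg fr_mul fr_self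
  abs_fr_le fr_tower ofReal_fr)
open Vale.Agent.P262.H712 (nod nod_le nod_bd nod_nonneg nod_zero)
open Vale.Agent.P262.H713 Vale.Agent.P262.H713.FT

variable {E : Type*} [NormedAddCommGroup E] [InnerProductSpace ℝ E] [FiniteDimensional ℝ E]
  [MeasurableSpace E] [BorelSpace E] {ι : Type*}

/-- the two payoffs together (payoff of the intersection of the bodies) -/
noncomputable def gmx (g g' : ι → E → ℝ) (i : ι) (x : E) : ℝ := max (g i x) (g' i x)

/-- the change of the payoff at a point -/
noncomputable def dpay (t : FT E ι) (g g' : ι → E → ℝ) (x : E) : ℝ≥0∞ :=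
  ENNReal.ofReal |pay t g' x - pay t g x|

/-- the change of the payoff in the fibre, weighted with the slope product of the levels below -/
noncomputable def dls (W : Submodule ℝ E) (cls : E → ℕ) (T : ℕ → FT E ι) (g g' : ι → E → ℝ)
    (x : E) : ℝ≥0∞ :=
  fib W (fun y => sl (T (cls y)) (gmx g g') y * dpay (T (cls y)) g g' y) x

/-- the mean payoff at a label of a node -/
noncomputable def pm (W : Submodule ℝ E) (cls : E → ℕ) (T : ℕ → FT E ι) (g : ι → E → ℝ)
    (x : E) : ℝ := fr W (fun y => pay (T (cls y)) g y) x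

/-- the charge of one alive label -/
noncomputable def xxm (W : Submodule ℝ E) (c : E → ℝ) (cls : E → ℕ) (T : ℕ → FT E ι)
    (g g' : ι → E → ℝ) (x : E) : ℝ≥0∞ :=
  ENNReal.ofReal (c x) * (
    min (ENNReal.ofReal (1 - pm W cls T g x))
      (dls W cls T g g' x / ENNReal.ofReal (max (pm W cls T (gmx g g') x) (c x)))
    + min (ENNReal.ofReal (1 - pm W cls T g' x))
      (dls W cls T g g' x / ENNReal.ofReal (max (pm W cls T (gmx g g') x) (c x))))

/-- the total charge -/
noncomputable def rotA : FT E ι → (ι → E → ℝ) → (ι → E → ℝ) → E → ℝ≥0∞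
  | leaf _, _, _ => fun _ => 0
  | node W c Z cls T, g, g' => fun x =>
      if x ∈ Z then fib W (fun y => dpay (T (cls y)) g g' y) x
      else 24 * xxm W c cls T g g' x + rotA (T (cls x)) g g' x

/-- the hidden mass is small at all labels -/
def HidOK : FT E ι → (ι → E → ℝ) → Prop
  | leaf _, _ => True
  | node W c Z cls T, g =>
      (∀ x, x ∉ Z → pm W cls T g x ≤ val W cls T g x + c x) ∧ ∀ k, HidOK (T k) g

/-- the excess of the payoff over the field -/
noncomputable def exc (t : FT E ι) (g : ι → E → ℝ) (x : E) : ℝ := pay t g x - fl t g x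

section lemmas

variable {c0 : ℝ} {W V : Submodule ℝ E} {c : E → ℝ} {Z : Set E} {cls : E → ℕ} {T : ℕ → FT E ι}
  {t : FT E ι} {g g' : ι → E → ℝ} {x y : E}

lemma gmx_UI (hg : ∀ i, UI (g i)) (hg' : ∀ i, UI (g' i)) (i : ι) : UI (gmx g g' i) :=
  H654.UI.max (hg i) (hg' i)

lemma le_gmx (i : ι) (x : E) : g i x ≤ gmx g g' i x := le_max_left _ _
lemma le_gmx' (i : ι) (x : E) : g' i x ≤ gmx g g' i x := le_max_right _ _

lemma rotA_leaf (i : ι) : rotA (leaf i) g g' x = 0 := rfl

lemma rotA_node (W : Submodule ℝ E) (c : E → ℝ) (Z : Set E) (cls : E → ℕ) (T : ℕ → FT E ι)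
    (g g' : ι → E → ℝ) (x : E) : rotA (node W c Z cls T) g g' x
      = if x ∈ Z then fib W (fun y => dpay (T (cls y)) g g' y) x
        else 24 * xxm W c cls T g g' x + rotA (T (cls x)) g g' x := rfl

lemma exc_node_alive (hx : x ∉ Z) : exc (node W c Z cls T) g x
    = exc (T (cls x)) g x + (1 - phi (c x) (val W cls T g x)) * fl (T (cls x)) g x := by
  unfold exc
  rw [fl_node, if_neg hx, pay_node]
  ring

lemma exc_node_killed (hx : x ∈ Z) : exc (node W c Z cls T) g x = pay (T (cls x)) g x - 1 := by
  unfold exc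
  rw [fl_node, if_pos hx, pay_node]

lemma exc_bd (hT : Good c0 t) (hc : c0 ≤ 1 / 16) (hg : ∀ i, UI (g i)) : Bd (exc t g) :=
  (Bd.of_UI (pay_UI hT hg)).sub (Bd.of_UI (fl_UI hT hc hg))

lemma measurable_dpay (hT : Good c0 t) (hg : ∀ i, UI (g i)) (hg' : ∀ i, UI (g' i)) :
    Measurable (dpay t g g') :=
  (((pay_UI hT hg').meas.sub (pay_UI hT hg).meas).abs).ennreal_ofReal

lemma measurable_dls (hp : NodeOK c0 W c Z cls) (hk : ∀ k, Good c0 (T k)) (hc : c0 ≤ 1 / 16)
    (hg : ∀ i, UI (g i)) (hg' : ∀ i, UI (g' i)) : Measurable (dls W cls T g g') := by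
  refine measurable_fib ?_
  exact H395.Tree.measurable_sel (F := fun k y => sl (T k) (gmx g g') y * dpay (T k) g g' y)
    (fun k => (measurable_sl (hk k) hc (gmx_UI hg hg')).mul (measurable_dpay (hk k) hg hg'))
    hp.mcls

lemma pm_UI (hp : NodeOK c0 W c Z cls) (hk : ∀ k, Good c0 (T k)) (hg : ∀ i, UI (g i)) :
    UI (pm W cls T g) :=
  H654.UI.fr (UI_sel (F := fun k => pay (T k) g) (fun k => pay_UI (hk k) hg) hp.mcls) W

lemma measurable_xxm (hp : NodeOK c0 W c Z cls) (hk : ∀ k, Good c0 (T k)) (hc : c0 ≤ 1 / 16)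
    (hg : ∀ i, UI (g i)) (hg' : ∀ i, UI (g' i)) : Measurable (xxm W c cls T g g') := by
  have h1 := (pm_UI hp hk hg).meas
  have h2 := (pm_UI hp hk hg').meas
  have h3 := (pm_UI hp hk (gmx_UI hg hg')).meas
  have h4 := measurable_dls hp hk hc hg hg'
  have h5 := hp.meas
  have h6 : Measurable fun x => dls W cls T g g' x
      / ENNReal.ofReal (max (pm W cls T (gmx g g') x) (c x)) :=
    h4.div (h3.max h5).ennreal_ofReal
  exact h5.ennreal_ofReal.mul ((((measurable_const.sub h1).ennreal_ofReal).min h6).add
    (((measurable_const.sub h2).ennreal_ofReal).min h6))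

lemma measurable_rotA (hT : Good c0 t) (hc : c0 ≤ 1 / 16) (hg : ∀ i, UI (g i))
    (hg' : ∀ i, UI (g' i)) : Measurable (rotA t g g') := by
  induction t with
  | leaf i => exact measurable_const
  | node W c Z cls T ih =>
    obtain ⟨hp, hab, hk⟩ := hT
    refine Measurable.ite hp.measZ (measurable_fib ?_) ?_
    · exact H395.Tree.measurable_sel (F := fun k => dpay (T k) g g')
        (fun k => measurable_dpay (hk k) hg hg') hp.mcls
    · exact ((measurable_xxm hp hk hc hg hg').const_mul 24).add
        (H395.Tree.measurable_sel (F := fun k => rotA (T k) g g') (fun k => ih k (hk k)) hp.mcls)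

lemma inv_dls (W : Submodule ℝ E) (cls : E → ℕ) (T : ℕ → FT E ι) (g g' : ι → E → ℝ) :
    Inv W (dls W cls T g g') := inv_fib W _

lemma invR_pm (W : Submodule ℝ E) (cls : E → ℕ) (T : ℕ → FT E ι) (g : ι → E → ℝ) :
    InvR W (pm W cls T g) := invR_fr W _

lemma inv_xxm (hp : NodeOK c0 W c Z cls) : Inv W (xxm W c cls T g g') := by
  intro x w hw
  unfold xxm
  rw [hp.inv x w hw, inv_dls W cls T g g' x w hw, invR_pm W cls T g x w hw,
    invR_pm W cls T g' x w hw, invR_pm W cls T (gmx g g') x w hw]

/-! ### one node -/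

lemma fr_nodeF_le (hp : NodeOK c0 W c Z cls) (hk : ∀ k, Good c0 (T k)) (hc : c0 ≤ 1 / 16)
    (hg : ∀ i, UI (g i)) (hG : ∀ i, UI (g' i)) (h : ∀ i x, g i x ≤ g' i x) (hx : x ∉ Z) :
    fr W (fun y => |(1 - phi (c x) (val W cls T g x)) * fl (T (cls y)) g y
        - (1 - phi (c x) (val W cls T g' x)) * fl (T (cls y)) g' y|) x
      ≤ nod (c x) (val W cls T g x) (val W cls T g' x) := by
  have u := flc_UI (T := T) hp hk hc hg
  have u' := flc_UI (T := T) hp hk hc hG
  have hle : ∀ y, fl (T (cls y)) g y ≤ fl (T (cls y)) g' y :=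
    fun y => fl_mono (hk _) hc hg hG h y
  set F := val W cls T g x with hF
  set F' := val W cls T g' x with hF'
  have hFF : F ≤ F' := val_mono hp hk hc hg hG h x
  have hF0 : 0 ≤ F := (val_UI hp hk hc hg).nonneg x
  have hcx := (hp.le x hx).trans hc
  have hc0 := hp.nonneg x
  have m1 := phi_mono hc0 hcx hF0 hFF
  have m2 := phi_le_one hc0 hcx (hF0.trans hFF)
  have b1 : Bd fun y => |(1 - phi (c x) F) * fl (T (cls y)) g y
      - (1 - phi (c x) F') * fl (T (cls y)) g' y| :=
    (((Bd.of_UI u).const_mul _).sub ((Bd.of_UI u').const_mul _)).abs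
  have b2 : Bd fun y => (phi (c x) F' - phi (c x) F) * fl (T (cls y)) g y
      + (1 - phi (c x) F') * (fl (T (cls y)) g' y - fl (T (cls y)) g y) :=
    ((Bd.of_UI u).const_mul _).add (((Bd.of_UI u').sub (Bd.of_UI u)).const_mul _)
  refine (fr_mono b1 b2 (fun y => ?_) x).trans_eq ?_
  · have h1 := u.nonneg y
    have h2 := hle y
    have h3 : (0:ℝ) ≤ (phi (c x) F' - phi (c x) F) * fl (T (cls y)) g y :=
      mul_nonneg (by linarith) h1
    have h4 : (0:ℝ) ≤ (1 - phi (c x) F') * (fl (T (cls y)) g' y - fl (T (cls y)) g y) :=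
      mul_nonneg (by linarith) (by linarith)
    rw [abs_le]
    constructor <;> nlinarith
  · rw [fr_add ((Bd.of_UI u).const_mul _) (((Bd.of_UI u').sub (Bd.of_UI u)).const_mul _),
      fr_const_mul, fr_const_mul, fr_sub (Bd.of_UI u') (Bd.of_UI u)]
    rfl

/-- the scalar bound of one node in extended nonnegative reals -/
lemma nod_bd_enn {c F F' D q : ℝ} {X : ℝ≥0∞} (hc : 0 ≤ c) (hc' : c ≤ 1 / 16) (hF : 0 ≤ F)
    (h : F ≤ F') (hX : ENNReal.ofReal (F' - F) ≤ X) (hD : D ≤ F' + c) (hq : 1 - q ≤ F + c)
    (hq0 : 0 ≤ q) :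
    ENNReal.ofReal (nod c F F')
      ≤ 24 * (ENNReal.ofReal c * min (ENNReal.ofReal q) (X / ENNReal.ofReal (max D c))) := by
  have h1 := nod_bd (Δ := (F' - F) / 2) hc hc' hF h (by linarith) hD hq hq0
  refine (ENNReal.ofReal_le_ofReal h1).trans ?_
  rw [ENNReal.ofReal_mul (by norm_num), ENNReal.ofReal_mul hc]
  have e24 : ENNReal.ofReal 24 = 24 := by norm_num
  rw [e24]
  gcongr
  rw [ENNReal.ofReal_min]
  refine min_le_min le_rfl ?_
  rcases (hc.trans (le_max_right D c)).eq_or_lt with h0 | h0
  · rw [← h0]; simp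
  · rw [ENNReal.ofReal_div_of_pos h0]
    refine ENNReal.div_le_div_right ?_ _
    exact (ENNReal.ofReal_le_ofReal (by linarith)).trans hX

lemma sl_mul_le_dls (hp : NodeOK c0 W c Z cls) (hk : ∀ k, Good c0 (T k)) (hab : ∀ k, Above W (T k))
    (hc : c0 ≤ 1 / 16) (hg : ∀ i, UI (g i)) (hg' : ∀ i, UI (g' i)) {h : ι → E → ℝ}
    (hh : ∀ i, UI (h i)) (hle : ∀ i x, h i x ≤ gmx g g' i x)
    (hd : ∀ i x, gmx g g' i x - h i x ≤ |g' i x - g i x|) (x : E) :
    ENNReal.ofReal (val W cls T (gmx g g') x - val W cls T h x) ≤ dls W cls T g g' x := by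
  have hG := gmx_UI hg hg'
  have v := flc_UI (T := T) hp hk hc hh
  have v' := flc_UI (T := T) hp hk hc hG
  have b2 : Bd fun z => fl (T (cls z)) (gmx g g') z - fl (T (cls z)) h z :=
    (Bd.of_UI v').sub (Bd.of_UI v)
  have e : ENNReal.ofReal (val W cls T (gmx g g') x - val W cls T h x)
      = fib W (fun z => ENNReal.ofReal (fl (T (cls x)) (gmx g g') z - fl (T (cls x)) h z)) x := by
    rw [← fib_sel' hp.icls (fun k z => ENNReal.ofReal (fl (T k) (gmx g g') z - fl (T k) h z)) x,
      ← ofReal_fr b2 (fun z => sub_nonneg.2 (fl_mono (hk _) hc hh hG hle z)),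
      fr_sub (Bd.of_UI v') (Bd.of_UI v)]
    rfl
  rw [e]
  refine (fib_fl_sub_le hc hh hG hle (hk (cls x)) (hab (cls x)) x).trans ?_
  unfold dls
  rw [fib_sel' hp.icls (fun k y => sl (T k) (gmx g g') y * dpay (T k) g g' y) x]
  refine fib_mono (fun z => ?_) x
  gcongr
  unfold dpay pay
  exact ENNReal.ofReal_le_ofReal (hd _ _)

lemma gmx_sub_left (i : ι) (x : E) : gmx g g' i x - g i x ≤ |g' i x - g i x| := by
  unfold gmx
  rcases le_total (g i x) (g' i x) with h | h
  · rw [max_eq_right h]; exact le_abs_self _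
  · rw [max_eq_left h, sub_self]; exact abs_nonneg _

lemma gmx_sub_right (i : ι) (x : E) : gmx g g' i x - g' i x ≤ |g' i x - g i x| := by
  unfold gmx
  rcases le_total (g i x) (g' i x) with h | h
  · rw [max_eq_right h, sub_self]; exact abs_nonneg _
  · rw [max_eq_left h, abs_sub_comm]; exact le_abs_self _

/-- **(P5) on trees**: the excess changes by at most the total charge -/
theorem fib_exc_sub_le (hc : c0 ≤ 1 / 16) (hg : ∀ i, UI (g i)) (hg' : ∀ i, UI (g' i)) :
    ∀ {t : FT E ι} (_ : Good c0 t) (_ : HidOK t g) (_ : HidOK t g') (_ : HidOK t (gmx g g'))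
    {W : Submodule ℝ E} (_ : Above W t) (x : E),
    fib W (fun y => ENNReal.ofReal |exc t g' y - exc t g y|) x ≤ fib W (rotA t g g') x := by
  intro t
  induction t with
  | leaf i =>
    intro _ _ _ _ W _ x
    simp only [exc, fl_leaf, pay_leaf, sub_self, abs_zero, ENNReal.ofReal_zero]
    refine fib_mono (fun y => ?_) x
    exact zero_le
  | node V c Z cls T ih =>
    intro hT h1 h2 h3 W hW x
    have hTT := hT
    obtain ⟨hp, hab, hk⟩ := hT
    obtain ⟨k1, h1⟩ := h1
    obtain ⟨k2, h2⟩ := h2
    obtain ⟨k3, h3⟩ := h3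
    have hG := gmx_UI hg hg'
    have bE := exc_bd hTT hc hg
    have bE' := exc_bd hTT hc hg'
    have m1 : Measurable fun y => ENNReal.ofReal |exc (node V c Z cls T) g' y
        - exc (node V c Z cls T) g y| := ((bE'.meas.sub bE.meas).abs).ennreal_ofReal
    have m2 : Measurable (rotA (node V c Z cls T) g g') := measurable_rotA hTT hc hg hg'
    rw [← fib_tower hW m1, ← fib_tower hW m2]
    refine fib_mono (fun y => ?_) x
    by_cases hz : y ∈ Z
    · -- killed label
      have e1 : fib V (fun z => ENNReal.ofReal |exc (node V c Z cls T) g' z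
          - exc (node V c Z cls T) g z|) y = fib V (fun z => dpay (T (cls z)) g g' z) y := by
        apply fib_congr
        intro z hz'
        have hzz := (mem_iff_of hp.invZ hz').2 hz
        rw [exc_node_killed hzz, exc_node_killed hzz]
        unfold dpay
        congr 2; ring
      have e2 : fib V (rotA (node V c Z cls T) g g') y
          = fib V (fun _ => fib V (fun z => dpay (T (cls z)) g g' z) y) y := by
        apply fib_congr
        intro z hz'
        have hzz := (mem_iff_of hp.invZ hz').2 hz
        rw [rotA_node, if_pos hzz]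
        exact (inv_fib V _).eq_of hz'
      rw [e1, e2, fib_const]
    · -- alive label
      set S := T (cls y) with hS
      have hkS := hk (cls y)
      set F := val V cls T g y with hF
      set F' := val V cls T g' y with hF'
      set H := val V cls T (gmx g g') y with hH
      have cx := hp.nonneg y
      have cc := (hp.le y hz).trans hc
      set A : E → ℝ := fun z => |exc S g' z - exc S g z| with hA
      set B1 : E → ℝ := fun z => |(1 - phi (c y) F) * fl (T (cls z)) g z
        - (1 - phi (c y) H) * fl (T (cls z)) (gmx g g') z| with hB1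
      set B2 : E → ℝ := fun z => |(1 - phi (c y) F') * fl (T (cls z)) g' z
        - (1 - phi (c y) H) * fl (T (cls z)) (gmx g g') z| with hB2
      have v := flc_UI (T := T) hp hk hc hg
      have v' := flc_UI (T := T) hp hk hc hg'
      have vG := flc_UI (T := T) hp hk hc hG
      have bA : Bd A := ((exc_bd hkS hc hg').sub (exc_bd hkS hc hg)).abs
      have bB1 : Bd B1 := (((Bd.of_UI v).const_mul _).sub ((Bd.of_UI vG).const_mul _)).abs
      have bB2 : Bd B2 := (((Bd.of_UI v').const_mul _).sub ((Bd.of_UI vG).const_mul _)).abs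
      have s1 : fib V (fun z => ENNReal.ofReal |exc (node V c Z cls T) g' z
          - exc (node V c Z cls T) g z|) y
          ≤ fib V (fun z => ENNReal.ofReal (A z) + (ENNReal.ofReal (B1 z)
            + ENNReal.ofReal (B2 z))) y := by
        have e0 : fib V (fun z => ENNReal.ofReal |exc (node V c Z cls T) g' z
          - exc (node V c Z cls T) g z|) y
            = fib V (fun z => ENNReal.ofReal |(exc S g' z + (1 - phi (c y) F') * fl (T (cls z)) g' z)
              - (exc S g z + (1 - phi (c y) F) * fl (T (cls z)) g z)|) y := by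
          apply fib_congr
          intro z hz'
          have hzz : z ∉ Z := fun h => hz ((mem_iff_of hp.invZ hz').1 h)
          rw [exc_node_alive hzz, exc_node_alive hzz, hp.inv.eq_of hz',
            (invR_val V cls T g).eq_of hz', (invR_val V cls T g').eq_of hz', hp.icls.eq_of hz']
        rw [e0]
        refine fib_mono (fun z => ?_) y
        rw [← ENNReal.ofReal_add (abs_nonneg _) (abs_nonneg _),
          ← ENNReal.ofReal_add (abs_nonneg _) (add_nonneg (abs_nonneg _) (abs_nonneg _))]
        apply ENNReal.ofReal_le_ofReal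
        have e3 : exc S g' z + (1 - phi (c y) F') * fl (T (cls z)) g' z
            - (exc S g z + (1 - phi (c y) F) * fl (T (cls z)) g z)
            = (exc S g' z - exc S g z)
              + (-((1 - phi (c y) F) * fl (T (cls z)) g z
                  - (1 - phi (c y) H) * fl (T (cls z)) (gmx g g') z)
              + ((1 - phi (c y) F') * fl (T (cls z)) g' z
                  - (1 - phi (c y) H) * fl (T (cls z)) (gmx g g') z)) := by
          ring
        rw [e3]
        refine (abs_add_le _ _).trans (add_le_add le_rfl ?_)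
        refine (abs_add_le _ _).trans_eq ?_
        rw [abs_neg]
      have mB1 : Measurable fun z => ENNReal.ofReal (B1 z) := bB1.meas.ennreal_ofReal
      have mB2 : Measurable fun z => ENNReal.ofReal (B2 z) := bB2.meas.ennreal_ofReal
      have mA : Measurable fun z => ENNReal.ofReal (A z) := bA.meas.ennreal_ofReal
      have s2 : fib V (fun z => ENNReal.ofReal (A z) + (ENNReal.ofReal (B1 z)
            + ENNReal.ofReal (B2 z))) y = fib V (fun z => ENNReal.ofReal (A z)) y
            + (ENNReal.ofReal (fr V B1 y) + ENNReal.ofReal (fr V B2 y)) := by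
        rw [fib_add mA, fib_add mB1, ofReal_fr bB1 (fun z => abs_nonneg _),
          ofReal_fr bB2 (fun z => abs_nonneg _)]
      have n1 : fr V B1 y ≤ nod (c y) F H := fr_nodeF_le hp hk hc hg hG (fun i z => le_gmx i z) hz
      have n2 : fr V B2 y ≤ nod (c y) F' H := fr_nodeF_le hp hk hc hg' hG (fun i z => le_gmx' i z) hz
      have ihy := ih (cls y) hkS (h1 _) (h2 _) (h3 _) (hab _) y
      have d1 := sl_mul_le_dls hp hk hab hc hg hg' hg (fun i z => le_gmx i z)
        (fun i z => gmx_sub_left i z) y
      have d2 := sl_mul_le_dls hp hk hab hc hg hg' hg' (fun i z => le_gmx' i z)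
        (fun i z => gmx_sub_right i z) y
      have F0 : 0 ≤ F := (val_UI hp hk hc hg).nonneg y
      have F0' : 0 ≤ F' := (val_UI hp hk hc hg').nonneg y
      have l1 : F ≤ H := val_mono hp hk hc hg hG (fun i z => le_gmx i z) y
      have l2 : F' ≤ H := val_mono hp hk hc hg' hG (fun i z => le_gmx' i z) y
      have p1 := (pm_UI hp hk hg).le_one y
      have p2 := (pm_UI hp hk hg').le_one y
      have nb1 := nod_bd_enn (q := 1 - pm V cls T g y) cx cc F0 l1 d1 (k3 y hz)
        (by have := k1 y hz; linarith) (by linarith)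
      have nb2 := nod_bd_enn (q := 1 - pm V cls T g' y) cx cc F0' l2 d2 (k3 y hz)
        (by have := k2 y hz; linarith) (by linarith)
      have e5 : fib V (rotA (node V c Z cls T) g g') y
          = 24 * xxm V c cls T g g' y + fib V (rotA S g g') y := by
        have e6 : fib V (rotA (node V c Z cls T) g g') y
            = fib V (fun z => 24 * xxm V c cls T g g' y + rotA S g g' z) y := by
          apply fib_congr
          intro z hz'
          have hzz : z ∉ Z := fun h => hz ((mem_iff_of hp.invZ hz').1 h)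
          rw [rotA_node, if_neg hzz, (inv_xxm hp).eq_of hz', hp.icls.eq_of hz']
        rw [e6, fib_add measurable_const, fib_const]
      rw [e5]
      refine (s1.trans_eq s2).trans ?_
      have e8 : 24 * xxm V c cls T g g' y
          = 24 * (ENNReal.ofReal (c y) * min (ENNReal.ofReal (1 - pm V cls T g y))
              (dls V cls T g g' y / ENNReal.ofReal (max (pm V cls T (gmx g g') y) (c y))))
            + 24 * (ENNReal.ofReal (c y) * min (ENNReal.ofReal (1 - pm V cls T g' y))
              (dls V cls T g g' y / ENNReal.ofReal (max (pm V cls T (gmx g g') y) (c y)))) := by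
        unfold xxm; ring
      rw [e8, add_comm]
      refine add_le_add (add_le_add ?_ ?_) ihy
      · exact (ENNReal.ofReal_le_ofReal n1).trans nb1
      · exact (ENNReal.ofReal_le_ofReal n2).trans nb2

end lemmas

end Vale.Agent.P262.H174
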