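import Vale.Agent.P262.H174.CF3a
import Vale.Agent.P262.H712.FieldF4

/-!
# P262, milestone 2, CF3 part b: the change of the cut-off field on a tree under a rotation of all
its labels, at the label fixed by the rotation

`t` is the tree of the labels moved by the isometry `R`, which fixes `W'` pointwise.  The payoffs of
the leaves are one function: `g` for the old body and `g'` for the new body, `g' (R x) = g x`.
-/

set_option linter.all false

open MeasureTheory ProbabilityTheory Set
open scoped ENNReal RealInnerProductSpace Classical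

namespace Vale.Agent.P262.H174

open Vale.Agent.P262.H395 (mix fib Inv measurable_fib fib_mono fib_const fib_add fib_mul
  fib_eq_self inv_fib fib_tower starProjection_mix measurable_mix_right fib_add_right)
open Vale.Agent.P262.H847 (UI)
open Vale.Agent.P262.H654 (tr phi sg Bd InvR fr phi_zero phi_mul phi_nonneg phi_le_one phi_mono
  invR_fr fr_mono fr_const fr_add fr_sub fr_const_mul fr_nonneg fr_mul fr_self
  abs_fr_le fr_tower ofReal_fr)
open Vale.Agent.P262.H712 (fr_fix)
open Vale.Agent.P262.H713 Vale.Agent.P262.H713.FT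

variable {E : Type*} [NormedAddCommGroup E] [InnerProductSpace ℝ E] [FiniteDimensional ℝ E]
  [MeasurableSpace E] [BorelSpace E] {ι : Type*}

section lemmas

variable {c0 : ℝ} {W V W' : Submodule ℝ E} {c : E → ℝ} {Z : Set E} {cls : E → ℕ} {T : ℕ → FT E ι}
  {t : FT E ι} {g g' : ι → E → ℝ} {f f' : E → ℝ} {x y : E}

/-- the excess is the hidden field minus the killed part of the body -/
lemma exc_eq (t : FT E ι) (g : ι → E → ℝ) (x : E) :
    exc t g x = hid t g x - (1 - al t x) * (1 - pay t g x) := by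
  unfold exc hid; ring

lemma abs_exc_le (hT : Good c0 t) (hc : c0 ≤ 1 / 16) (hg : ∀ i, UI (g i)) (x : E) :
    |exc t g x| ≤ hid t g x + (1 - al t x) * (1 - pay t g x) := by
  rw [exc_eq]
  have h1 := hid_nonneg hT hc hg x
  have h2 : 0 ≤ (1 - al t x) * (1 - pay t g x) :=
    mul_nonneg (by linarith [(al_UI hT).le_one x]) (by linarith [(pay_UI hT hg).le_one x])
  rw [abs_le]
  constructor <;> linarith

lemma abs_exc_le_one (hT : Good c0 t) (hc : c0 ≤ 1 / 16) (hg : ∀ i, UI (g i)) (x : E) :
    |exc t g x| ≤ 1 := by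
  have h1 := (pay_UI hT hg).nonneg x
  have h2 := (pay_UI hT hg).le_one x
  have h3 := (fl_UI hT hc hg).nonneg x
  have h4 := (fl_UI hT hc hg).le_one x
  unfold exc
  rw [abs_le]; constructor <;> linarith

/-- constant families of payoffs -/
def kst (ι : Type*) (f : E → ℝ) : ι → E → ℝ := fun _ => f

omit [FiniteDimensional ℝ E] [MeasurableSpace E] [BorelSpace E] in
@[simp] lemma pay_kst (t : FT E ι) (f : E → ℝ) (x : E) : pay t (kst ι f) x = f x := rfl

lemma kst_UI (hf : UI f) (i : ι) : UI (kst ι f i) := hf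

/-- the displaced part of the excess -/
noncomputable def rotB (t : FT E ι) (f : E → ℝ) (R : E ≃ₗᵢ[ℝ] E) (x : E) : ℝ≥0∞ :=
  ENNReal.ofReal |exc t (kst ι f) x| * ENNReal.ofReal ‖R.symm x - x‖

lemma measurable_rotB (hT : Good c0 t) (hc : c0 ≤ 1 / 16) (hf : UI f) (R : E ≃ₗᵢ[ℝ] E) :
    Measurable (rotB t f R) := by
  have h1 := (exc_bd (g := kst ι f) hT hc (kst_UI hf)).meas.abs.ennreal_ofReal
  have h2 : Measurable fun x : E => ENNReal.ofReal ‖R.symm x - x‖ := by
    have : Continuous fun x : E => ‖R.symm x - x‖ :=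
      (R.symm.continuous.sub continuous_id).norm
    exact this.measurable.ennreal_ofReal
  exact h1.mul h2

/-- **core, L1 form and test functions**: `w` any bounded measurable test function -/
theorem core_test (hT : Good c0 t) (hc : c0 ≤ 1 / 16) (hf : UI f) (hf' : UI f')
    (h1 : HidOK t (kst ι f)) (h2 : HidOK t (kst ι f')) (h3 : HidOK t (gmx (kst ι f) (kst ι f')))
    (hW : Above W' t) {R : E ≃ₗᵢ[ℝ] E} (hR : ∀ w ∈ W', R w = w) (hgg : ∀ x, f' (R x) = f x)
    {w : E → ℝ} (hw : Measurable w) (hw1 : ∀ x, |w x| ≤ 1) (x : E) :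
    ENNReal.ofReal |fr W' (fun y => (fl t (kst ι f') (R y) - fl t (kst ι f) y) * w y) x|
      ≤ fib W' (rotA t (kst ι f) (kst ι f')) x
        + fib W' (fun y => ENNReal.ofReal |exc t (kst ι f) y|
          * ENNReal.ofReal |w (R.symm y) - w y|) x := by
  have bw : Bd w := ⟨hw, 1, hw1⟩
  have bws : Bd fun y => w (R.symm y) := bw.comp R.symm.continuous.measurable
  have be := exc_bd (g := kst ι f) hT hc (kst_UI hf)
  have be' := exc_bd (g := kst ι f') hT hc (kst_UI hf')
  have beR : Bd fun y => exc t (kst ι f) (R y) := be.comp R.continuous.measurable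
  have beR' : Bd fun y => exc t (kst ι f') (R y) := be'.comp R.continuous.measurable
  have d0 : (fun y => (fl t (kst ι f') (R y) - fl t (kst ι f) y) * w y)
      = fun y => (exc t (kst ι f) y * w y - exc t (kst ι f) (R y) * w y)
        + (exc t (kst ι f) (R y) - exc t (kst ι f') (R y)) * w y := by
    funext y
    unfold exc
    rw [pay_kst, pay_kst, pay_kst, hgg]
    ring
  have d1 : fr W' (fun y => exc t (kst ι f) (R y) * w y) x
      = fr W' (fun y => exc t (kst ι f) y * w (R.symm y)) x := by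
    have := fr_fix hR (be.mul bws) x
    rw [← this]
    congr 1
    funext y
    rw [R.symm_apply_apply]
  rw [d0, fr_add ((be.mul bw).sub (beR.mul bw)) ((beR.sub beR').mul bw),
    fr_sub (be.mul bw) (beR.mul bw), d1, ← fr_sub (be.mul bw) (be.mul bws)]
  have b1 : Bd fun y => exc t (kst ι f) y * w y - exc t (kst ι f) y * w (R.symm y) :=
    (be.mul bw).sub (be.mul bws)
  have b2 : Bd fun y => (exc t (kst ι f) (R y) - exc t (kst ι f') (R y)) * w y :=
    (beR.sub beR').mul bw
  have s1 : |fr W' (fun y => exc t (kst ι f) y * w y - exc t (kst ι f) y * w (R.symm y)) x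
      + fr W' (fun y => (exc t (kst ι f) (R y) - exc t (kst ι f') (R y)) * w y) x|
      ≤ fr W' (fun y => |exc t (kst ι f) y| * |w (R.symm y) - w y|) x
        + fr W' (fun y => |exc t (kst ι f') y - exc t (kst ι f) y|) x := by
    refine (abs_add_le _ _).trans (add_le_add ?_ ?_)
    · refine (abs_fr_le _ x).trans ?_
      refine fr_mono b1.abs (be.abs.mul (bws.sub bw).abs) (fun y => ?_) x
      rw [← mul_sub, abs_mul]
      apply le_of_eq
      congr 1
      exact abs_sub_comm _ _
    · refine (abs_fr_le _ x).trans ?_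
      have t1 : fr W' (fun y => |(exc t (kst ι f) (R y) - exc t (kst ι f') (R y)) * w y|) x
          ≤ fr W' (fun y => |exc t (kst ι f') (R y) - exc t (kst ι f) (R y)|) x := by
        refine fr_mono b2.abs (beR'.sub beR).abs (fun y => ?_) x
        rw [abs_mul, abs_sub_comm]
        exact mul_le_of_le_one_right (abs_nonneg _) (hw1 y)
      exact t1.trans_eq (fr_fix hR (be'.sub be).abs x)
  refine (ENNReal.ofReal_le_ofReal s1).trans ?_
  rw [ENNReal.ofReal_add (fr_nonneg (fun y => mul_nonneg (abs_nonneg _) (abs_nonneg _)) x)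
    (fr_nonneg (fun y => abs_nonneg _) x), add_comm]
  refine add_le_add ?_ (le_of_eq ?_)
  · rw [ofReal_fr (be'.sub be).abs (fun y => abs_nonneg _)]
    exact fib_exc_sub_le hc (kst_UI hf) (kst_UI hf') hT h1 h2 h3 hW x
  · rw [ofReal_fr (be.abs.mul (bws.sub bw).abs) (fun y => mul_nonneg (abs_nonneg _) (abs_nonneg _))]
    congr 1
    funext y
    exact ENNReal.ofReal_mul (abs_nonneg _)

/-- **core, Lipschitz test functions** -/
theorem core_soft (hT : Good c0 t) (hc : c0 ≤ 1 / 16) (hf : UI f) (hf' : UI f')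
    (h1 : HidOK t (kst ι f)) (h2 : HidOK t (kst ι f')) (h3 : HidOK t (gmx (kst ι f) (kst ι f')))
    (hW : Above W' t) {R : E ≃ₗᵢ[ℝ] E} (hR : ∀ w ∈ W', R w = w) (hgg : ∀ x, f' (R x) = f x)
    {w : E → ℝ} {ℓ : ℝ} (hℓ : 0 ≤ ℓ) (hw : H712.TF w ℓ) (x : E) :
    ENNReal.ofReal |fr W' (fun y => (fl t (kst ι f') (R y) - fl t (kst ι f) y) * w y) x|
      ≤ fib W' (rotA t (kst ι f) (kst ι f')) x + ENNReal.ofReal ℓ * fib W' (rotB t f R) x := by
  refine (core_test hT hc hf hf' h1 h2 h3 hW hR hgg hw.meas hw.bd x).trans ?_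
  refine add_le_add le_rfl ?_
  rw [← fib_mul (H395.inv_const W' _) (measurable_rotB hT hc hf R)]
  refine fib_mono (fun y => ?_) x
  unfold rotB
  have h4 : ENNReal.ofReal |w (R.symm y) - w y| ≤ ENNReal.ofReal ℓ * ENNReal.ofReal ‖R.symm y - y‖ := by
    rw [← ENNReal.ofReal_mul hℓ]
    exact ENNReal.ofReal_le_ofReal (hw.lip _ _)
  calc ENNReal.ofReal |exc t (kst ι f) y| * ENNReal.ofReal |w (R.symm y) - w y|
      ≤ ENNReal.ofReal |exc t (kst ι f) y|
        * (ENNReal.ofReal ℓ * ENNReal.ofReal ‖R.symm y - y‖) := by gcongr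
    _ = _ := by ring

/-- the mean of the field of the rotated tree -/
theorem core_mean (hT : Good c0 t) (hc : c0 ≤ 1 / 16) (hf : UI f) (hf' : UI f')
    (h1 : HidOK t (kst ι f)) (h2 : HidOK t (kst ι f')) (h3 : HidOK t (gmx (kst ι f) (kst ι f')))
    (hW : Above W' t) {R : E ≃ₗᵢ[ℝ] E} (hR : ∀ w ∈ W', R w = w) (hgg : ∀ x, f' (R x) = f x)
    (x : E) :
    ENNReal.ofReal |fr W' (fun y => fl t (kst ι f') (R y) - fl t (kst ι f) y) x|
      ≤ fib W' (rotA t (kst ι f) (kst ι f')) x := by
  have h := core_test hT hc hf hf' h1 h2 h3 hW hR hgg (w := fun _ => 1) measurable_const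
    (fun _ => by simp) x
  simpa [fib_const] using h

end lemmas

end Vale.Agent.P262.H174
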