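import Vale.Agent.P262.H174.CF3b
import Vale.Agent.P262.H713.CF1b
import Vale.Agent.P262.H654.CF2

/-!
# P262, milestone 2, CF3 part c: rotation of one node of the tree, seen from an outer label

`t0` is the upper part of the tree (cut at the rotating node), its leaf `q` carries the tree `S q`
of the rotating node, which is replaced by its image under the isometry `ρ`; `ρ` fixes the label
space of the parent.  The payoff `f` (complement of the body) is the same at all leaves.
-/

set_option linter.all false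

open MeasureTheory ProbabilityTheory Set
open scoped ENNReal RealInnerProductSpace Classical

namespace Vale.Agent.P262.H174

open Vale.Agent.P262.H395 (mix fib Inv measurable_fib fib_mono fib_const fib_add fib_mul
  fib_eq_self inv_fib fib_tower starProjection_mix measurable_mix_right fib_add_right Fixes)
open Vale.Agent.P262.H847 (UI)
open Vale.Agent.P262.H654 (tr phi sg Bd InvR fr phi_zero phi_mul phi_nonneg phi_le_one phi_mono
  invR_fr fr_mono fr_const fr_add fr_sub fr_const_mul fr_nonneg fr_mul fr_self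
  abs_fr_le fr_tower ofReal_fr)
open Vale.Agent.P262.H713 Vale.Agent.P262.H713.FT

variable {E : Type*} [NormedAddCommGroup E] [InnerProductSpace ℝ E] [FiniteDimensional ℝ E]
  [MeasurableSpace E] [BorelSpace E] {ι κ : Type*}

/-- the average, over the last label space before the leaf, of a function attached to the leaf -/
noncomputable def la (h : κ → E → ℝ≥0∞) : Submodule ℝ E → FT E κ → E → ℝ≥0∞
  | W, leaf i => fib W (h i)
  | _, node V _ _ cls T => fun x => la h V (T (cls x)) x

section lemmas

variable {c0 k : ℝ} {W V W' : Submodule ℝ E} {c : E → ℝ} {Z : Set E} {cls : E → ℕ}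
  {T : ℕ → FT E κ} {t : FT E κ} {g g' : κ → E → ℝ} {h : κ → E → ℝ≥0∞} {x y : E}

lemma measurable_la (hT : Good c0 t) (hh : ∀ i, Measurable (h i)) (W : Submodule ℝ E) :
    Measurable (la h W t) := by
  induction t generalizing W with
  | leaf i => exact measurable_fib (hh i)
  | node V c Z cls T ih =>
    obtain ⟨hp, hab, hk⟩ := hT
    exact H395.Tree.measurable_sel (F := fun k => la h V (T k)) (fun k => ih k (hk k) V) hp.mcls

lemma measurable_lf (hT : Good c0 t) (hh : ∀ i, Measurable (h i)) :
    Measurable fun y => h (leafOf t y) y := by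
  induction t with
  | leaf i => exact hh i
  | node V c Z cls T ih =>
    obtain ⟨hp, hab, hk⟩ := hT
    exact H395.Tree.measurable_sel (F := fun k y => h (leafOf (T k) y) y)
      (fun k => ih k (hk k)) hp.mcls

/-- the slopes are constant over the fibres of the last label space -/
theorem fib_slm_la (hc : c0 ≤ 1 / 16) (hg : ∀ i, UI (g i)) (hg' : ∀ i, UI (g' i))
    (hh : ∀ i, Measurable (h i)) : ∀ {t : FT E κ} (_ : Good c0 t) {W : Submodule ℝ E}
    (_ : Above W t) (x : E),
    fib W (fun y => slm t g g' y * la h W t y) x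
      = fib W (fun y => slm t g g' y * h (leafOf t y) y) x := by
  intro t
  induction t with
  | leaf i =>
    intro _ W _ x
    have e1 : (fun y => slm (leaf i) g g' y * la h W (leaf i) y) = fib W (h i) := by
      funext y
      change 1 * _ = _
      rw [one_mul]; rfl
    have e2 : (fun y => slm (leaf i) g g' y * h (leafOf (leaf i : FT E κ) y) y) = h i := by
      funext y
      change 1 * _ = _
      rw [one_mul]; rfl
    rw [e1, e2, fib_eq_self (inv_fib W _)]
  | node V c Z cls T ih =>
    intro hT W hW x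
    have hTT := hT
    obtain ⟨hp, hab, hk⟩ := hT
    have ms := measurable_slm hTT hc hg hg'
    have m1 : Measurable fun y => slm (node V c Z cls T) g g' y * la h W (node V c Z cls T) y :=
      ms.mul (measurable_la hTT hh W)
    have m2 : Measurable fun y => slm (node V c Z cls T) g g' y
        * h (leafOf (node V c Z cls T) y) y := ms.mul (measurable_lf hTT hh)
    rw [← fib_tower hW m1, ← fib_tower hW m2]
    congr 1
    funext y
    have mk1 : Measurable fun z => slm (T (cls y)) g g' z * la h V (T (cls y)) z :=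
      (measurable_slm (hk _) hc hg hg').mul (measurable_la (hk _) hh V)
    have mk2 : Measurable fun z => slm (T (cls y)) g g' z * h (leafOf (T (cls y)) z) z :=
      (measurable_slm (hk _) hc hg hg').mul (measurable_lf (hk _) hh)
    have e1 : fib V (fun z => slm (node V c Z cls T) g g' z * la h W (node V c Z cls T) z) y
        = fib V (fun z => sf c Z (fun z => max (val V cls T g z) (val V cls T g' z)) y
          * (slm (T (cls y)) g g' z * la h V (T (cls y)) z)) y := by
      apply fib_congr
      intro z hz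
      rw [slm_node V, (inv_sf hp (invR_maxval V cls T g g')).eq_of hz, hp.icls.eq_of hz]
      change _ * _ * la h V (T (cls z)) z = _
      rw [hp.icls.eq_of hz, mul_assoc]
    have e2 : fib V (fun z => slm (node V c Z cls T) g g' z
          * h (leafOf (node V c Z cls T) z) z) y
        = fib V (fun z => sf c Z (fun z => max (val V cls T g z) (val V cls T g' z)) y
          * (slm (T (cls y)) g g' z * h (leafOf (T (cls y)) z) z)) y := by
      apply fib_congr
      intro z hz
      rw [slm_node V, (inv_sf hp (invR_maxval V cls T g g')).eq_of hz, hp.icls.eq_of hz]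
      change _ * _ * h (leafOf (T (cls z)) z) z = _
      rw [hp.icls.eq_of hz, mul_assoc]
    rw [e1, e2, fib_mul (H395.inv_const V _) mk1, fib_mul (H395.inv_const V _) mk2,
      ih (cls y) (hk _) (hab _) y]

lemma lp_le_la {w : E → ℝ} (hl : Last (fun V i => ∀ y,
      max (ENNReal.ofReal |fr V (fun z => (g' i z - g i z) * w z) y|)
        (ENNReal.ofReal |fr V (fun z => g' i z - g i z) y|) ≤ fib V (h i) y) W t) (y : E) :
    lp w g g' W t y ≤ la h W t y := by
  induction t generalizing W with
  | leaf i => exact hl y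
  | node V c Z cls T ih => exact ih (cls y) (hl (cls y))

lemma last_mono {P Q : Submodule ℝ E → κ → Prop} (h : ∀ V i, P V i → Q V i) (hl : Last P W t) :
    Last Q W t := by
  induction t generalizing W with
  | leaf i => exact h _ _ hl
  | node V c Z cls T ih => exact fun k => ih k (hl k)

end lemmas

section rotation

variable {c0 k : ℝ} {W V : Submodule ℝ E} {t : FT E κ} {S : κ → FT E ι} {q : κ} {f : E → ℝ}
  {ρ : E ≃ₗᵢ[ℝ] E} {x y : E}

/-- the leaf trees after the rotation of the tree of the leaf `q` -/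
noncomputable def rotS (S : κ → FT E ι) (q : κ) (ρ : E ≃ₗᵢ[ℝ] E) (i : κ) : FT E ι :=
  if i = q then mp ρ (S i) else S i

lemma rotS_self : rotS S q ρ q = mp ρ (S q) := by unfold rotS; rw [if_pos rfl]

lemma rotS_ne {i : κ} (h : i ≠ q) : rotS S q ρ i = S i := by unfold rotS; rw [if_neg h]

lemma good_rotS (hS : ∀ i, Good c0 (S i)) (i : κ) : Good c0 (rotS S q ρ i) := by
  unfold rotS
  split_ifs
  · exact good_mp (hS i)
  · exact hS i

/-- payoffs of the upper tree before the rotation -/
noncomputable def pg (S : κ → FT E ι) (f : E → ℝ) (i : κ) : E → ℝ := fl (S i) (kst ι f)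

lemma pg_UI (hS : ∀ i, Good c0 (S i)) (hc : c0 ≤ 1 / 16) (hf : UI f) (i : κ) : UI (pg S f i) :=
  fl_UI (hS i) hc (kst_UI hf)

/-- the image of the rotated payoff -/
lemma pg_rot (y : E) : pg (rotS S q ρ) f q y
    = fl (S q) (kst ι fun z => f (ρ z)) (ρ.symm y) := by
  unfold pg
  rw [rotS_self, fl_mp']
  rfl

/-- the body read in the rotated labels -/
lemma UI_comp (hf : UI f) (ρ : E ≃ₗᵢ[ℝ] E) : UI fun z => f (ρ z) :=
  ⟨hf.meas.comp ρ.continuous.measurable, fun x => hf.nonneg _, fun x => hf.le_one _⟩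

/-- the conditions on the hidden mass of the rotating tree -/
structure HidR (S : FT E ι) (f : E → ℝ) (ρ : E ≃ₗᵢ[ℝ] E) : Prop where
  old : HidOK S (kst ι f)
  new : HidOK S (kst ι fun z => f (ρ z))
  max : HidOK S (gmx (kst ι f) (kst ι fun z => f (ρ z)))

/-- the charge at the rotating node: `L¹` part plus `ℓ` times the displaced part -/
noncomputable def chg (S : FT E ι) (f : E → ℝ) (ρ : E ≃ₗᵢ[ℝ] E) (ℓ : ℝ) (y : E) : ℝ≥0∞ :=
  rotA S (kst ι f) (kst ι fun z => f (ρ z)) y + ENNReal.ofReal ℓ * rotB S f ρ.symm y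

lemma measurable_chg (hS : Good c0 (S q)) (hc : c0 ≤ 1 / 16) (hf : UI f) (ℓ : ℝ) :
    Measurable (chg (S q) f ρ ℓ) :=
  (measurable_rotA hS hc (kst_UI hf) (kst_UI (UI_comp hf ρ))).add
    ((measurable_rotB hS hc hf ρ.symm).const_mul _)

/-- **CF3, outer observer**: rotation of the node at the leaf `q` of the upper tree `t` -/
theorem rot_outer (hc : c0 ≤ 1 / 16) (ht : Good c0 t) (hW : Above W t) (hS : ∀ i, Good c0 (S i))
    (hf : UI f) (hH : HidR (S q) f ρ)
    (hl : Last (fun V i => i = q → Fixes ρ V ∧ Above V (S q)) W t)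
    {w : E → ℝ} {ℓ : ℝ} (hℓ : 0 ≤ ℓ) (hw : H712.TF w ℓ) (x : E) :
    ENNReal.ofReal |fr W (fun y => (fl (t.bind (rotS S q ρ)) (kst ι f) y
        - fl (t.bind S) (kst ι f) y) * w y) x|
      ≤ fib W (fun y => slm t (pg S f) (pg (rotS S q ρ) f) y
        * (if leafOf t y = q then chg (S q) f ρ ℓ y else 0)) x := by
  have hS' := good_rotS (q := q) (ρ := ρ) hS
  have u := pg_UI hS hc hf
  have u' := pg_UI hS' hc hf
  have e0 : (fun y => (fl (t.bind (rotS S q ρ)) (kst ι f) y - fl (t.bind S) (kst ι f) y) * w y)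
      = fun y => (fl t (pg (rotS S q ρ) f) y - fl t (pg S f) y) * w y := by
    funext y
    rw [fl_bind, fl_bind]
    rfl
  rw [e0]
  refine (pert hc u u' hw.meas hw.bd ht hW x).trans ?_
  set h : κ → E → ℝ≥0∞ := fun i y => if i = q then chg (S q) f ρ ℓ y else 0 with hh
  have mh : ∀ i, Measurable (h i) := by
    intro i
    by_cases hi : i = q
    · have : h i = chg (S q) f ρ ℓ := by funext y; simp only [hh, if_pos hi]
      rw [this]
      exact measurable_chg (hS q) hc hf ℓ
    · have : h i = fun _ => 0 := by funext y; simp only [hh, if_neg hi]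
      rw [this]
      exact measurable_const
  have key : Last (fun V i => ∀ y,
      max (ENNReal.ofReal |fr V (fun z => (pg (rotS S q ρ) f i z - pg S f i z) * w z) y|)
        (ENNReal.ofReal |fr V (fun z => pg (rotS S q ρ) f i z - pg S f i z) y|)
        ≤ fib V (h i) y) W t := by
    refine last_mono (fun V i hVi y => ?_) hl
    by_cases hi : i = q
    · subst hi
      obtain ⟨hfix, hab⟩ := hVi rfl
      have e1 : h i = chg (S i) f ρ ℓ := by funext z; simp only [hh, if_pos rfl]
      rw [e1]
      have hR : ∀ w ∈ V, ρ.symm w = w := hfix.symm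
      have hgg : ∀ z, (fun z => f (ρ z)) (ρ.symm z) = f z := by
        intro z; simp
      have hc1 := core_soft (hS i) hc hf (UI_comp hf ρ) hH.old hH.new hH.max hab hR hgg hℓ hw y
      have hc2 := core_mean (hS i) hc hf (UI_comp hf ρ) hH.old hH.new hH.max hab hR hgg y
      have mA := measurable_rotA (hS i) hc (kst_UI (ι := ι) hf) (kst_UI (UI_comp hf ρ))
      have mB := measurable_rotB (hS i) hc hf ρ.symm
      have e2 : fib V (chg (S i) f ρ ℓ) y = fib V (rotA (S i) (kst ι f)
          (kst ι fun z => f (ρ z))) y + ENNReal.ofReal ℓ * fib V (rotB (S i) f ρ.symm) y := by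
        unfold chg
        rw [fib_add mA, fib_mul (H395.inv_const V _) mB]
      rw [e2]
      refine max_le ?_ ?_
      · simp_rw [pg_rot]
        exact hc1
      · simp_rw [pg_rot]
        exact hc2.trans le_self_add
    · have e1 : pg (rotS S q ρ) f i = pg S f i := by
        unfold pg
        rw [rotS_ne hi]
      rw [e1]
      simp [fr_const]
  calc fib W (fun y => slm t (pg S f) (pg (rotS S q ρ) f) y
        * lp w (pg S f) (pg (rotS S q ρ) f) W t y) x
      ≤ fib W (fun y => slm t (pg S f) (pg (rotS S q ρ) f) y * la h W t y) x := by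
        refine fib_mono (fun y => ?_) x
        gcongr
        exact lp_le_la key y
    _ = fib W (fun y => slm t (pg S f) (pg (rotS S q ρ) f) y * h (leafOf t y) y) x :=
        fib_slm_la hc u u' mh ht hW x
    _ = _ := rfl

/-- the `L¹` price at the observer -/
noncomputable def priA (t : FT E κ) (S : κ → FT E ι) (q : κ) (ρ : E ≃ₗᵢ[ℝ] E) (f : E → ℝ)
    (y : E) : ℝ≥0∞ :=
  slm t (pg S f) (pg (rotS S q ρ) f) y
    * (if leafOf t y = q then rotA (S q) (kst ι f) (kst ι fun z => f (ρ z)) y else 0)

/-- the soft price at the observer -/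
noncomputable def priB (t : FT E κ) (S : κ → FT E ι) (q : κ) (ρ : E ≃ₗᵢ[ℝ] E) (f : E → ℝ)
    (y : E) : ℝ≥0∞ :=
  slm t (pg S f) (pg (rotS S q ρ) f) y * (if leafOf t y = q then rotB (S q) f ρ.symm y else 0)

lemma measurable_priA (hc : c0 ≤ 1 / 16) (ht : Good c0 t) (hS : ∀ i, Good c0 (S i)) (hf : UI f) :
    Measurable (priA t S q ρ f) := by
  have hS' := good_rotS (q := q) (ρ := ρ) hS
  refine (measurable_slm ht hc (pg_UI hS hc hf) (pg_UI hS' hc hf)).mul ?_
  have := measurable_lf (h := fun i y => if i = q then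
    rotA (S q) (kst ι f) (kst ι fun z => f (ρ z)) y else 0) ht (fun i => ?_)
  · exact this
  · by_cases hi : i = q
    · simp only [if_pos hi]
      exact measurable_rotA (hS q) hc (kst_UI hf) (kst_UI (UI_comp hf ρ))
    · simp only [if_neg hi]
      exact measurable_const

/-- **CF3, outer observer, split form** -/
theorem rot_outer' (hc : c0 ≤ 1 / 16) (ht : Good c0 t) (hW : Above W t) (hS : ∀ i, Good c0 (S i))
    (hf : UI f) (hH : HidR (S q) f ρ)
    (hl : Last (fun V i => i = q → Fixes ρ V ∧ Above V (S q)) W t)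
    {w : E → ℝ} {ℓ : ℝ} (hℓ : 0 ≤ ℓ) (hw : H712.TF w ℓ) (x : E) :
    ENNReal.ofReal |fr W (fun y => (fl (t.bind (rotS S q ρ)) (kst ι f) y
        - fl (t.bind S) (kst ι f) y) * w y) x|
      ≤ fib W (priA t S q ρ f) x + ENNReal.ofReal ℓ * fib W (priB t S q ρ f) x := by
  refine (rot_outer hc ht hW hS hf hH hl hℓ hw x).trans ?_
  have mA := measurable_priA (q := q) (ρ := ρ) hc ht hS hf
  have e1 : (fun y => slm t (pg S f) (pg (rotS S q ρ) f) y
        * (if leafOf t y = q then chg (S q) f ρ ℓ y else 0))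
      = fun y => priA t S q ρ f y + ENNReal.ofReal ℓ * priB t S q ρ f y := by
    funext y
    unfold priA priB chg
    split_ifs
    · ring
    · simp
  rw [e1, fib_add mA]
  refine add_le_add le_rfl (le_of_eq ?_)
  unfold H395.fib
  exact lintegral_const_mul' _ _ ENNReal.ofReal_ne_top

/-- test functions of the fibre extended to the space -/
lemma tf_of_test {W : Submodule ℝ E} {Ψ : Wᗮ → ℝ} {ℓ : ℝ} (hℓ : 0 ≤ ℓ) (hΨ : Test Ψ ℓ) :
    H712.TF (fun y : E => Ψ (Wᗮ.orthogonalProjection y)) ℓ := by
  have mproj : Measurable (Wᗮ.orthogonalProjection : E → Wᗮ) :=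
    Wᗮ.orthogonalProjection.continuous.measurable
  refine ⟨hΨ.meas.comp mproj, fun y => hΨ.bd _, fun y y' => ?_⟩
  refine (hΨ.lip _ _).trans (mul_le_mul_of_nonneg_left ?_ hℓ)
  rw [← map_sub]
  exact Submodule.norm_orthogonalProjection_apply_le _ _

lemma proj_slice (W : Submodule ℝ E) (x : E) (z : Wᗮ) :
    Wᗮ.orthogonalProjection (H852.sl W x z) = z := by
  apply Subtype.ext
  rw [← Submodule.starProjection_apply]
  unfold H852.sl
  rw [map_add]
  have a1 : Wᗮ.starProjection (W.starProjection x) = 0 := by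
    rw [Submodule.starProjection_apply_eq_zero_iff, Submodule.orthogonal_orthogonal]
    exact Submodule.starProjection_apply_mem W x
  rw [a1, zero_add]
  exact Submodule.starProjection_eq_self_iff.mpr z.2

/-- **CF3 as a soft change in the type of the fibre of the outer label** -/
theorem rot_soft_slice (hc : c0 ≤ 1 / 16) (ht : Good c0 t) (hW : Above W t)
    (hS : ∀ i, Good c0 (S i)) (hb : Good c0 (t.bind S)) (hb' : Good c0 (t.bind (rotS S q ρ)))
    (hf : UI f) (hH : HidR (S q) f ρ)
    (hl : Last (fun V i => i = q → Fixes ρ V ∧ Above V (S q)) W t) (x : E) {a b : ℝ}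
    (ha : 0 ≤ a) (hb0 : 0 ≤ b) (hA : fib W (priA t S q ρ f) x ≤ ENNReal.ofReal a)
    (hB : fib W (priB t S q ρ f) x ≤ ENNReal.ofReal b) :
    Soft (fun z : Wᗮ => fl (t.bind S) (kst ι f) (H852.sl W x z))
      (fun z : Wᗮ => fl (t.bind (rotS S q ρ)) (kst ι f) (H852.sl W x z)) a b := by
  intro Ψ ℓ hℓ hΨ
  have hTF := tf_of_test hℓ hΨ
  have h := rot_outer' hc ht hW hS hf hH hl hℓ hTF x
  have u1 := fl_UI hb hc (kst_UI (ι := ι) hf)
  have u2 := fl_UI hb' hc (kst_UI (ι := ι) hf)
  have e0 := H712.fr_eq_slice (f := fun y => (fl (t.bind (rotS S q ρ)) (kst ι f) y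
        - fl (t.bind S) (kst ι f) y) * Ψ (Wᗮ.orthogonalProjection y))
    ((u2.meas.sub u1.meas).mul hTF.meas) W x
  rw [e0] at h
  simp_rw [proj_slice] at h
  have h2 : ENNReal.ofReal |∫ z, (fl (t.bind (rotS S q ρ)) (kst ι f) (H852.sl W x z)
        - fl (t.bind S) (kst ι f) (H852.sl W x z)) * Ψ z ∂(stdGaussian Wᗮ)|
      ≤ ENNReal.ofReal (a + ℓ * b) := by
    rw [ENNReal.ofReal_add ha (mul_nonneg hℓ hb0), ENNReal.ofReal_mul hℓ]
    exact h.trans (add_le_add hA (by gcongr))
  exact (ENNReal.ofReal_le_ofReal_iff (add_nonneg ha (mul_nonneg hℓ hb0))).1 h2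

end rotation

/-! ### hidden mass from the decay of the caps -/

section caps

variable {c0 k : ℝ} {t : FT E ι} {g : ι → E → ℝ}

lemma pay_le_fl_add_hid (hT : Good c0 t) (hg : ∀ i, UI (g i)) (x : E) :
    pay t g x ≤ fl t g x + hid t g x := by
  rw [fl_add_hid]
  have h1 := (al_UI hT).le_one x
  have h2 := (pay_UI hT hg).le_one x
  nlinarith

/-- the caps of the levels decay: `HidOK` for every body -/
theorem hidOK_of_caps (hk0 : 0 ≤ k) (hk : k ≤ 1 / 2) (hc : c0 ≤ 1 / 16) (hg : ∀ i, UI (g i)) :
    ∀ {t : FT E ι} (_ : Good c0 t) (_ : CF2.CpI k t), HidOK t g := by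
  intro t
  induction t with
  | leaf i => intro _ _; trivial
  | node W c Z cls T ih =>
    intro hT hC
    obtain ⟨hp, hab, hk'⟩ := hT
    refine ⟨fun x hx => ?_, fun n => ih n (hk' n) (hC n).cpI⟩
    have h1 : pm W cls T g x = fr W (pay (T (cls x)) g) x := by
      unfold pm
      exact fr_sel hp.icls (fun n => pay (T n) g) x
    have h2 : val W cls T g x = fr W (fl (T (cls x)) g) x := by
      unfold val
      exact fr_sel hp.icls (fun n => fl (T n) g) x
    rw [h1, h2]
    have u := fl_UI (hk' (cls x)) hc hg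
    have uh := hid_UI (hk' (cls x)) hc hg
    have up := pay_UI (hk' (cls x)) hg
    have h3 := CF2.hid_le hk0 hk (hk' (cls x)) hc hg (hab (cls x)) (hC (cls x)) hp.nonneg hx
    have h4 : fr W (pay (T (cls x)) g) x
        ≤ fr W (fun y => fl (T (cls x)) g y + hid (T (cls x)) g y) x :=
      fr_mono (Bd.of_UI up) ((Bd.of_UI u).add (Bd.of_UI uh))
        (pay_le_fl_add_hid (hk' (cls x)) hg) x
    rw [fr_add (Bd.of_UI u) (Bd.of_UI uh)] at h4
    have h5 := hp.nonneg x
    nlinarith

theorem hidR_of_caps (hk0 : 0 ≤ k) (hk : k ≤ 1 / 2) (hc : c0 ≤ 1 / 16) (hT : Good c0 t)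
    (hC : CF2.CpI k t) {f : E → ℝ} (hf : UI f) (ρ : E ≃ₗᵢ[ℝ] E) : HidR t f ρ where
  old := hidOK_of_caps hk0 hk hc (kst_UI hf) hT hC
  new := hidOK_of_caps hk0 hk hc (kst_UI (UI_comp hf ρ)) hT hC
  max := hidOK_of_caps hk0 hk hc (gmx_UI (kst_UI hf) (kst_UI (UI_comp hf ρ))) hT hC

end caps

end Vale.Agent.P262.H174
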