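import Vale.Agent.P262.H174.CF3c
import Vale.Agent.P262.H713.CF1c

/-!
# P262, milestone 2, CF3 part d: the `L¹` charge of a rotation without slope products

`rs t g g'` is the sum over the labels of the tree `t`, with the factor `17` per level, of
`48 c / max (D, c) * Δ` at alive labels and `Δ` at the first killed label (`Δ` the plain change of
the payoff in the fibre, `D` the mean payoff of the intersection of the bodies).
-/

set_option linter.all false

open MeasureTheory ProbabilityTheory Set
open scoped ENNReal RealInnerProductSpace Classical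

namespace Vale.Agent.P262.H174

open Vale.Agent.P262.H395 (mix fib Inv measurable_fib fib_mono fib_const fib_add fib_mul
  fib_eq_self inv_fib fib_tower starProjection_mix measurable_mix_right fib_add_right Fixes)
open Vale.Agent.P262.H847 (UI)
open Vale.Agent.P262.H654 (tr phi sg Bd InvR fr invR_fr fr_mono fr_const ofReal_fr sg_pos one_le_sg)
open Vale.Agent.P262.H713 Vale.Agent.P262.H713.FT

variable {E : Type*} [NormedAddCommGroup E] [InnerProductSpace ℝ E] [FiniteDimensional ℝ E]
  [MeasurableSpace E] [BorelSpace E] {ι κ : Type*}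

/-- the ratio `c / max (D, c)` of an alive label -/
noncomputable def rr (W : Submodule ℝ E) (c : E → ℝ) (cls : E → ℕ) (T : ℕ → FT E ι)
    (g g' : ι → E → ℝ) (x : E) : ℝ≥0∞ :=
  ENNReal.ofReal (c x) / ENNReal.ofReal (max (pm W cls T (gmx g g') x) (c x))

/-- the plain change of the payoff in the fibre -/
noncomputable def dlp (W : Submodule ℝ E) (cls : E → ℕ) (T : ℕ → FT E ι) (g g' : ι → E → ℝ)
    (x : E) : ℝ≥0∞ := fib W (fun y => dpay (T (cls y)) g g' y) x

/-- the charge without slopes -/
noncomputable def rs : FT E ι → (ι → E → ℝ) → (ι → E → ℝ) → E → ℝ≥0∞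
  | leaf _, _, _ => fun _ => 0
  | node W c Z cls T, g, g' => fun x =>
      if x ∈ Z then dlp W cls T g g' x
      else 48 * (rr W c cls T g g' x * dlp W cls T g g' x) + 17 * rs (T (cls x)) g g' x

/-- the part of the charge which comes from the slopes -/
noncomputable def qx (b : ℝ≥0∞) : FT E ι → (ι → E → ℝ) → (ι → E → ℝ) → E → ℝ≥0∞
  | leaf _, _, _ => fun _ => 0
  | node W c Z cls T, g, g' => fun x =>
      if x ∈ Z then 0
      else ENNReal.ofReal (16 * c x) * dlp W cls T g g' x + b * qx b (T (cls x)) g g' x

section lemmas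

variable {c0 : ℝ} {W V : Submodule ℝ E} {c : E → ℝ} {Z : Set E} {cls : E → ℕ} {T : ℕ → FT E ι}
  {t : FT E ι} {g g' : ι → E → ℝ} {x y : E} {b : ℝ≥0∞}

lemma rs_node (W : Submodule ℝ E) (c : E → ℝ) (Z : Set E) (cls : E → ℕ) (T : ℕ → FT E ι)
    (g g' : ι → E → ℝ) (x : E) : rs (node W c Z cls T) g g' x
      = if x ∈ Z then dlp W cls T g g' x
        else 48 * (rr W c cls T g g' x * dlp W cls T g g' x) + 17 * rs (T (cls x)) g g' x := rfl

lemma qx_node (W : Submodule ℝ E) (c : E → ℝ) (Z : Set E) (cls : E → ℕ) (T : ℕ → FT E ι)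
    (g g' : ι → E → ℝ) (x : E) : qx b (node W c Z cls T) g g' x
      = if x ∈ Z then 0 else ENNReal.ofReal (16 * c x) * dlp W cls T g g' x
        + b * qx b (T (cls x)) g g' x := rfl

lemma measurable_dpc (hp : NodeOK c0 W c Z cls) (hk : ∀ k, Good c0 (T k)) (hg : ∀ i, UI (g i))
    (hg' : ∀ i, UI (g' i)) : Measurable fun y => dpay (T (cls y)) g g' y :=
  H395.Tree.measurable_sel (F := fun k => dpay (T k) g g')
    (fun k => measurable_dpay (hk k) hg hg') hp.mcls

lemma measurable_dlp (hp : NodeOK c0 W c Z cls) (hk : ∀ k, Good c0 (T k)) (hg : ∀ i, UI (g i))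
    (hg' : ∀ i, UI (g' i)) : Measurable (dlp W cls T g g') :=
  measurable_fib (measurable_dpc hp hk hg hg')

lemma inv_dlp (W : Submodule ℝ E) (cls : E → ℕ) (T : ℕ → FT E ι) (g g' : ι → E → ℝ) :
    Inv W (dlp W cls T g g') := inv_fib W _

lemma measurable_rr (hp : NodeOK c0 W c Z cls) (hk : ∀ k, Good c0 (T k)) (hg : ∀ i, UI (g i))
    (hg' : ∀ i, UI (g' i)) : Measurable (rr W c cls T g g') := by
  have h3 := (pm_UI hp hk (gmx_UI hg hg')).meas
  exact hp.meas.ennreal_ofReal.div (h3.max hp.meas).ennreal_ofReal

lemma inv_rr (hp : NodeOK c0 W c Z cls) : Inv W (rr W c cls T g g') := by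
  intro x w hw
  unfold rr
  rw [hp.inv x w hw, invR_pm W cls T (gmx g g') x w hw]

lemma measurable_rs (hT : Good c0 t) (hg : ∀ i, UI (g i)) (hg' : ∀ i, UI (g' i)) :
    Measurable (rs t g g') := by
  induction t with
  | leaf i => exact measurable_const
  | node W c Z cls T ih =>
    obtain ⟨hp, hab, hk⟩ := hT
    refine Measurable.ite hp.measZ (measurable_dlp hp hk hg hg') ?_
    exact (((measurable_rr hp hk hg hg').mul (measurable_dlp hp hk hg hg')).const_mul 48).add
      ((H395.Tree.measurable_sel (F := fun k => rs (T k) g g')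
        (fun k => ih k (hk k)) hp.mcls).const_mul 17)

lemma measurable_qx (hT : Good c0 t) (hg : ∀ i, UI (g i)) (hg' : ∀ i, UI (g' i)) :
    Measurable (qx b t g g') := by
  induction t with
  | leaf i => exact measurable_const
  | node W c Z cls T ih =>
    obtain ⟨hp, hab, hk⟩ := hT
    refine Measurable.ite hp.measZ measurable_const ?_
    exact (((hp.meas.const_mul 16).ennreal_ofReal).mul (measurable_dlp hp hk hg hg')).add
      ((H395.Tree.measurable_sel (F := fun k => qx b (T k) g g')
        (fun k => ih k (hk k)) hp.mcls).const_mul b)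

/-- the slope weighted change is at most the plain change plus the slope part -/
theorem fib_sl_dpay_le (hc0 : 0 ≤ c0) (hc : c0 ≤ 1 / 16) (hg : ∀ i, UI (g i))
    (hg' : ∀ i, UI (g' i)) (hb : b = ENNReal.ofReal (1 + 16 * c0)) :
    ∀ {t : FT E ι} (_ : Good c0 t) {W : Submodule ℝ E} (_ : Above W t) (x : E),
    fib W (fun y => sl t (gmx g g') y * dpay t g g' y) x
      ≤ fib W (dpay t g g') x + fib W (qx b t g g') x := by
  have hG := gmx_UI hg hg'
  intro t
  induction t with
  | leaf i =>
    intro _ W _ x
    simp only [sl_leaf, one_mul]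
    exact le_self_add
  | node V c Z cls T ih =>
    intro hT W hW x
    have hTT := hT
    obtain ⟨hp, hab, hk⟩ := hT
    have m0 : Measurable (dpay (node V c Z cls T) g g') := measurable_dpay hTT hg hg'
    have m1 : Measurable fun y => sl (node V c Z cls T) (gmx g g') y
        * dpay (node V c Z cls T) g g' y := (measurable_sl hTT hc hG).mul m0
    have m2 : Measurable (qx b (node V c Z cls T) g g') := measurable_qx hTT hg hg'
    have m02 : Measurable fun y => dpay (node V c Z cls T) g g' y
        + qx b (node V c Z cls T) g g' y := m0.add m2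
    rw [← fib_add m0, ← fib_tower hW m1, ← fib_tower hW m02]
    refine fib_mono (fun y => ?_) x
    rw [fib_add m0]
    by_cases hz : y ∈ Z
    · have e1 : fib V (fun z => sl (node V c Z cls T) (gmx g g') z
          * dpay (node V c Z cls T) g g' z) y = fib V (fun _ => 0) y := by
        apply fib_congr
        intro z hz'
        have hzz := (mem_iff_of hp.invZ hz').2 hz
        rw [sl_node, if_neg (fun h => h.1 hzz), zero_mul, zero_mul]
      rw [e1, fib_const]
      exact zero_le
    · have hcy := (hp.le y hz).trans hc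
      have ihy := ih (cls y) (hk _) (hab _) y
      have mc1 : Measurable fun z => sl (T (cls y)) (gmx g g') z * dpay (T (cls y)) g g' z :=
        (measurable_sl (hk _) hc hG).mul (measurable_dpay (hk _) hg hg')
      have mc2 : Measurable (dpay (T (cls y)) g g') := measurable_dpay (hk _) hg hg'
      have mc3 : Measurable (qx b (T (cls y)) g g') := measurable_qx (hk _) hg hg'
      have hsg : ENNReal.ofReal (sg (c y)) ≤ 1 + ENNReal.ofReal (16 * c y) := by
        rw [← ENNReal.ofReal_one,
          ← ENNReal.ofReal_add zero_le_one (by have := hp.nonneg y; linarith)]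
        exact ENNReal.ofReal_le_ofReal (FT.sg_le (hp.nonneg y) hcy)
      have hb2 : 1 + ENNReal.ofReal (16 * c y) ≤ b := by
        rw [hb, ← ENNReal.ofReal_one,
          ← ENNReal.ofReal_add zero_le_one (by have := hp.nonneg y; linarith)]
        exact ENNReal.ofReal_le_ofReal (by have := hp.le y hz; linarith)
      have e1 : fib V (fun z => sl (node V c Z cls T) (gmx g g') z
          * dpay (node V c Z cls T) g g' z) y
          ≤ fib V (fun z => (1 + ENNReal.ofReal (16 * c y))
            * (sl (T (cls y)) (gmx g g') z * dpay (T (cls y)) g g' z)) y := by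
        have e0 : fib V (fun z => sl (node V c Z cls T) (gmx g g') z
          * dpay (node V c Z cls T) g g' z) y
            = fib V (fun z => (if y ∉ Z ∧ c y < val V cls T (gmx g g') y
                then ENNReal.ofReal (sg (c y)) else 0)
              * (sl (T (cls y)) (gmx g g') z * dpay (T (cls y)) g g' z)) y := by
          apply fib_congr
          intro z hz'
          have a1 : (z ∉ Z ∧ c z < val V cls T (gmx g g') z)
              ↔ (y ∉ Z ∧ c y < val V cls T (gmx g g') y) := by
            rw [hp.inv.eq_of hz', (invR_val V cls T (gmx g g')).eq_of hz']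
            exact and_congr_left fun _ => not_congr (mem_iff_of hp.invZ hz')
          rw [sl_node, hp.icls.eq_of hz']
          have a2 : dpay (node V c Z cls T) g g' z = dpay (T (cls y)) g g' z := by
            unfold dpay
            rw [pay_node, pay_node, hp.icls.eq_of hz']
          rw [a2, mul_assoc]
          congr 1
          by_cases h : y ∉ Z ∧ c y < val V cls T (gmx g g') y
          · rw [if_pos h, if_pos (a1.2 h), hp.inv.eq_of hz']
          · rw [if_neg h, if_neg (fun h' => h (a1.1 h'))]
        rw [e0]
        refine fib_mono (fun z => ?_) y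
        gcongr
        split_ifs
        · exact hsg
        · exact zero_le
      have e2 : fib V (dpay (node V c Z cls T) g g') y = fib V (dpay (T (cls y)) g g') y := by
        apply fib_congr
        intro z hz'
        unfold dpay
        rw [pay_node, pay_node, hp.icls.eq_of hz']
      have e2' : dlp V cls T g g' y = fib V (dpay (T (cls y)) g g') y := by
        unfold dlp
        exact fib_sel' hp.icls (fun k => dpay (T k) g g') y
      have e3 : fib V (qx b (node V c Z cls T) g g') y
          = ENNReal.ofReal (16 * c y) * dlp V cls T g g' y + b * fib V (qx b (T (cls y)) g g') y := by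
        have a1 : fib V (qx b (node V c Z cls T) g g') y
            = fib V (fun z => ENNReal.ofReal (16 * c y) * dlp V cls T g g' y
              + b * qx b (T (cls y)) g g' z) y := by
          apply fib_congr
          intro z hz'
          have hzz : z ∉ Z := fun h => hz ((mem_iff_of hp.invZ hz').1 h)
          rw [qx_node, if_neg hzz, hp.inv.eq_of hz', (inv_dlp V cls T g g').eq_of hz',
            hp.icls.eq_of hz']
        rw [a1, fib_add measurable_const, fib_const, fib_mul (H395.inv_const V _) mc3]
      rw [e2, e3]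
      refine e1.trans ?_
      rw [fib_mul (H395.inv_const V _) mc1, e2']
      set D := fib V (dpay (T (cls y)) g g') y
      set Q := fib V (qx b (T (cls y)) g g') y
      calc (1 + ENNReal.ofReal (16 * c y)) * fib V (fun z => sl (T (cls y)) (gmx g g') z
            * dpay (T (cls y)) g g' z) y
          ≤ (1 + ENNReal.ofReal (16 * c y)) * (D + Q) := by gcongr
        _ = D + (ENNReal.ofReal (16 * c y) * D + (1 + ENNReal.ofReal (16 * c y)) * Q) := by ring
        _ ≤ _ := by gcongr

lemma ofReal_c_le_rr (hp : NodeOK c0 W c Z cls) (hk : ∀ k, Good c0 (T k)) (hc : c0 ≤ 1 / 16)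
    (hg : ∀ i, UI (g i)) (hg' : ∀ i, UI (g' i)) (hx : x ∉ Z) :
    ENNReal.ofReal (c x) ≤ rr W c cls T g g' x := by
  unfold rr
  have h1 := (pm_UI hp hk (gmx_UI hg hg')).le_one x
  have h2 := (hp.le x hx).trans hc
  have h3 : ENNReal.ofReal (max (pm W cls T (gmx g g') x) (c x)) ≤ 1 := by
    rw [← ENNReal.ofReal_one]
    exact ENNReal.ofReal_le_ofReal (max_le h1 (by linarith))
  calc ENNReal.ofReal (c x) = ENNReal.ofReal (c x) / 1 := by rw [div_one]
    _ ≤ _ := ENNReal.div_le_div_left h3 _

lemma rr_le_one : rr W c cls T g g' x ≤ 1 := by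
  unfold rr
  refine ENNReal.div_le_of_le_mul ?_
  rw [one_mul]
  exact ENNReal.ofReal_le_ofReal (le_max_right _ _)

lemma three_qx_le (hc0 : 0 ≤ c0) (hc : c0 ≤ 1 / 16) (hg : ∀ i, UI (g i)) (hg' : ∀ i, UI (g' i))
    (hb : b ≤ 17) : ∀ {t : FT E ι} (_ : Good c0 t) (x : E), 3 * qx b t g g' x ≤ rs t g g' x := by
  intro t
  induction t with
  | leaf i => intro _ x; simp [qx, rs]
  | node V c Z cls T ih =>
    intro hT x
    obtain ⟨hp, hab, hk⟩ := hT
    rw [qx_node, rs_node]
    by_cases hx : x ∈ Z
    · rw [if_pos hx, if_pos hx, mul_zero]; exact zero_le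
    · rw [if_neg hx, if_neg hx]
      have h1 := ofReal_c_le_rr hp hk hc hg hg' hx
      have h2 := ih (cls x) (hk _) x
      have e : ENNReal.ofReal (16 * c x) = 16 * ENNReal.ofReal (c x) := by
        rw [ENNReal.ofReal_mul (by norm_num)]; norm_num
      rw [e]
      calc 3 * (16 * ENNReal.ofReal (c x) * dlp V cls T g g' x + b * qx b (T (cls x)) g g' x)
          = 48 * (ENNReal.ofReal (c x) * dlp V cls T g g' x)
            + b * (3 * qx b (T (cls x)) g g' x) := by ring
        _ ≤ _ := by gcongr

/-- **the `L¹` charge without slope products** -/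
theorem fib_rotA_le_rs (hc0 : 0 ≤ c0) (hc : c0 ≤ 1 / 16) (hg : ∀ i, UI (g i))
    (hg' : ∀ i, UI (g' i)) : ∀ {t : FT E ι} (_ : Good c0 t) {W : Submodule ℝ E} (_ : Above W t)
    (x : E), fib W (rotA t g g') x ≤ fib W (rs t g g') x := by
  intro t
  induction t with
  | leaf i => intro _ W _ x; exact le_rfl
  | node V c Z cls T ih =>
    intro hT W hW x
    have hTT := hT
    obtain ⟨hp, hab, hk⟩ := hT
    have m1 : Measurable (rotA (node V c Z cls T) g g') := measurable_rotA hTT hc hg hg'
    have m2 : Measurable (rs (node V c Z cls T) g g') := measurable_rs hTT hg hg'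
    rw [← fib_tower hW m1, ← fib_tower hW m2]
    refine fib_mono (fun y => ?_) x
    by_cases hz : y ∈ Z
    · refine le_of_eq ?_
      apply fib_congr
      intro z hz'
      have hzz := (mem_iff_of hp.invZ hz').2 hz
      rw [rotA_node, rs_node, if_pos hzz, if_pos hzz]
      rfl
    · have mc1 : Measurable (rotA (T (cls y)) g g') := measurable_rotA (hk _) hc hg hg'
      have mc2 : Measurable (rs (T (cls y)) g g') := measurable_rs (hk _) hg hg'
      have mc3 : Measurable (qx (ENNReal.ofReal (1 + 16 * c0)) (T (cls y)) g g') :=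
        measurable_qx (hk _) hg hg'
      have mcd : Measurable (dpay (T (cls y)) g g') := measurable_dpay (hk _) hg hg'
      have e5 : fib V (rotA (node V c Z cls T) g g') y
          = 24 * xxm V c cls T g g' y + fib V (rotA (T (cls y)) g g') y := by
        have e6 : fib V (rotA (node V c Z cls T) g g') y
            = fib V (fun z => 24 * xxm V c cls T g g' y + rotA (T (cls y)) g g' z) y := by
          apply fib_congr
          intro z hz'
          have hzz : z ∉ Z := fun h => hz ((mem_iff_of hp.invZ hz').1 h)
          rw [rotA_node, if_neg hzz, (inv_xxm hp).eq_of hz', hp.icls.eq_of hz']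
        rw [e6, fib_add measurable_const, fib_const]
      have e7 : fib V (rs (node V c Z cls T) g g') y
          = 48 * (rr V c cls T g g' y * dlp V cls T g g' y)
            + 17 * fib V (rs (T (cls y)) g g') y := by
        have e6 : fib V (rs (node V c Z cls T) g g') y
            = fib V (fun z => 48 * (rr V c cls T g g' y * dlp V cls T g g' y)
              + 17 * rs (T (cls y)) g g' z) y := by
          apply fib_congr
          intro z hz'
          have hzz : z ∉ Z := fun h => hz ((mem_iff_of hp.invZ hz').1 h)
          rw [rs_node, if_neg hzz, (inv_rr hp).eq_of hz', (inv_dlp V cls T g g').eq_of hz',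
            hp.icls.eq_of hz']
        rw [e6, fib_add measurable_const, fib_const, fib_mul (H395.inv_const V _) mc2]
      rw [e5, e7]
      have hd : dls V cls T g g' y ≤ dlp V cls T g g' y
          + fib V (qx (ENNReal.ofReal (1 + 16 * c0)) (T (cls y)) g g') y := by
        have a1 : dls V cls T g g' y
            = fib V (fun z => sl (T (cls y)) (gmx g g') z * dpay (T (cls y)) g g' z) y := by
          unfold dls
          exact fib_sel' hp.icls (fun k z => sl (T k) (gmx g g') z * dpay (T k) g g' z) y
        have a2 : dlp V cls T g g' y = fib V (dpay (T (cls y)) g g') y := by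
          unfold dlp
          exact fib_sel' hp.icls (fun k => dpay (T k) g g') y
        rw [a1, a2]
        exact fib_sl_dpay_le hc0 hc hg hg' rfl (hk _) (hab _) y
      have hq : 48 * fib V (qx (ENNReal.ofReal (1 + 16 * c0)) (T (cls y)) g g') y
          ≤ 16 * fib V (rs (T (cls y)) g g') y := by
        have hb : ENNReal.ofReal (1 + 16 * c0) ≤ 17 := by
          have : ENNReal.ofReal (1 + 16 * c0) ≤ ENNReal.ofReal 17 :=
            ENNReal.ofReal_le_ofReal (by linarith)
          exact this.trans (by norm_num)
        have h3 : 3 * fib V (qx (ENNReal.ofReal (1 + 16 * c0)) (T (cls y)) g g') y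
            ≤ fib V (rs (T (cls y)) g g') y := by
          rw [← fib_mul (H395.inv_const V _) mc3]
          exact fib_mono (fun z => three_qx_le hc0 hc hg hg' hb (hk _) z) y
        calc 48 * fib V (qx (ENNReal.ofReal (1 + 16 * c0)) (T (cls y)) g g') y
            = 16 * (3 * fib V (qx (ENNReal.ofReal (1 + 16 * c0)) (T (cls y)) g g') y) := by ring
          _ ≤ _ := by gcongr
      have hx : 24 * xxm V c cls T g g' y ≤ 48 * (rr V c cls T g g' y * dls V cls T g g' y) := by
        unfold xxm rr
        set X := dls V cls T g g' y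
        set m := ENNReal.ofReal (max (pm V cls T (gmx g g') y) (c y))
        set C := ENNReal.ofReal (c y)
        have a1 : min (ENNReal.ofReal (1 - pm V cls T g y)) (X / m) ≤ X / m := min_le_right _ _
        have a2 : min (ENNReal.ofReal (1 - pm V cls T g' y)) (X / m) ≤ X / m := min_le_right _ _
        calc 24 * (C * (min (ENNReal.ofReal (1 - pm V cls T g y)) (X / m)
              + min (ENNReal.ofReal (1 - pm V cls T g' y)) (X / m)))
            ≤ 24 * (C * (X / m + X / m)) := by gcongr
          _ = 48 * (C / m * X) := by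
              rw [div_eq_mul_inv, div_eq_mul_inv]; ring
      have ihy := ih (cls y) (hk _) (hab _) y
      set D := dlp V cls T g g' y
      set Q := fib V (qx (ENNReal.ofReal (1 + 16 * c0)) (T (cls y)) g g') y
      set RS := fib V (rs (T (cls y)) g g') y
      calc 24 * xxm V c cls T g g' y + fib V (rotA (T (cls y)) g g') y
          ≤ 48 * (rr V c cls T g g' y * (D + Q)) + RS := by
            refine add_le_add (hx.trans ?_) ihy
            gcongr
        _ = 48 * (rr V c cls T g g' y * D) + rr V c cls T g g' y * (48 * Q) + RS := by ring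
        _ ≤ 48 * (rr V c cls T g g' y * D) + 1 * (16 * RS) + RS := by
            gcongr
            exact rr_le_one
        _ = _ := by ring

/-! ### images under isometries -/

lemma dlp_mp (R : E ≃ₗᵢ[ℝ] E) (W : Submodule ℝ E) (cls : E → ℕ) (T : ℕ → FT E ι)
    (g g' : ι → E → ℝ) (x : E) :
    dlp (im R W) (fun x => cls (R.symm x)) (fun k => FT.mp R (T k)) g g' (R x)
      = dlp W cls T (fun i y => g i (R y)) (fun i y => g' i (R y)) x := by
  unfold dlp
  rw [H713.fib_im]
  congr 1
  funext y
  unfold dpay
  simp only [LinearIsometryEquiv.symm_apply_apply, pay_mp]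

lemma pm_mp (R : E ≃ₗᵢ[ℝ] E) (W : Submodule ℝ E) (cls : E → ℕ) (T : ℕ → FT E ι)
    (g : ι → E → ℝ) (x : E) :
    pm (im R W) (fun x => cls (R.symm x)) (fun k => FT.mp R (T k)) g (R x)
      = pm W cls T (fun i y => g i (R y)) x := by
  unfold pm
  rw [H713.fr_im]
  congr 1
  funext y
  simp only [LinearIsometryEquiv.symm_apply_apply, pay_mp]

lemma rr_mp (R : E ≃ₗᵢ[ℝ] E) (W : Submodule ℝ E) (c : E → ℝ) (cls : E → ℕ) (T : ℕ → FT E ι)
    (g g' : ι → E → ℝ) (x : E) :
    rr (im R W) (fun x => c (R.symm x)) (fun x => cls (R.symm x)) (fun k => FT.mp R (T k)) g g' (R x)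
      = rr W c cls T (fun i y => g i (R y)) (fun i y => g' i (R y)) x := by
  unfold rr
  rw [pm_mp]
  simp only [LinearIsometryEquiv.symm_apply_apply]
  rfl

lemma rs_mp (R : E ≃ₗᵢ[ℝ] E) (t : FT E ι) (g g' : ι → E → ℝ) (x : E) :
    rs (FT.mp R t) g g' (R x) = rs t (fun i y => g i (R y)) (fun i y => g' i (R y)) x := by
  induction t generalizing x with
  | leaf i => rfl
  | node W c Z cls T ih =>
    rw [mp_node, rs_node, rs_node, dlp_mp, rr_mp]
    simp only [mem_preimage, LinearIsometryEquiv.symm_apply_apply, ih]

end lemmas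

end Vale.Agent.P262.H174
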