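import Vale.Agent.P262.H174.RI6
import Vale.Agent.P262.M2.Price2
import Vale.Agent.P262.M2.Close

/-!
# P262, milestone 2, ROT-IN part 7: `Gin` is an admissible price of the inner rotations

`Gin_InOK : S.InOK S.Gin`, `ROTI_Gin : S.ROTI S.Gin S.Hd (48 * S.CR) 17` and the same for the
price array `GG Gin`.
-/

set_option linter.all false

open MeasureTheory ProbabilityTheory Set
open scoped ENNReal RealInnerProductSpace
open Vale.Agent.P262.H395 (fib Inv)
open Vale.Agent.P262.H654 (fr phi)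

namespace Vale.Agent.P262.M2.Sys

variable {E : Type*} [NormedAddCommGroup E] [InnerProductSpace ℝ E] [FiniteDimensional ℝ E]
  [MeasurableSpace E] [BorelSpace E] {S : Sys E} {p : List ℕ} {m : ℕ} {x : E}

lemma fno_eq_fup (q : List ℕ) (m : ℕ) : S.fno q m = S.fup q m := by
  funext y
  unfold fno fup
  congr

/-- the two descriptions of the rotation of a move -/
lemma rhoU_eq (hr : S.mv.IsRot m) : S.rhoU m = S.rho m := by
  obtain ⟨hq0, hQ, -, -⟩ := rot_facts hr
  have h1 : S.mv.Q (m + 1) (S.mv.jj m) = (S.rhoU m).trans (S.mv.Q m (S.mv.jj m)) := by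
    rw [hQ, Function.update_self]
  unfold rho
  rw [h1]
  ext y
  simp

/-- **the hidden parts agree** -/
lemma Hm_eq_Hd (hr : S.mv.IsRot m) : S.Hm m = S.Hd m := by
  funext y
  unfold Hm Hd
  rw [fno_eq_fup, rhoU_eq hr]

/-- **`Gin` is a price of the inner rotations** -/
theorem Gin_InOK (hε : 2 * (Real.sqrt 2 * Real.exp (-(S.qq / 4))) ≤ 1 / 2)
    (hk : S.kp 1 ≤ 1 / 2) (hA : 16 * (S.M + 1) * S.kp 1 ≤ 1) : S.InOK S.Gin where
  meas p m hm _ := Gin_meas (S.labOK hm.le) p
  inv p m hm _ := Gin_inv (m := m) p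
  soft p m hm hi x hx := by
    refine soft_in hm hi.1 (kp_nonneg 1) hk (capF hε (S.tm_lt_f hm.le)) ?_
      (fun h => hi.2.2 (hi.2.1.eq_of_length_le h.length_le)) hx
    intro r m' hm' y hy
    have hle : m' ≤ S.mT := by rcases hm' with h | h <;> omega
    have h1 := (abs_le.1 (abs_Fr_sub_le hε hk hA hle hy)).2
    have h2 : (S.De r m' y).toReal = fr (S.W r m') (S.pf r m') y := by
      rw [De_eq_fr, ENNReal.toReal_ofReal]
      exact (H654.UI.fr (S.pf_UI r m') (S.W r m')).nonneg y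
    have h3 : 0 ≤ (S.A r m' y).toReal := ENNReal.toReal_nonneg
    rw [h2]
    linarith

/-- **(ROTI)** for `Gin` and the hidden part `Hd` -/
theorem ROTI_Gin : S.ROTI S.Gin S.Hd (48 * S.CR) 17 := by
  intro m hm hr j hj l hl
  have h := roti (S := S) (G := S.Gin) (fun _ _ _ _ _ _ => le_rfl) m hm hr j hj l hl
  have e : S.Hw S.Hm (j + 1) m = S.Hw S.Hd (j + 1) m := by
    unfold Hw
    rw [Hm_eq_Hd hr]
  rwa [e] at h

/-- **(ROTI)** for the price array -/
theorem ROTI_GGin : S.ROTI (S.GG S.Gin) S.Hd (48 * S.CR) 17 := ROTI_GG ROTI_Gin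

end Vale.Agent.P262.M2.Sys
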