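import Vale.Agent.P262.H924.Plug
import Vale.Agent.P262.H174.RI7

/-!
# P262, milestone 2: the plug, block (ROTI) and the price of the inner rotations
-/

set_option linter.all false

open MeasureTheory ProbabilityTheory Set
open scoped ENNReal

namespace Vale.Agent.P262.M2.Sys

variable {E : Type*} [NormedAddCommGroup E] [InnerProductSpace ℝ E] [FiniteDimensional ℝ E]
  [MeasurableSpace E] [BorelSpace E] {S : Sys E} {KU Cr a CT w : ℝ}

/-- **`Gin` is an admissible price**, all numerical hypotheses -/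
theorem blk_InOK (N : S.Num KU Cr a CT w) : S.InOK S.Gin := Gin_InOK N.qq2 N.kp2 N.kpA

lemma CR_le : S.CR ≤ (S.M + 1) / S.b0 := by
  have hb : 0 < S.b0 := S.hA0.trans_le S.hAb
  have hM : 0 < S.M + 1 := by have := S.hM; linarith
  have hb1 : S.b0 ≤ 1 := by
    have h1 := S.hMb
    have h2 := S.hM
    nlinarith
  have h1 : 1 ≤ 1 / S.b0 := by rw [le_div_iff₀ hb]; linarith
  unfold CR
  refine max_le ?_ ?_
  · rw [le_div_iff₀ hb]
    nlinarith
  · have h2 : S.b0 ^ (-S.th) ≤ S.b0 ^ (-1 : ℝ) :=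
      Real.rpow_le_rpow_of_exponent_ge hb hb1 (by have := S.hth1; linarith)
    rw [Real.rpow_neg_one] at h2
    refine h2.trans ?_
    rw [inv_eq_one_div]
    have h3 : 1 ≤ S.M + 1 := by have := S.hM; linarith
    gcongr

/-- **(ROTI)** with all numerical hypotheses -/
theorem blk_ROTI (N : S.Num KU Cr a CT w) (h48 : 48 * ((S.M + 1) / S.b0) ≤ Cr) (ha : 17 ≤ a) :
    S.ROTI S.Gin S.Hd Cr a := by
  have h1 : 1 ≤ S.CR := CR_ge_one
  refine ROTI.mono ROTI_Gin ?_ ?_ (by norm_num) ha
  · linarith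
  · have := CR_le (S := S)
    linarith

end Vale.Agent.P262.M2.Sys
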