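import Vale.Agent.P262.H174.CF3d

/-!
# P262, milestone 2, ROT-IN part 1: an inner rotation on the path arrays of a state

`rotP Q q ρ` is the state after the rotation `ρ` of the coordinates of the node `q`.  The field below
a node `p` above `q` is cut at the level of `q`: the upper tree does not change, the tree of `q` is
replaced by its image under an isometry which fixes the label space of the parent of `q`.
-/

set_option linter.all false

open MeasureTheory ProbabilityTheory Set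
open scoped ENNReal RealInnerProductSpace Classical

namespace Vale.Agent.P262.H174

open Vale.Agent.P262.H395 (mix fib Inv measurable_fib fib_mono fib_const fib_add fib_mul
  fib_eq_self inv_fib fib_tower starProjection_mix measurable_mix_right fib_add_right Fixes)
open Vale.Agent.P262.H847 (UI)
open Vale.Agent.P262.H654 (tr phi sg Bd InvR fr invR_fr fr_mono fr_const ofReal_fr sg_pos one_le_sg)
open Vale.Agent.P262.H713 Vale.Agent.P262.H713.FT

variable {E : Type*} [NormedAddCommGroup E] [InnerProductSpace ℝ E]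

/-- rotation of the coordinates of the node `q` -/
noncomputable def rotP (Q : Pa E) (q : List ℕ) (ρ : E ≃ₗᵢ[ℝ] E) : Pa E where
  W := Q.W
  P := Function.update Q.P q (ρ.trans (Q.P q))
  lf := Q.lf

section arrays

variable {Q : Pa E} {q r p : List ℕ} {ρ : E ≃ₗᵢ[ℝ] E}

lemma rotP_P_self : (rotP Q q ρ).P q = ρ.trans (Q.P q) := Function.update_self _ _ _

lemma rotP_P_ne (h : r ≠ q) : (rotP Q q ρ).P r = Q.P r := Function.update_of_ne h _ _

lemma rotP_S_not (h : ¬ q <:+ r) : (rotP Q q ρ).S r = Q.S r := by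
  induction r with
  | nil => rfl
  | cons a r ih =>
    have h1 : a :: r ≠ q := by
      rintro rfl
      exact h (List.suffix_refl _)
    rw [Pa.S_cons, Pa.S_cons, rotP_P_ne h1,
      ih (fun h' => h (h'.trans (List.suffix_cons a r)))]

lemma not_cons_suffix (a : ℕ) (r : List ℕ) : ¬ (a :: r) <:+ r := by
  intro h
  have := h.length_le
  simp at this

lemma rotP_S_self (hq : q ≠ []) : (rotP Q q ρ).S q = ρ.trans (Q.S q) := by
  obtain ⟨a, r, rfl⟩ := List.exists_cons_of_ne_nil hq
  rw [Pa.S_cons, rotP_P_self, rotP_S_not (not_cons_suffix a r), Pa.S_cons]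
  ext x
  rfl

lemma rotP_rl_not (h : ¬ q <:+ r) (hp : ¬ q <:+ p) : (rotP Q q ρ).rl r p = Q.rl r p := by
  unfold Pa.rl
  rw [rotP_S_not h, rotP_S_not hp]

lemma rotP_rl_self (hq : q ≠ []) (hp : ¬ q <:+ p) :
    (rotP Q q ρ).rl q p = ρ.trans (Q.rl q p) := by
  unfold Pa.rl
  rw [rotP_S_self hq, rotP_S_not hp]
  ext x
  rfl

lemma rl_cons2 (Q : Pa E) (k : ℕ) (r p : List ℕ) :
    (Q.P (k :: r)).trans (Q.rl r p) = Q.rl (k :: r) p := by
  ext x
  rfl

lemma rotP_ok (hQ : Q.Ok) (hρ : Fixes ρ (Q.W q.tail)) : (rotP Q q ρ).Ok where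
  fix := by
    intro c p
    change Fixes ((rotP Q q ρ).P (c :: p)) (Q.W p)
    by_cases h : c :: p = q
    · subst h
      rw [rotP_P_self]
      exact Fixes.trans hρ (hQ.fix c p)
    · rw [rotP_P_ne h]
      exact hQ.fix c p
  le := hQ.le

end arrays

section cut

variable {Q : Pa E} {c : List ℕ → E → ℝ} {Z : List ℕ → Set E} {cls : List ℕ → E → ℕ}
  {q r p : List ℕ} {ρ : E ≃ₗᵢ[ℝ] E} {j n k : ℕ}

variable [FiniteDimensional ℝ E] [MeasurableSpace E] [BorelSpace E]

/-- the trees of the leaves of the cut, in the coordinates of `p` -/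
noncomputable def SS (Q : Pa E) (c : List ℕ → E → ℝ) (Z : List ℕ → Set E)
    (cls : List ℕ → E → ℕ) (n : ℕ) (p : List ℕ) : Unit ⊕ List ℕ → FT E Unit
  | Sum.inl _ => .leaf ()
  | Sum.inr r => FT.mp (Q.rl r p) (sft Q c Z cls n r)

/-- the upper part of the tree of the child `k` of `p`, in the coordinates of `p` -/
noncomputable def tt (Q : Pa E) (c : List ℕ → E → ℝ) (Z : List ℕ → Set E)
    (cls : List ℕ → E → ℕ) (j : ℕ) (p : List ℕ) (k : ℕ) : FT E (Unit ⊕ List ℕ) :=
  FT.mp (Q.P (k :: p)) (stop Q c Z cls j (k :: p))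

lemma sft_cut' (n j : ℕ) (p : List ℕ) :
    sft Q c Z cls (j + n) p = (stop Q c Z cls j p).bind (SS Q c Z cls n p) := by
  rw [sft_cut]
  congr 1

lemma mp_SS (k : ℕ) (i : Unit ⊕ List ℕ) :
    FT.mp (Q.P (k :: p)) (SS Q c Z cls n (k :: p) i) = SS Q c Z cls n p i := by
  match i with
  | Sum.inl b => rfl
  | Sum.inr q =>
    change FT.mp (Q.P (k :: p)) (FT.mp (Q.rl q (k :: p)) (sft Q c Z cls n q))
      = FT.mp (Q.rl q p) (sft Q c Z cls n q)
    rw [FT.mp_trans, Q.rl_cons]

/-- **the cut of the tree of a child** -/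
lemma ch_cut (hl : ¬ Q.lf p) : ch Q c Z cls (j + n) p k
    = (tt Q c Z cls j p k).bind (SS Q c Z cls n p) := by
  unfold ch tt
  rw [if_neg hl, sft_cut', FT.mp_bind]
  congr 1
  funext i
  exact mp_SS k i

/-- grafting depends only on the leaves of the tree -/
lemma bind_congr_last {κ ι : Type*} {W : Submodule ℝ E} {t : FT E κ} {S S' : κ → FT E ι}
    (h : Last (fun _ i => S i = S' i) W t) : t.bind S = t.bind S' := by
  induction t generalizing W with
  | leaf i => exact h
  | node V c Z cls T ih =>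
    rw [FT.bind_node, FT.bind_node]
    congr 1
    funext k
    exact ih k (h k)

/-- the leaves of the upper part and the label spaces before them -/
lemma last_stop : ∀ (j : ℕ) (a : ℕ) (s : List ℕ) (_ : p <:+ s),
    Last (fun V i => ∀ r, i = Sum.inr r → r.length = (a :: s).length + j ∧ p <:+ r.tail ∧
      V = im (Q.rl r.tail p) (Q.W r.tail)) (im (Q.rl s p) (Q.W s))
      (FT.mp (Q.rl (a :: s) p) (stop Q c Z cls j (a :: s))) := by
  intro j
  induction j with
  | zero =>
    intro a s hs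
    intro r hr
    cases hr
    exact ⟨rfl, hs, rfl⟩
  | succ j ih =>
    intro a s hs
    rw [stop_succ, FT.mp_node]
    intro k
    by_cases hl : Q.lf (a :: s)
    · simp only [if_pos hl]
      intro r hr
      cases hr
    · simp only [if_neg hl]
      rw [FT.mp_trans, rl_cons2]
      exact last_mono (fun V i h r hr => by
        obtain ⟨h1, h2, h3⟩ := h r hr
        refine ⟨?_, h2, h3⟩
        rw [h1]; simp only [List.length_cons]; omega) (ih k (a :: s) (hs.trans (List.suffix_cons a s)))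

/-- the rotation in the coordinates of `p` -/
noncomputable def rhp (Q : Pa E) (q p : List ℕ) (ρ : E ≃ₗᵢ[ℝ] E) : E ≃ₗᵢ[ℝ] E :=
  (Q.rl q p).symm.trans (ρ.trans (Q.rl q p))

lemma rhp_apply (x : E) : rhp Q q p ρ (Q.rl q p x) = Q.rl q p (ρ x) := by
  unfold rhp
  simp

lemma sft_rot_below (h : q <:+ r ∨ q.length ≤ r.length) :
    sft (rotP Q q ρ) c Z cls n r = sft Q c Z cls n r := by
  refine sft_congr n ⟨fun s => rfl, fun s hs => ?_, fun s => Iff.rfl, fun s => rfl, fun s => rfl⟩
    fun s => rfl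
  apply rotP_P_ne
  intro h0
  have h1 := congrArg List.length h0
  have h2 : 0 < s.length := List.length_pos_iff.2 hs
  rw [List.length_append] at h1
  rcases h with h | h
  · have := h.length_le
    omega
  · omega

lemma SS_rot_self (hq : q ≠ []) (hp : ¬ q <:+ p) :
    SS (rotP Q q ρ) c Z cls n p (Sum.inr q)
      = FT.mp (rhp Q q p ρ) (SS Q c Z cls n p (Sum.inr q)) := by
  change FT.mp ((rotP Q q ρ).rl q p) (sft (rotP Q q ρ) c Z cls n q)
    = FT.mp (rhp Q q p ρ) (FT.mp (Q.rl q p) (sft Q c Z cls n q))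
  rw [rotP_rl_self hq hp, sft_rot_below (Or.inl (List.suffix_refl q)), FT.mp_trans]
  congr 1
  ext x
  simp [rhp]

lemma SS_rot_ne (hp : ¬ q <:+ p) (hr : r.length = q.length) (h : r ≠ q) :
    SS (rotP Q q ρ) c Z cls n p (Sum.inr r) = SS Q c Z cls n p (Sum.inr r) := by
  change FT.mp ((rotP Q q ρ).rl r p) (sft (rotP Q q ρ) c Z cls n r)
    = FT.mp (Q.rl r p) (sft Q c Z cls n r)
  have h1 : ¬ q <:+ r := fun h0 => h (h0.eq_of_length hr.symm).symm
  rw [rotP_rl_not h1 hp, sft_rot_below (Or.inr hr.ge)]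

lemma not_suffix_of_length (h : p.length < q.length) : ¬ q <:+ p := by
  intro h0
  have := h0.length_le
  omega

lemma tt_rot (hlen : q.length = p.length + 1 + j) :
    tt (rotP Q q ρ) c Z cls j p k = tt Q c Z cls j p k := by
  unfold tt
  cases j with
  | zero => rfl
  | succ j =>
    rw [rotP_P_ne (r := k :: p) (fun h0 => by
      have := congrArg List.length h0
      simp only [List.length_cons] at this
      omega)]
    congr 1
    refine stop_congr (j + 1) (fun s hs => ⟨rfl, Iff.rfl, rfl, rfl, rfl⟩) fun s hs hs' => ?_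
    apply rotP_P_ne
    intro h0
    have := congrArg List.length h0
    rw [List.length_append, List.length_cons] at this
    omega

lemma last_tt (hl : ¬ Q.lf p) :
    Last (fun V i => ∀ r, i = Sum.inr r → r.length = p.length + 1 + j ∧ p <:+ r.tail ∧
      V = im (Q.rl r.tail p) (Q.W r.tail)) (Q.W p) (tt Q c Z cls j p k) := by
  have h := last_stop (Q := Q) (c := c) (Z := Z) (cls := cls) (p := p) j k p (List.suffix_refl p)
  rw [Q.rl_self, im_refl, Q.rl_one] at h
  exact h

/-- **the tree of a child after the rotation** -/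
theorem ch_rot (hq : q ≠ []) (hl : ¬ Q.lf p) (hlen : q.length = p.length + 1 + j) :
    ch (rotP Q q ρ) c Z cls (j + n) p k
      = (tt Q c Z cls j p k).bind (rotS (SS Q c Z cls n p) (Sum.inr q) (rhp Q q p ρ)) := by
  have hp : ¬ q <:+ p := not_suffix_of_length (by omega)
  rw [ch_cut (Q := rotP Q q ρ) hl, tt_rot hlen]
  refine bind_congr_last (W := Q.W p) ?_
  refine last_mono (fun V i h => ?_) (last_tt hl)
  match i with
  | Sum.inl b => rw [rotS_ne (by simp)]; rfl
  | Sum.inr r =>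
    obtain ⟨h1, -, -⟩ := h r rfl
    by_cases hr : r = q
    · subst hr
      rw [rotS_self, SS_rot_self hq hp]
    · rw [rotS_ne (by simpa using hr), SS_rot_ne hp (by omega) hr]

/-! ### the conditions of the cut -/

lemma fixes_rhp (hQ : Q.Ok) (hq : q ≠ []) (hρ : Fixes ρ (Q.W q.tail)) :
    Fixes (rhp Q q p ρ) (im (Q.rl q.tail p) (Q.W q.tail)) := by
  obtain ⟨a, s, rfl⟩ := List.exists_cons_of_ne_nil hq
  rw [List.tail_cons] at hρ ⊢
  intro x hx
  rw [mem_im] at hx
  set w := (Q.rl s p).symm x with hw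
  have h1 : Q.P (a :: s) w = w := hQ.fix a s w hx
  have h2 : Q.rl (a :: s) p w = x := by
    rw [← rl_cons2, LinearIsometryEquiv.trans_apply, h1, hw, LinearIsometryEquiv.apply_symm_apply]
  rw [← h2, rhp_apply, hρ w hx]

lemma above_SS (hQ : Q.Ok) (hq : q ≠ []) :
    Above (im (Q.rl q.tail p) (Q.W q.tail)) (SS Q c Z cls n p (Sum.inr q)) := by
  obtain ⟨a, s, rfl⟩ := List.exists_cons_of_ne_nil hq
  rw [List.tail_cons]
  have h1 : im (Q.rl s p) (Q.W s) ≤ im (Q.rl (a :: s) p) (Q.W (a :: s)) := by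
    rw [← rl_cons2, ← im_trans]
    refine im_mono _ ?_
    have h2 : im (Q.P (a :: s)) (Q.W s) = Q.W s := (hQ.fix a s).map_eq
    calc Q.W s = im (Q.P (a :: s)) (Q.W s) := h2.symm
      _ ≤ _ := im_mono _ (hQ.le a s)
  exact Above.mono h1 (above_mp (above_sft n (a :: s)))

lemma good_SS {c0 : ℝ} (hQ : Q.Ok) (hL : LabF Q c0 c Z cls) (i : Unit ⊕ List ℕ) :
    Good c0 (SS Q c Z cls n p i) := by
  match i with
  | Sum.inl b => trivial
  | Sum.inr r => exact good_mp (good_sft hQ hL n r)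

lemma good_tt {c0 : ℝ} (hQ : Q.Ok) (hL : LabF Q c0 c Z cls) :
    Good c0 (tt Q c Z cls j p k) := good_mp (good_stop hQ hL j (k :: p))

lemma above_tt (hQ : Q.Ok) : Above (Q.W p) (tt Q c Z cls j p k) :=
  above_mp_of (hQ.fix k p) ((above_stop j (k :: p)).mono (hQ.le k p))

lemma labF_rot {c0 : ℝ} (hL : LabF Q c0 c Z cls) : LabF (rotP Q q ρ) c0 c Z cls := ⟨hL.ok⟩

/-- the hidden mass under isometries -/
lemma hidOK_mp {ι : Type*} {R : E ≃ₗᵢ[ℝ] E} {t : FT E ι} {g : ι → E → ℝ}
    (h : HidOK t fun i y => g i (R y)) : HidOK (FT.mp R t) g := by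
  induction t with
  | leaf i => trivial
  | node W c Z cls T ih =>
    obtain ⟨h1, h2⟩ := h
    refine ⟨fun x hx => ?_, fun k => ih k (h2 k)⟩
    have h3 := h1 (R.symm x) hx
    have e1 := pm_mp R W cls T g (R.symm x)
    have e2 := FT.val_mp (R := R) W cls T g (R.symm x)
    rw [LinearIsometryEquiv.apply_symm_apply] at e1 e2
    rw [e1, e2]
    exact h3

lemma hidR_mp {ι : Type*} {R ρ : E ≃ₗᵢ[ℝ] E} {t : FT E ι} {f : E → ℝ}
    (h : HidR t (fun y => f (R y)) ρ) :
    HidR (FT.mp R t) f (R.symm.trans (ρ.trans R)) where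
  old := hidOK_mp h.old
  new := hidOK_mp (by
    have e : (fun (i : ι) (y : E) => kst ι (fun z => f ((R.symm.trans (ρ.trans R)) z)) i (R y))
        = kst ι fun z => f (R (ρ z)) := by
      funext i y
      simp [kst]
    rw [e]
    exact h.new)
  max := hidOK_mp (by
    have e : (fun (i : ι) (y : E) => gmx (kst ι f)
          (kst ι (fun z => f ((R.symm.trans (ρ.trans R)) z))) i (R y))
        = gmx (kst ι fun y => f (R y)) (kst ι fun z => f (R (ρ z))) := by
      funext i y
      simp [kst, gmx]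
    rw [e]
    exact h.max)

/-- **an inner rotation at a label of `p`, in the fibre** -/
theorem soft_ch {c0 : ℝ} (hQ : Q.Ok) (hL : LabF Q c0 c Z cls) (hc : c0 ≤ 1 / 16) {f : E → ℝ}
    (hf : UI f) (hq : q ≠ []) (hlen : q.length = p.length + 1 + j) (hρ : Fixes ρ (Q.W q.tail))
    (hH : HidR (sft Q c Z cls n q) (fun y => f (Q.rl q p y)) ρ) (hl : ¬ Q.lf p) (x : E) {a b : ℝ}
    (ha : 0 ≤ a) (hb : 0 ≤ b)
    (hA : fib (Q.W p) (priA (tt Q c Z cls j p k) (SS Q c Z cls n p) (Sum.inr q) (rhp Q q p ρ) f) x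
      ≤ ENNReal.ofReal a)
    (hB : fib (Q.W p) (priB (tt Q c Z cls j p k) (SS Q c Z cls n p) (Sum.inr q) (rhp Q q p ρ) f) x
      ≤ ENNReal.ofReal b) :
    Soft (fun z : (Q.W p)ᗮ => fl (ch Q c Z cls (j + n) p k) (kst Unit f) (H852.sl (Q.W p) x z))
      (fun z : (Q.W p)ᗮ => fl (ch (rotP Q q ρ) c Z cls (j + n) p k) (kst Unit f)
        (H852.sl (Q.W p) x z)) a b := by
  have g1 : Good c0 ((tt Q c Z cls j p k).bind (SS Q c Z cls n p)) := by
    rw [← ch_cut hl]
    exact good_ch hQ hL (j + n) p k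
  have g2 : Good c0 ((tt Q c Z cls j p k).bind
      (rotS (SS Q c Z cls n p) (Sum.inr q) (rhp Q q p ρ))) := by
    rw [← ch_rot hq hl hlen]
    exact good_ch (rotP_ok hQ hρ) (labF_rot hL) (j + n) p k
  rw [ch_cut hl, ch_rot hq hl hlen]
  refine rot_soft_slice hc (good_tt hQ hL) (above_tt hQ) (good_SS hQ hL) g1 g2 hf ?_ ?_ x ha hb
    hA hB
  · exact hidR_mp hH
  · refine last_mono (fun V i h hi => ?_) (last_tt hl)
    obtain ⟨-, -, h3⟩ := h q hi
    rw [h3]
    exact ⟨fixes_rhp hQ hq hρ, above_SS hQ hq⟩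

end cut

end Vale.Agent.P262.H174
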