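import Vale.Agent.P262.H174.RI1

/-!
# P262, milestone 2, ROT-IN part 2: the price of an inner rotation with one vector at all levels

The functions of a tree in the coordinates of an upper node are replaced by functions of (node,
point in the coordinates of the node) read at the same vector at all levels; the averages over the
fibres do not change because the coordinate changes fix the label space of the parent.
-/

set_option linter.all false

open MeasureTheory ProbabilityTheory Set
open scoped ENNReal RealInnerProductSpace Classical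

namespace Vale.Agent.P262.H174

open Vale.Agent.P262.H395 (mix fib Inv measurable_fib fib_mono fib_const fib_add fib_mul
  fib_eq_self inv_fib fib_tower starProjection_mix measurable_mix_right fib_add_right Fixes)
open Vale.Agent.P262.H847 (UI)
open Vale.Agent.P262.H654 (tr phi sg Bd InvR fr invR_fr fr_mono fr_const ofReal_fr sg_pos one_le_sg)
open Vale.Agent.P262.H713 Vale.Agent.P262.H713.FT

variable {E : Type*} [NormedAddCommGroup E] [InnerProductSpace ℝ E] [FiniteDimensional ℝ E]
  [MeasurableSpace E] [BorelSpace E] {ι κ : Type*}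

/-- slopes under isometries -/
lemma slm_mp {R : E ≃ₗᵢ[ℝ] E} (t : FT E ι) (g g' : ι → E → ℝ) (x : E) :
    slm (FT.mp R t) g g' (R x) = slm t (fun i y => g i (R y)) (fun i y => g' i (R y)) x := by
  induction t generalizing x with
  | leaf i => rfl
  | node W c Z cls T ih =>
    rw [mp_node, slm_node, slm_node]
    unfold sf
    simp only [mem_preimage, LinearIsometryEquiv.symm_apply_apply, FT.val_mp, ih]

/-- payoffs of all nodes which are one function in different coordinates -/
def Cmp (Q : Pa E) (p : List ℕ) (g : List ℕ → E → ℝ) : Prop :=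
  ∀ k r, p <:+ r → ∀ y, g (k :: r) y = g r (Q.P (k :: r) y)

section defs

variable (Q : Pa E) (c : List ℕ → E → ℝ) (Z om : List ℕ → Set E)
    (cls : List ℕ → E → ℕ) (g g' : List ℕ → E → ℝ)

/-- the change of the payoff at a label of the node `r` -/
noncomputable def dv (r : List ℕ) (y : E) : ℝ≥0∞ :=
  fib (Q.W r) (fun z => ENNReal.ofReal |g' r z - g r z|) y

/-- the ratio at a label of the node `r` -/
noncomputable def rv (r : List ℕ) (y : E) : ℝ≥0∞ :=
  ENNReal.ofReal (c r y) / ENNReal.ofReal (max (fr (Q.W r) (fun z => max (g r z) (g' r z)) y) (c r y))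

/-- the charge below a node, one vector -/
noncomputable def rsv : ℕ → List ℕ → E → ℝ≥0∞
  | 0, _ => fun _ => 0
  | n + 1, r => fun y => if y ∈ Z r then dv Q g g' r y
      else 48 * (rv Q c g g' r y * dv Q g g' r y)
        + 17 * (if Q.lf r then 0 else rsv n (cls r y :: r) y)

/-- the throughput from a node down to the node `q`, one vector -/
noncomputable def upv (q : List ℕ) (H : E → ℝ≥0∞) : ℕ → List ℕ → E → ℝ≥0∞
  | 0, r => fun y => if r = q then H y else 0
  | j + 1, r => fun y => if y ∈ om r then 17 * (if Q.lf r then 0 else upv q H j (cls r y :: r) y)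
      else 0

end defs

section down

variable {Q : Pa E} {c : List ℕ → E → ℝ} {Z om : List ℕ → Set E}
    {cls : List ℕ → E → ℕ} {g g' : List ℕ → E → ℝ} {c0 : ℝ} {p q : List ℕ} {H : E → ℝ≥0∞}

lemma measurable_dv (hg : ∀ r, UI (g r)) (hg' : ∀ r, UI (g' r)) (r : List ℕ) :
    Measurable (dv Q g g' r) :=
  measurable_fib (((hg' r).meas.sub (hg r).meas).abs.ennreal_ofReal)

lemma inv_dv (r : List ℕ) : Inv (Q.W r) (dv Q g g' r) := inv_fib _ _

lemma measurable_rv (hL : LabF Q c0 c Z cls) (hg : ∀ r, UI (g r)) (hg' : ∀ r, UI (g' r))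
    (r : List ℕ) : Measurable (rv Q c g g' r) := by
  have h3 := (H654.UI.fr (H654.UI.max (hg r) (hg' r)) (Q.W r)).meas
  exact (hL.ok r).meas.ennreal_ofReal.div (h3.max (hL.ok r).meas).ennreal_ofReal

lemma inv_rv (hL : LabF Q c0 c Z cls) (r : List ℕ) : Inv (Q.W r) (rv Q c g g' r) := by
  intro x w hw
  unfold rv
  rw [(hL.ok r).inv x w hw, invR_fr (Q.W r) _ x w hw]

lemma measurable_rsv (hL : LabF Q c0 c Z cls) (hg : ∀ r, UI (g r)) (hg' : ∀ r, UI (g' r)) :
    ∀ (n : ℕ) (r : List ℕ), Measurable (rsv Q c Z cls g g' n r) := by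
  intro n
  induction n with
  | zero => exact fun r => measurable_const
  | succ n ih =>
    intro r
    refine Measurable.ite (hL.ok r).measZ (measurable_dv hg hg' r) ?_
    refine (((measurable_rv hL hg hg' r).mul (measurable_dv hg hg' r)).const_mul 48).add
      (Measurable.const_mul ?_ 17)
    by_cases hl : Q.lf r
    · simp only [if_pos hl]; exact measurable_const
    · simp only [if_neg hl]
      exact H395.Tree.measurable_sel (F := fun k y => rsv Q c Z cls g g' n (k :: r) y)
        (fun k => ih (k :: r)) (hL.ok r).mcls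

/-- **the charge below a node with one vector** -/
theorem fib_rs_eq (hQ : Q.Ok) (hL : LabF Q c0 c Z cls) (hg : ∀ r, UI (g r))
    (hg' : ∀ r, UI (g' r)) (hc : Cmp Q p g) (hc' : Cmp Q p g') :
    ∀ (n : ℕ) (r : List ℕ) (_ : p <:+ r) (W : Submodule ℝ E) (_ : W ≤ Q.W r) (x : E),
    fib W (rs (sft Q c Z cls n r) (kst Unit (g r)) (kst Unit (g' r))) x
      = fib W (rsv Q c Z cls g g' n r) x := by
  intro n
  induction n with
  | zero => intro r _ W _ x; rfl
  | succ n ih =>
    intro r hr W hW x
    have hGood := good_sft hQ hL (n + 1) r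
    have m1 : Measurable (rs (sft Q c Z cls (n + 1) r) (kst Unit (g r)) (kst Unit (g' r))) :=
      measurable_rs hGood (kst_UI (hg r)) (kst_UI (hg' r))
    have m2 := measurable_rsv hL hg hg' (n + 1) r
    rw [← fib_tower hW m1, ← fib_tower hW m2]
    congr 1
    funext y
    have hok := hL.ok r
    have d1 : dlp (Q.W r) (cls r) (ch Q c Z cls n r) (kst Unit (g r)) (kst Unit (g' r))
        = dv Q g g' r := rfl
    have d2 : rr (Q.W r) (c r) (cls r) (ch Q c Z cls n r) (kst Unit (g r)) (kst Unit (g' r))
        = rv Q c g g' r := rfl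
    by_cases hy : y ∈ Z r
    · apply fib_congr
      intro z hz
      have hzz := (mem_iff_of hok.invZ hz).2 hy
      rw [sft_succ', rs_node, if_pos hzz, d1]
      change _ = if z ∈ Z r then _ else _
      rw [if_pos hzz]
    · have e1 : fib (Q.W r) (rs (sft Q c Z cls (n + 1) r) (kst Unit (g r)) (kst Unit (g' r))) y
          = fib (Q.W r) (fun z => 48 * (rv Q c g g' r y * dv Q g g' r y)
            + 17 * rs (ch Q c Z cls n r (cls r y)) (kst Unit (g r)) (kst Unit (g' r)) z) y := by
        apply fib_congr
        intro z hz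
        have hzz : z ∉ Z r := fun h => hy ((mem_iff_of hok.invZ hz).1 h)
        rw [sft_succ', rs_node, if_neg hzz, d1, d2, (inv_rv hL r).eq_of hz, (inv_dv r).eq_of hz,
          hok.icls.eq_of hz]
      have e2 : fib (Q.W r) (rsv Q c Z cls g g' (n + 1) r) y
          = fib (Q.W r) (fun z => 48 * (rv Q c g g' r y * dv Q g g' r y)
            + 17 * (if Q.lf r then 0 else rsv Q c Z cls g g' n (cls r y :: r) z)) y := by
        apply fib_congr
        intro z hz
        have hzz : z ∉ Z r := fun h => hy ((mem_iff_of hok.invZ hz).1 h)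
        change (if z ∈ Z r then _ else _) = _
        rw [if_neg hzz, (inv_rv hL r).eq_of hz, (inv_dv r).eq_of hz, hok.icls.eq_of hz]
      rw [e1, e2]
      by_cases hl : Q.lf r
      · simp only [if_pos hl]
        have e3 : ch Q c Z cls n r (cls r y) = .leaf () := by unfold ch; rw [if_pos hl]
        rw [e3]
        rfl
      · simp only [if_neg hl]
        have mk : Measurable (rs (ch Q c Z cls n r (cls r y)) (kst Unit (g r)) (kst Unit (g' r))) :=
          measurable_rs (good_ch hQ hL n r _) (kst_UI (hg r)) (kst_UI (hg' r))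
        rw [fib_add measurable_const, fib_add measurable_const,
          fib_mul (H395.inv_const (Q.W r) 17) mk,
          fib_mul (H395.inv_const (Q.W r) 17) (measurable_rsv hL hg hg' n (cls r y :: r))]
        congr 2
        set k := cls r y with hk
        have e3 : ch Q c Z cls n r k = FT.mp (Q.P (k :: r)) (sft Q c Z cls n (k :: r)) := by
          unfold ch; rw [if_neg hl]
        rw [e3, ← fib_fix (hQ.fix k r) _ y]
        simp_rw [rs_mp]
        have a1 : (fun (i : Unit) (y : E) => kst Unit (g r) i (Q.P (k :: r) y))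
            = kst Unit (g (k :: r)) := by
          funext i y
          exact (hc k r hr y).symm
        have a2 : (fun (i : Unit) (y : E) => kst Unit (g' r) i (Q.P (k :: r) y))
            = kst Unit (g' (k :: r)) := by
          funext i y
          exact (hc' k r hr y).symm
        rw [a1, a2]
        exact ih (k :: r) (hr.trans (List.suffix_cons k r)) (Q.W r) (hQ.le k r) y

end down

section up

variable {Q : Pa E} {c : List ℕ → E → ℝ} {Z om : List ℕ → Set E}
    {cls : List ℕ → E → ℕ} {g : List ℕ → E → ℝ} {c0 : ℝ} {p q : List ℕ} {H H' : E → ℝ≥0∞}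
    {ρ : E ≃ₗᵢ[ℝ] E} {n : ℕ}

lemma measurable_upv (hL : LabF Q c0 c Z cls) (hom : ∀ r, MeasurableSet (om r))
    (hH : Measurable H) : ∀ (j : ℕ) (r : List ℕ), Measurable (upv Q om cls q H j r) := by
  intro j
  induction j with
  | zero =>
    intro r
    by_cases h : r = q
    · have : upv Q om cls q H 0 r = H := by funext y; exact if_pos h
      rw [this]; exact hH
    · have : upv Q om cls q H 0 r = fun _ => 0 := by funext y; exact if_neg h
      rw [this]; exact measurable_const
  | succ j ih =>
    intro r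
    refine Measurable.ite (hom r) (Measurable.const_mul ?_ 17) measurable_const
    by_cases hl : Q.lf r
    · simp only [if_pos hl]; exact measurable_const
    · simp only [if_neg hl]
      exact H395.Tree.measurable_sel (F := fun k y => upv Q om cls q H j (k :: r) y)
        (fun k => ih (k :: r)) (hL.ok r).mcls

/-- the visible mass of a label of the node `r` with `N` levels below -/
noncomputable def FM (Q : Pa E) (c : List ℕ → E → ℝ) (Z : List ℕ → Set E)
    (cls : List ℕ → E → ℕ) (g : List ℕ → E → ℝ) (N : ℕ) (r : List ℕ) (y : E) : ℝ :=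
  fr (Q.W r) (fun z => fl (ch Q c Z cls N r (cls r z)) (kst Unit (g r)) z) y

lemma pg_mp (k : ℕ) (r : List ℕ) (hc : ∀ y, g (k :: r) y = g r (Q.P (k :: r) y)) :
    (fun i y => pg (SS Q c Z cls n r) (g r) i (Q.P (k :: r) y))
      = pg (SS Q c Z cls n (k :: r)) (g (k :: r)) := by
  funext i y
  unfold pg
  rw [← mp_SS k i, fl_mp]
  congr 1
  funext i y
  exact (hc y).symm

lemma rotS_mp (k : ℕ) (r : List ℕ) (i : Unit ⊕ List ℕ) :
    FT.mp (Q.P (k :: r)) (rotS (SS Q c Z cls n (k :: r)) (Sum.inr q) (rhp Q q (k :: r) ρ) i)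
      = rotS (SS Q c Z cls n r) (Sum.inr q) (rhp Q q r ρ) i := by
  by_cases hi : i = Sum.inr q
  · subst hi
    rw [rotS_self, rotS_self]
    change FT.mp (Q.P (k :: r)) (FT.mp (rhp Q q (k :: r) ρ)
      (FT.mp (Q.rl q (k :: r)) (sft Q c Z cls n q))) = FT.mp (rhp Q q r ρ)
        (FT.mp (Q.rl q r) (sft Q c Z cls n q))
    rw [FT.mp_trans, FT.mp_trans, FT.mp_trans]
    congr 1
    ext x
    simp only [LinearIsometryEquiv.trans_apply]
    rw [rhp_apply, rhp_apply, ← Q.rl_cons q k r, LinearIsometryEquiv.trans_apply]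
  · rw [rotS_ne hi, rotS_ne hi, mp_SS]

lemma pg_rotS_mp (k : ℕ) (r : List ℕ) (hc : ∀ y, g (k :: r) y = g r (Q.P (k :: r) y)) :
    (fun i y => pg (rotS (SS Q c Z cls n r) (Sum.inr q) (rhp Q q r ρ)) (g r) i (Q.P (k :: r) y))
      = pg (rotS (SS Q c Z cls n (k :: r)) (Sum.inr q) (rhp Q q (k :: r) ρ)) (g (k :: r)) := by
  funext i y
  unfold pg
  rw [← rotS_mp k r i, fl_mp]
  congr 1
  funext i y
  exact (hc y).symm

/-- visible implies counted, between the observer and the rotating node -/
def Vis (Q Q' : Pa E) (c : List ℕ → E → ℝ) (Z om : List ℕ → Set E)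
    (cls : List ℕ → E → ℕ) (g : List ℕ → E → ℝ) (p q : List ℕ) (n : ℕ) : Prop :=
  ∀ j r, p <:+ r → r.length + 1 + j = q.length → ∀ y, y ∉ Z r →
    c r y < max (FM Q c Z cls g (j + n) r y) (FM Q' c Z cls g (j + n) r y) → y ∈ om r

/-- the function of the leaf of the upper tree -/
noncomputable def hq (Q : Pa E) (q r : List ℕ) (H : E → ℝ≥0∞) (i : Unit ⊕ List ℕ) (y : E) : ℝ≥0∞ :=
  if i = Sum.inr q then H ((Q.rl q r).symm y) else 0

lemma measurable_hq (hH : Measurable H) (r : List ℕ) (i : Unit ⊕ List ℕ) :
    Measurable (hq Q q r H i) := by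
  unfold hq
  by_cases h : i = Sum.inr q
  · simp only [if_pos h]
    exact hH.comp (Q.rl q r).symm.continuous.measurable
  · simp only [if_neg h]
    exact measurable_const

lemma fib_le_of_le {W : Submodule ℝ E} {f h : E → ℝ≥0∞} {x : E}
    (e : ∀ y, W.starProjection y = W.starProjection x → f y ≤ h y) : fib W f x ≤ fib W h x := by
  unfold H395.fib
  exact lintegral_mono fun z => e _ (starProjection_mix W x z)

lemma hq_mp (k : ℕ) (r : List ℕ) (i : Unit ⊕ List ℕ) (z : E) :
    hq Q q r H i (Q.P (k :: r) z) = hq Q q (k :: r) H i z := by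
  unfold hq
  have e : (Q.rl q r).symm (Q.P (k :: r) z) = (Q.rl q (k :: r)).symm z := by
    rw [← Q.rl_cons q k r]
    simp
  rw [e]

/-- the children of a node of the upper tree -/
noncomputable def stc (Q : Pa E) (c : List ℕ → E → ℝ) (Z : List ℕ → Set E)
    (cls : List ℕ → E → ℕ) (j : ℕ) (r : List ℕ) (k : ℕ) : FT E (Unit ⊕ List ℕ) :=
  if Q.lf r then .leaf (Sum.inl ()) else FT.mp (Q.P (k :: r)) (stop Q c Z cls j (k :: r))

lemma stop_succ' (j : ℕ) (r : List ℕ) : stop Q c Z cls (j + 1) r
    = .node (Q.W r) (c r) (Z r) (cls r) (stc Q c Z cls j r) := rfl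

lemma stc_bind (j : ℕ) (r : List ℕ) (k : ℕ) :
    (stc Q c Z cls j r k).bind (SS Q c Z cls n r) = ch Q c Z cls (j + n) r k := by
  unfold stc
  by_cases hl : Q.lf r
  · rw [if_pos hl]
    unfold ch
    rw [if_pos hl]
    rfl
  · rw [if_neg hl, ch_cut hl]
    rfl

lemma stc_bind_rot (hq : q ≠ []) {j : ℕ} {r : List ℕ} (k : ℕ)
    (hlen : q.length = r.length + 1 + j) :
    (stc Q c Z cls j r k).bind (rotS (SS Q c Z cls n r) (Sum.inr q) (rhp Q q r ρ))
      = ch (rotP Q q ρ) c Z cls (j + n) r k := by
  unfold stc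
  by_cases hl : Q.lf r
  · rw [if_pos hl]
    have e : ch (rotP Q q ρ) c Z cls (j + n) r k = .leaf () := by
      unfold ch
      exact if_pos hl
    rw [e, FT.bind_leaf, rotS_ne (by simp)]
    rfl
  · rw [if_neg hl, ch_rot hq hl hlen]
    rfl

lemma val_stc (j : ℕ) (r : List ℕ) (y : E) :
    val (Q.W r) (cls r) (stc Q c Z cls j r) (pg (SS Q c Z cls n r) (g r)) y
      = FM Q c Z cls g (j + n) r y := by
  unfold val FM
  congr 1
  funext z
  rw [← stc_bind (n := n) j r (cls r z), FT.fl_bind]
  rfl

lemma val_stc_rot (hq : q ≠ []) {j : ℕ} {r : List ℕ} (hlen : q.length = r.length + 1 + j)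
    (y : E) :
    val (Q.W r) (cls r) (stc Q c Z cls j r)
      (pg (rotS (SS Q c Z cls n r) (Sum.inr q) (rhp Q q r ρ)) (g r)) y
      = FM (rotP Q q ρ) c Z cls g (j + n) r y := by
  unfold val FM
  change fr (Q.W r) _ y = fr (Q.W r) _ y
  congr 1
  funext z
  rw [← stc_bind_rot (n := n) hq (cls r z) hlen, FT.fl_bind]
  rfl

lemma sg_le_17 {x : ℝ} (h0 : 0 ≤ x) (h1 : x ≤ 1 / 16) : ENNReal.ofReal (sg x) ≤ 17 := by
  have h := FT.sg_le h0 h1
  have h2 : sg x ≤ 17 := by linarith
  exact (ENNReal.ofReal_le_ofReal h2).trans (by norm_num)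

/-- **the price of the upper levels with one vector** -/
theorem fib_up_le (hQ : Q.Ok) (hL : LabF Q c0 c Z cls) (hc1 : c0 ≤ 1 / 16) (hq0 : q ≠ [])
    (hcg : Cmp Q p g) (hg : ∀ r, UI (g r)) (hρ : Fixes ρ (Q.W q.tail))
    (hom : ∀ r, MeasurableSet (om r))
    (homI : ∀ r, ∀ x, ∀ w ∈ (Q.W r)ᗮ, (x + w ∈ om r ↔ x ∈ om r))
    (hV : Vis Q (rotP Q q ρ) c Z om cls g p q n)
    (hH : Measurable H) (hH' : Measurable H')
    (hHH : ∀ W ≤ Q.W q, ∀ x, fib W H x ≤ fib W H' x) :
    ∀ (j : ℕ) (r : List ℕ) (_ : p <:+ r) (_ : q.length = r.length + j)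
      (W : Submodule ℝ E) (_ : W ≤ Q.W r) (x : E),
    fib W (fun y => slm (stop Q c Z cls j r) (pg (SS Q c Z cls n r) (g r))
        (pg (rotS (SS Q c Z cls n r) (Sum.inr q) (rhp Q q r ρ)) (g r)) y
        * hq Q q r H (leafOf (stop Q c Z cls j r) y) y) x
      ≤ fib W (upv Q om cls q H' j r) x := by
  intro j
  induction j with
  | zero =>
    intro r hr hlen W hW x
    by_cases h : r = q
    · subst h
      have e1 : (fun y => slm (stop Q c Z cls 0 r) (pg (SS Q c Z cls n r) (g r))
          (pg (rotS (SS Q c Z cls n r) (Sum.inr r) (rhp Q r r ρ)) (g r)) y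
          * hq Q r r H (leafOf (stop Q c Z cls 0 r) y) y) = H := by
        funext y
        change 1 * hq Q r r H (Sum.inr r) y = H y
        unfold hq
        rw [one_mul, if_pos rfl, Q.rl_self]
        rfl
      have e2 : upv Q om cls r H' 0 r = H' := by funext y; exact if_pos rfl
      rw [e1, e2]
      exact hHH W hW x
    · have e1 : (fun y => slm (stop Q c Z cls 0 r) (pg (SS Q c Z cls n r) (g r))
          (pg (rotS (SS Q c Z cls n r) (Sum.inr q) (rhp Q q r ρ)) (g r)) y
          * hq Q q r H (leafOf (stop Q c Z cls 0 r) y) y) = fun _ => 0 := by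
        funext y
        change 1 * hq Q q r H (Sum.inr r) y = 0
        unfold hq
        rw [one_mul, if_neg (by simpa using h)]
      rw [e1, fib_const]
      exact zero_le
  | succ j ih =>
    intro r hr hlen W hW x
    have hok := hL.ok r
    set G := pg (SS Q c Z cls n r) (g r) with hG
    set G' := pg (rotS (SS Q c Z cls n r) (Sum.inr q) (rhp Q q r ρ)) (g r) with hG'
    have gS : ∀ i, Good c0 (SS Q c Z cls n r i) := good_SS hQ hL
    have uG : ∀ i, UI (G i) := pg_UI gS hc1 (hg r)
    have uG' : ∀ i, UI (G' i) := pg_UI (good_rotS gS) hc1 (hg r)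
    have gst := good_stop hQ hL (j + 1) r
    have m1 : Measurable (fun y => slm (stop Q c Z cls (j + 1) r) G G' y
        * hq Q q r H (leafOf (stop Q c Z cls (j + 1) r) y) y) :=
      (measurable_slm gst hc1 uG uG').mul (measurable_lf gst (measurable_hq hH r))
    have m2 := measurable_upv (q := q) hL hom hH' (j + 1) r
    rw [← fib_tower hW m1, ← fib_tower hW m2]
    refine fib_mono (fun y => ?_) x
    set k := cls r y with hk
    have v1 := val_stc (Q := Q) (c := c) (Z := Z) (cls := cls) (g := g) (n := n) j r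
    have v2 := fun z => val_stc_rot (Q := Q) (c := c) (Z := Z) (cls := cls) (g := g) (n := n)
      (ρ := ρ) hq0 (j := j) (r := r) (by omega) z
    have gk : Good c0 (stc Q c Z cls j r k) := gst.2.2 k
    have mk : Measurable fun z => slm (stc Q c Z cls j r k) G G' z
        * hq Q q r H (leafOf (stc Q c Z cls j r k) z) z :=
      (measurable_slm gk hc1 uG uG').mul (measurable_lf gk (measurable_hq hH r))
    have e1 : fib (Q.W r) (fun z => slm (stop Q c Z cls (j + 1) r) G G' z
        * hq Q q r H (leafOf (stop Q c Z cls (j + 1) r) z) z) y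
        = sf (c r) (Z r) (fun z => max (val (Q.W r) (cls r) (stc Q c Z cls j r) G z)
            (val (Q.W r) (cls r) (stc Q c Z cls j r) G' z)) y
          * fib (Q.W r) (fun z => slm (stc Q c Z cls j r k) G G' z
            * hq Q q r H (leafOf (stc Q c Z cls j r k) z) z) y := by
      rw [← fib_mul (H395.inv_const (Q.W r) _) mk]
      apply fib_congr
      intro z hz
      rw [stop_succ', slm_node (Q.W r),
        (inv_sf hok (invR_maxval (Q.W r) (cls r) (stc Q c Z cls j r) G G')).eq_of hz]
      change _ * slm (stc Q c Z cls j r (cls r z)) G G' z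
        * hq Q q r H (leafOf (stc Q c Z cls j r (cls r z)) z) z = _
      rw [hok.icls.eq_of hz, mul_assoc]
    rw [e1]
    by_cases hy : y ∈ om r
    · have e2 : fib (Q.W r) (upv Q om cls q H' (j + 1) r) y
          = 17 * (if Q.lf r then 0 else fib (Q.W r) (upv Q om cls q H' j (k :: r)) y) := by
        have a1 : fib (Q.W r) (upv Q om cls q H' (j + 1) r) y
            = fib (Q.W r) (fun z => 17 * (if Q.lf r then 0 else upv Q om cls q H' j (k :: r) z)) y := by
          apply fib_congr
          intro z hz
          change (if z ∈ om r then _ else _) = _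
          rw [if_pos ((mem_iff_of (homI r) hz).2 hy), hok.icls.eq_of hz]
        rw [a1]
        by_cases hl : Q.lf r
        · simp only [if_pos hl, mul_zero]
          rw [fib_const]
        · simp only [if_neg hl]
          rw [fib_mul (H395.inv_const (Q.W r) 17) (measurable_upv (q := q) hL hom hH' j (k :: r))]
      rw [e2]
      refine mul_le_mul' ?_ ?_
      · unfold sf
        split_ifs with hs
        · exact sg_le_17 (hok.nonneg y) ((hok.le y hs.1).trans hc1)
        · exact zero_le
      · by_cases hl : Q.lf r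
        · rw [if_pos hl]
          have a1 : stc Q c Z cls j r k = .leaf (Sum.inl ()) := by unfold stc; rw [if_pos hl]
          rw [a1]
          have a2 : (fun z => slm (FT.leaf (Sum.inl ()) : FT E (Unit ⊕ List ℕ)) G G' z
            * hq Q q r H (leafOf (FT.leaf (Sum.inl ()) : FT E (Unit ⊕ List ℕ)) z) z)
              = fun _ => 0 := by
            funext z
            change 1 * hq Q q r H (Sum.inl ()) z = 0
            unfold hq
            rw [if_neg (by simp), mul_zero]
          rw [a2, fib_const]
        · rw [if_neg hl]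
          have a1 : stc Q c Z cls j r k
              = FT.mp (Q.P (k :: r)) (stop Q c Z cls j (k :: r)) := by unfold stc; rw [if_neg hl]
          rw [a1, ← fib_fix (hQ.fix k r) _ y]
          have hcr := hcg k r hr
          have a3 : (fun z => slm (FT.mp (Q.P (k :: r)) (stop Q c Z cls j (k :: r))) G G'
                (Q.P (k :: r) z)
              * hq Q q r H (leafOf (FT.mp (Q.P (k :: r)) (stop Q c Z cls j (k :: r)))
                (Q.P (k :: r) z)) (Q.P (k :: r) z))
              = fun z => slm (stop Q c Z cls j (k :: r)) (pg (SS Q c Z cls n (k :: r)) (g (k :: r)))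
                  (pg (rotS (SS Q c Z cls n (k :: r)) (Sum.inr q) (rhp Q q (k :: r) ρ))
                    (g (k :: r))) z
                * hq Q q (k :: r) H (leafOf (stop Q c Z cls j (k :: r)) z) z := by
            funext z
            rw [slm_mp, leafOf_mp, hq_mp, ← pg_mp k r hcr, ← pg_rotS_mp k r hcr]
          rw [a3]
          exact ih (k :: r) (hr.trans (List.suffix_cons k r)) (by simp only [List.length_cons]; omega)
            (Q.W r) (hQ.le k r) y
    · have e3 : sf (c r) (Z r) (fun z => max (val (Q.W r) (cls r) (stc Q c Z cls j r) G z)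
            (val (Q.W r) (cls r) (stc Q c Z cls j r) G' z)) y = 0 := by
        unfold sf
        rw [if_neg]
        rintro ⟨h1, h2⟩
        refine hy (hV j r hr (by omega) y h1 ?_)
        rw [← v1 y, ← v2 y]
        exact h2
      rw [e3, zero_mul]
      exact zero_le

end up

end Vale.Agent.P262.H174
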