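import Vale.Agent.P262.H174.RI2

/-!
# P262, milestone 2, ROT-IN part 3: an inner rotation at a label, prices with one vector
-/

set_option linter.all false

open MeasureTheory ProbabilityTheory Set
open scoped ENNReal RealInnerProductSpace Classical

namespace Vale.Agent.P262.H174

open Vale.Agent.P262.H395 (mix fib Inv measurable_fib fib_mono fib_const fib_add fib_mul
  fib_eq_self inv_fib fib_tower starProjection_mix measurable_mix_right fib_add_right Fixes)
open Vale.Agent.P262.H847 (UI)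
open Vale.Agent.P262.H654 (tr phi sg Bd InvR fr invR_fr fr_mono fr_const ofReal_fr sg_pos one_le_sg)
open Vale.Agent.P262.H713 Vale.Agent.P262.H713.FT

variable {E : Type*} [NormedAddCommGroup E] [InnerProductSpace ℝ E] [FiniteDimensional ℝ E]
  [MeasurableSpace E] [BorelSpace E] {ι κ : Type*}

section mp

variable {R ρ : E ≃ₗᵢ[ℝ] E}

lemma dls_mp (W : Submodule ℝ E) (cls : E → ℕ) (T : ℕ → FT E ι)
    (g g' : ι → E → ℝ) (x : E) :
    dls (im R W) (fun x => cls (R.symm x)) (fun k => FT.mp R (T k)) g g' (R x)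
      = dls W cls T (fun i y => g i (R y)) (fun i y => g' i (R y)) x := by
  unfold dls
  rw [H713.fib_im]
  congr 1
  funext y
  unfold dpay
  simp only [LinearIsometryEquiv.symm_apply_apply, pay_mp, FT.sl_mp]
  rfl

lemma xxm_mp (W : Submodule ℝ E) (c : E → ℝ) (cls : E → ℕ) (T : ℕ → FT E ι)
    (g g' : ι → E → ℝ) (x : E) :
    xxm (im R W) (fun x => c (R.symm x)) (fun x => cls (R.symm x)) (fun k => FT.mp R (T k)) g g'
      (R x) = xxm W c cls T (fun i y => g i (R y)) (fun i y => g' i (R y)) x := by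
  unfold xxm
  rw [pm_mp, pm_mp, pm_mp, dls_mp]
  simp only [LinearIsometryEquiv.symm_apply_apply]
  rfl

lemma rotA_mp (t : FT E ι) (g g' : ι → E → ℝ) (x : E) :
    rotA (FT.mp R t) g g' (R x) = rotA t (fun i y => g i (R y)) (fun i y => g' i (R y)) x := by
  induction t generalizing x with
  | leaf i => rfl
  | node W c Z cls T ih =>
    rw [mp_node, rotA_node, rotA_node, xxm_mp]
    have h := dlp_mp R W cls T g g' x
    unfold dlp at h
    rw [h]
    simp only [mem_preimage, LinearIsometryEquiv.symm_apply_apply, ih]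

lemma exc_mp (t : FT E ι) (g : ι → E → ℝ) (x : E) :
    exc (FT.mp R t) g (R x) = exc t (fun i y => g i (R y)) x := by
  unfold exc
  rw [pay_mp, fl_mp]

end mp

section obs

variable {Q : Pa E} {c : List ℕ → E → ℝ} {Z om : List ℕ → Set E}
    {cls : List ℕ → E → ℕ} {g g' : List ℕ → E → ℝ} {c0 : ℝ} {p q : List ℕ}
    {ρ : E ≃ₗᵢ[ℝ] E} {n j : ℕ}

lemma Cmp.mono {p p' : List ℕ} (h : Cmp Q p g) (hp : p <:+ p') : Cmp Q p' g :=
  fun k r hr y => h k r (hp.trans hr) y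

lemma Cmp.eq (h : Cmp Q p g) (hpq : p <:+ q) (y : E) : g q y = g p (Q.rl q p y) := by
  obtain ⟨s, rfl⟩ := hpq
  induction s generalizing y with
  | nil => rw [List.nil_append, Q.rl_self]; rfl
  | cons a s ih =>
    rw [List.cons_append, h a (s ++ p) ⟨s, rfl⟩ y, ih, ← rl_cons2]
    rfl

/-- the `L¹` charge at the rotating node -/
noncomputable def HA (Q : Pa E) (c : List ℕ → E → ℝ) (Z : List ℕ → Set E)
    (cls : List ℕ → E → ℕ) (g : List ℕ → E → ℝ) (n : ℕ) (q : List ℕ) (ρ : E ≃ₗᵢ[ℝ] E) :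
    E → ℝ≥0∞ := rotA (sft Q c Z cls n q) (kst Unit (g q)) (kst Unit fun z => g q (ρ z))

/-- the displaced part at the rotating node -/
noncomputable def HB (Q : Pa E) (c : List ℕ → E → ℝ) (Z : List ℕ → Set E)
    (cls : List ℕ → E → ℕ) (g : List ℕ → E → ℝ) (n : ℕ) (q : List ℕ) (ρ : E ≃ₗᵢ[ℝ] E) (y : E) :
    ℝ≥0∞ := ENNReal.ofReal |exc (sft Q c Z cls n q) (kst Unit (g q)) y|
      * ENNReal.ofReal ‖ρ y - y‖

lemma priA_eq (hc : Cmp Q p g) (hpq : p <:+ q) (k : ℕ) :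
    priA (tt Q c Z cls j p k) (SS Q c Z cls n p) (Sum.inr q) (rhp Q q p ρ) (g p)
      = fun y => slm (tt Q c Z cls j p k) (pg (SS Q c Z cls n p) (g p))
          (pg (rotS (SS Q c Z cls n p) (Sum.inr q) (rhp Q q p ρ)) (g p)) y
        * hq Q q p (HA Q c Z cls g n q ρ) (leafOf (tt Q c Z cls j p k) y) y := by
  funext y
  unfold priA hq
  congr 1
  by_cases h : leafOf (tt Q c Z cls j p k) y = Sum.inr q
  · rw [if_pos h, if_pos h]
    obtain ⟨z, rfl⟩ : ∃ z, y = Q.rl q p z := ⟨(Q.rl q p).symm y, by simp⟩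
    rw [LinearIsometryEquiv.symm_apply_apply]
    change rotA (FT.mp (Q.rl q p) (sft Q c Z cls n q)) _ _ _ = _
    rw [rotA_mp]
    unfold HA
    have e1 : (fun (i : Unit) (y : E) => kst Unit (g p) i (Q.rl q p y)) = kst Unit (g q) := by
      funext i y
      exact (hc.eq hpq y).symm
    have e2 : (fun (i : Unit) (y : E) => kst Unit (fun z => g p (rhp Q q p ρ z)) i (Q.rl q p y))
        = kst Unit fun z => g q (ρ z) := by
      funext i y
      change g p (rhp Q q p ρ (Q.rl q p y)) = g q (ρ y)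
      rw [rhp_apply, hc.eq hpq]
    rw [e1, e2]
  · rw [if_neg h, if_neg h]

lemma priB_eq (hc : Cmp Q p g) (hpq : p <:+ q) (k : ℕ) :
    priB (tt Q c Z cls j p k) (SS Q c Z cls n p) (Sum.inr q) (rhp Q q p ρ) (g p)
      = fun y => slm (tt Q c Z cls j p k) (pg (SS Q c Z cls n p) (g p))
          (pg (rotS (SS Q c Z cls n p) (Sum.inr q) (rhp Q q p ρ)) (g p)) y
        * hq Q q p (HB Q c Z cls g n q ρ) (leafOf (tt Q c Z cls j p k) y) y := by
  funext y
  unfold priB hq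
  congr 1
  by_cases h : leafOf (tt Q c Z cls j p k) y = Sum.inr q
  · rw [if_pos h, if_pos h]
    obtain ⟨z, rfl⟩ : ∃ z, y = Q.rl q p z := ⟨(Q.rl q p).symm y, by simp⟩
    rw [LinearIsometryEquiv.symm_apply_apply]
    unfold rotB HB
    change ENNReal.ofReal |exc (FT.mp (Q.rl q p) (sft Q c Z cls n q)) _ _| * _ = _
    rw [exc_mp]
    have e1 : (fun (i : Unit) (y : E) => kst Unit (g p) i (Q.rl q p y)) = kst Unit (g q) := by
      funext i y
      exact (hc.eq hpq y).symm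
    rw [e1, LinearIsometryEquiv.symm_symm, rhp_apply, ← map_sub, LinearIsometryEquiv.norm_map]
  · rw [if_neg h, if_neg h]

lemma measurable_HA (hQ : Q.Ok) (hL : LabF Q c0 c Z cls) (hc : c0 ≤ 1 / 16)
    (hg : ∀ r, UI (g r)) : Measurable (HA Q c Z cls g n q ρ) :=
  measurable_rotA (good_sft hQ hL n q) hc (kst_UI (hg q)) (kst_UI (UI_comp (hg q) ρ))

lemma measurable_HB (hQ : Q.Ok) (hL : LabF Q c0 c Z cls) (hc : c0 ≤ 1 / 16)
    (hg : ∀ r, UI (g r)) : Measurable (HB Q c Z cls g n q ρ) := by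
  have h1 := (exc_bd (g := kst Unit (g q)) (good_sft hQ hL n q) hc
    (kst_UI (hg q))).meas.abs.ennreal_ofReal
  have h2 : Measurable fun x : E => ENNReal.ofReal ‖ρ x - x‖ := by
    have : Continuous fun x : E => ‖ρ x - x‖ := (ρ.continuous.sub continuous_id).norm
    exact this.measurable.ennreal_ofReal
  exact h1.mul h2

/-- the `L¹` charge with one vector -/
lemma fib_HA_le (hQ : Q.Ok) (hL : LabF Q c0 c Z cls) (hc0 : 0 ≤ c0) (hc1 : c0 ≤ 1 / 16)
    (hg : ∀ r, UI (g r)) (hg' : ∀ r, UI (g' r)) (hcg : Cmp Q q g) (hcg' : Cmp Q q g')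
    (he : ∀ y, g' q y = g q (ρ y)) {W : Submodule ℝ E} (hW : W ≤ Q.W q) (x : E) :
    fib W (HA Q c Z cls g n q ρ) x ≤ fib W (rsv Q c Z cls g g' n q) x := by
  have e : (fun z => g q (ρ z)) = g' q := funext fun y => (he y).symm
  unfold HA
  rw [e]
  refine (fib_rotA_le_rs hc0 hc1 (kst_UI (hg q)) (kst_UI (hg' q)) (good_sft hQ hL n q)
    ((above_sft n q).mono hW) x).trans ?_
  rw [fib_rs_eq hQ hL hg hg' hcg hcg' n q (List.suffix_refl q) W hW x]

/-- **inner rotation at a label**: prices with one vector -/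
theorem fib_pri_le (hQ : Q.Ok) (hL : LabF Q c0 c Z cls) (hc1 : c0 ≤ 1 / 16) (hq0 : q ≠ [])
    (hcg : Cmp Q p g) (hg : ∀ r, UI (g r)) (hρ : Fixes ρ (Q.W q.tail))
    (hom : ∀ r, MeasurableSet (om r))
    (homI : ∀ r, ∀ x, ∀ w ∈ (Q.W r)ᗮ, (x + w ∈ om r ↔ x ∈ om r))
    (hV : Vis Q (rotP Q q ρ) c Z om cls g p q n) (hlen : q.length = p.length + 1 + j)
    {H H' : E → ℝ≥0∞} (hH : Measurable H) (hH' : Measurable H')
    (hHH : ∀ W ≤ Q.W q, ∀ x, fib W H x ≤ fib W H' x) (k : ℕ) (x : E) :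
    fib (Q.W p) (fun y => slm (tt Q c Z cls j p k) (pg (SS Q c Z cls n p) (g p))
          (pg (rotS (SS Q c Z cls n p) (Sum.inr q) (rhp Q q p ρ)) (g p)) y
        * hq Q q p H (leafOf (tt Q c Z cls j p k) y) y) x
      ≤ fib (Q.W p) (upv Q om cls q H' j (k :: p)) x := by
  have hcr := hcg k p (List.suffix_refl p)
  unfold tt
  rw [← fib_fix (hQ.fix k p) _ x]
  have a3 : (fun z => slm (FT.mp (Q.P (k :: p)) (stop Q c Z cls j (k :: p)))
        (pg (SS Q c Z cls n p) (g p))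
        (pg (rotS (SS Q c Z cls n p) (Sum.inr q) (rhp Q q p ρ)) (g p)) (Q.P (k :: p) z)
      * hq Q q p H (leafOf (FT.mp (Q.P (k :: p)) (stop Q c Z cls j (k :: p)))
        (Q.P (k :: p) z)) (Q.P (k :: p) z))
      = fun z => slm (stop Q c Z cls j (k :: p)) (pg (SS Q c Z cls n (k :: p)) (g (k :: p)))
          (pg (rotS (SS Q c Z cls n (k :: p)) (Sum.inr q) (rhp Q q (k :: p) ρ))
            (g (k :: p))) z
        * hq Q q (k :: p) H (leafOf (stop Q c Z cls j (k :: p)) z) z := by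
    funext z
    rw [slm_mp, leafOf_mp, hq_mp, ← pg_mp k p hcr, ← pg_rotS_mp k p hcr]
  rw [a3]
  exact fib_up_le hQ hL hc1 hq0 hcg hg hρ hom homI hV hH hH' hHH j (k :: p)
    (List.suffix_cons k p) (by simp only [List.length_cons]; omega) (Q.W p) (hQ.le k p) x

/-- **inner rotation, soft change in the fibre, prices with one vector** -/
theorem soft_ch_vec (hQ : Q.Ok) (hL : LabF Q c0 c Z cls) (hc0 : 0 ≤ c0) (hc1 : c0 ≤ 1 / 16)
    (hpq : p <:+ q)
    (hcg : Cmp Q p g) (hcg' : Cmp Q q g') (he : ∀ y, g' q y = g q (ρ y))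
    (hg : ∀ r, UI (g r)) (hg' : ∀ r, UI (g' r)) (hρ : Fixes ρ (Q.W q.tail))
    (hom : ∀ r, MeasurableSet (om r))
    (homI : ∀ r, ∀ x, ∀ w ∈ (Q.W r)ᗮ, (x + w ∈ om r ↔ x ∈ om r))
    (hV : Vis Q (rotP Q q ρ) c Z om cls g p q n) (hlen : q.length = p.length + 1 + j)
    (hHid : HidR (sft Q c Z cls n q) (g q) ρ) (hl : ¬ Q.lf p) (k : ℕ) (x : E) {a b : ℝ}
    (ha : 0 ≤ a) (hb : 0 ≤ b)
    (hA : fib (Q.W p) (upv Q om cls q (rsv Q c Z cls g g' n q) j (k :: p)) x ≤ ENNReal.ofReal a)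
    (hB : fib (Q.W p) (upv Q om cls q (HB Q c Z cls g n q ρ) j (k :: p)) x ≤ ENNReal.ofReal b) :
    Soft (fun z : (Q.W p)ᗮ => fl (ch Q c Z cls (j + n) p k) (kst Unit (g p)) (H852.sl (Q.W p) x z))
      (fun z : (Q.W p)ᗮ => fl (ch (rotP Q q ρ) c Z cls (j + n) p k) (kst Unit (g p))
        (H852.sl (Q.W p) x z)) a b := by
  have hq0 : q ≠ [] := by
    rintro rfl
    simp at hlen
    omega
  have hcq := hcg.mono hpq
  refine soft_ch hQ hL hc1 (hg p) hq0 hlen hρ ?_ hl x ha hb ?_ ?_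
  · have e : (fun y => g p (Q.rl q p y)) = g q := funext fun y => (hcg.eq hpq y).symm
    rw [e]
    exact hHid
  · rw [priA_eq hcg hpq k]
    refine (fib_pri_le hQ hL hc1 hq0 hcg hg hρ hom homI hV hlen (measurable_HA hQ hL hc1 hg)
      (measurable_rsv hL hg hg' n q) (fun W hW x => ?_) k x).trans hA
    exact fib_HA_le hQ hL hc0 hc1 hg hg' hcq hcg' he hW x
  · rw [priB_eq hcg hpq k]
    exact (fib_pri_le hQ hL hc1 hq0 hcg hg hρ hom homI hV hlen (measurable_HB hQ hL hc1 hg)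
      (measurable_HB hQ hL hc1 hg) (fun W hW x => le_rfl) k x).trans hB

end obs

end Vale.Agent.P262.H174
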