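import Vale.Agent.P262.H174.RI3
import Vale.Agent.P262.M2.Fld
import Vale.Agent.P262.M2.Nodes
import Vale.Agent.P262.M2.Blocks
import Vale.Agent.P262.H654.CF2s
import Vale.Agent.P262.H44.L2Lbl

/-!
# P262, milestone 2, ROT-IN part 4: inner rotations on `M2.Sys`

`Gin p m x` : price of the rotation `m` at the label `x` of a node `p` above the rotating node;
`Hm m y` : displaced hidden mass, in the coordinates of the rotating node.
-/

set_option linter.all false

open MeasureTheory ProbabilityTheory Set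
open scoped ENNReal RealInnerProductSpace Classical

namespace Vale.Agent.P262.M2.Sys

open Vale.Agent.P262.H118 (Iv st en ON rotE rotE_apply rotL_of_perp tau wd wrd Mg Piece K2 El2 paths)
open Vale.Agent.P262.H395 (mix fib Inv measurable_fib fib_mono fib_const fib_add fib_mul
  fib_eq_self inv_fib fib_tower Fixes)
open Vale.Agent.P262.H847 (UI)
open Vale.Agent.P262.H654 (tr phi sg Bd InvR fr invR_fr fr_mono fr_const ofReal_fr)
open Vale.Agent.P262.H713 Vale.Agent.P262.H713.FT
open Vale.Agent.P262.H174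

variable {E : Type*} [NormedAddCommGroup E] [InnerProductSpace ℝ E] [FiniteDimensional ℝ E]
  [MeasurableSpace E] [BorelSpace E] (S : Sys E)

/-! ### definitions -/

/-- the field of the node `q` as seen by its parent: killed labels count `1`, the others are cut
off -/
noncomputable def fno (q : List ℕ) (m : ℕ) (y : E) : ℝ :=
  if y ∈ S.Z q m then 1 else phi (S.cf m q y) (S.Fr q m y) * S.fld q m y

/-- the rotation of the move `m` in the coordinates of the rotating node -/
noncomputable def rhoU (m : ℕ) : E ≃ₗᵢ[ℝ] E :=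
  (S.mv.U (S.mv.jj m) (m + 1)).trans (S.mv.U (S.mv.jj m) m).symm

/-- displaced hidden mass, in the coordinates of the rotating node -/
noncomputable def Hm (m : ℕ) (y : E) : ℝ≥0∞ :=
  ENNReal.ofReal |S.pf (S.mv.jj m) m y - S.fno (S.mv.jj m) m y|
    * ENNReal.ofReal ‖S.rhoU m y - y‖

/-- constant of the ratio -/
noncomputable def CR : ℝ := max (S.M + 1) (S.b0 ^ (-S.th))

/-- not killed and not a leaf at the levels `< i` below `q` -/
def alq (q : List ℕ) (m i : ℕ) : Set E :=
  {y | ∀ k, k < i → y ∉ S.Z (S.nb q m y k) m ∧ ¬ S.Leaf (S.nb q m y k) m}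

/-- weighted changes of the bodies below the node `q` -/
noncomputable def RX (q : List ℕ) (m : ℕ) (y : E) : ℝ≥0∞ :=
  ∑ i ∈ Finset.range (Module.finrank ℝ E), 17 ^ i *
    (iw (S.alq q m i) y * (ENNReal.ofReal (48 * S.CR) * S.xd (S.nb q m y i) m y))

/-- number of levels from `p` down to the rotating node -/
noncomputable def gp (p : List ℕ) (m : ℕ) : ℕ := (S.mv.jj m).length - p.length

/-- the path of `y` goes from `p` to the rotating node, the levels between are counted -/
def cnt (p : List ℕ) (m : ℕ) : Set E :=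
  {y | S.nb p m y (S.gp p m) = S.mv.jj m} ∩ S.OMb p m (S.gp p m - 1)

/-- **price of an inner rotation at a label** -/
noncomputable def Gin (p : List ℕ) (m : ℕ) (x : E) : ℝ≥0∞ :=
  fib (S.W p m) (fun y => iw (S.cnt p m) y * (17 ^ S.gp p m * S.RX (S.mv.jj m) m y)) x +
    fib (S.W p m) (fun y => iw (S.cnt p m) y * (17 ^ S.gp p m * S.Hm m y)) x

/-! ### the states of a rotation -/

section rot

variable {S} {m : ℕ}

lemma rot_facts (hr : S.mv.IsRot m) : S.mv.jj m ≠ [] ∧
    S.mv.Q (m + 1) = Function.update (S.mv.Q m) (S.mv.jj m)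
      ((S.rhoU m).trans (S.mv.Q m (S.mv.jj m))) ∧
    Fixes (S.rhoU m) (S.W (S.mv.jj m).tail m) ∧
    S.mv.U (S.mv.jj m) (m + 1) = (S.rhoU m).trans (S.mv.U (S.mv.jj m) m) := by
  obtain ⟨h1, h2, h3, h4, h5⟩ := S.mv.rot (S.mv.tm m) m hr.1 hr.2
  obtain ⟨θ, b, hON, g1, g2, g3, g4, g5, g6⟩ := h1
  set q := S.mv.jj m with hq
  obtain ⟨c, p, hcp⟩ := List.exists_cons_of_ne_nil h4
  have hnp : ¬ q <:+ p := by rw [hcp]; exact not_cons_suffix c p
  have hU : S.mv.U q (m + 1) = (rotE hON (S.mv.ph m)).trans (S.mv.U q m) := by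
    rw [hcp, S.mv.U_cons, S.mv.U_cons, S.mv.U_rot_not hr.1 hr.2 hnp, ← hcp, g6,
      Function.update_self]
    ext x; rfl
  have hrho : S.rhoU m = rotE hON (S.mv.ph m) := by
    unfold rhoU
    rw [← hq, hU]
    ext x
    simp
  refine ⟨h4, ?_, ?_, ?_⟩
  · rw [hrho]; exact g6
  · rw [hrho]
    intro x hx
    rw [rotE_apply]
    refine rotL_of_perp _ ((Submodule.mem_orthogonal' _ _).1 g2 x hx)
      ((Submodule.mem_orthogonal' _ _).1 g3 x ?_)
    rw [hcp] at hx ⊢
    exact S.K.W_le c p _ hx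
  · rw [hrho]; exact hU

lemma pa_succ_rot (hr : S.mv.IsRot m) : S.pa (m + 1) = rotP (S.pa m) (S.mv.jj m) (S.rhoU m) := by
  obtain ⟨-, h2, -, -⟩ := rot_facts hr
  have e1 : (fun p => S.W p (m + 1)) = fun p => S.W p m :=
    funext fun p => S.W_succ_active (Or.inr hr) p
  have e2 : (fun p => S.mv.Q (m + 1) p) = Function.update (fun p => S.mv.Q m p) (S.mv.jj m)
      ((S.rhoU m).trans (S.mv.Q m (S.mv.jj m))) := h2
  have e3 : (fun p => S.Leaf p (m + 1)) = fun p => S.Leaf p m := by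
    funext p
    unfold Leaf
    rw [S.W_succ_active (Or.inr hr) p]
  unfold pa rotP
  rw [e1, e2, e3]

lemma A_succ_act (h : S.mv.IsStar m ∨ S.mv.IsRot m) (hm : S.mv.tm m < S.T) (p : List ℕ) :
    S.A p (m + 1) = S.A p m :=
  (Same.active (S.K.zero_mem_nw p) h hm).A subset_rfl hm

lemma Z_succ_act (h : S.mv.IsStar m ∨ S.mv.IsRot m) (hm : S.mv.tm m < S.T) (p : List ℕ) :
    S.Z p (m + 1) = S.Z p m :=
  (Same.active (S.K.zero_mem_nw p) h hm).Z subset_rfl hm

lemma kl_succ_act (h : S.mv.IsStar m ∨ S.mv.IsRot m) (hm : S.mv.tm m < S.T) (p : List ℕ) :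
    S.kl p (m + 1) = S.kl p m :=
  funext fun x => kl_same (Same.active (zero_mem_BB p m x) h hm) hm

lemma cf_succ_act (h : S.mv.IsStar m ∨ S.mv.IsRot m) (hm : S.mv.tm m < S.T) :
    S.cf (m + 1) = S.cf m := by
  funext p x
  unfold cf
  rw [A_succ_act h hm]

lemma tCn_succ_rot (hr : S.mv.IsRot m) (hm : S.mv.tm m < S.T) (n : ℕ) (p : List ℕ) (k : ℕ) :
    S.tCn n p (m + 1) k = ch (rotP (S.pa m) (S.mv.jj m) (S.rhoU m)) (S.cf m) (fun p => S.Z p m)
      (fun p => S.kl p m) n p k := by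
  unfold tCn
  rw [pa_succ_rot hr, cf_succ_act (Or.inr hr) hm]
  have e1 : (fun p => S.Z p (m + 1)) = fun p => S.Z p m := funext fun p => Z_succ_act (Or.inr hr) hm p
  have e2 : (fun p => S.kl p (m + 1)) = fun p => S.kl p m :=
    funext fun p => kl_succ_act (Or.inr hr) hm p
  rw [e1, e2]

lemma pf_succ_not (hr : S.mv.IsRot m) {p : List ℕ} (hp : ¬ S.mv.jj m <:+ p) :
    S.pf p (m + 1) = S.pf p m := by
  unfold pf
  rw [S.X_rot_not hr hp]

lemma mem_X_jj (hr : S.mv.IsRot m) (y : E) :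
    y ∈ S.X (S.mv.jj m) (m + 1) ↔ S.rhoU m y ∈ S.X (S.mv.jj m) m := by
  obtain ⟨-, -, -, h4⟩ := rot_facts hr
  have h5 : S.mv.Kb S.Kt (m + 1) = S.mv.Kb S.Kt m := by
    rw [S.mv.Kb_after S.Kt (by have := hr.1; omega) hr.2, S.mv.Kb_after S.Kt hr.1
      (by have := hr.2; omega)]
  unfold X
  rw [S.mv.mem_Bd, S.mv.mem_Bd, h5, h4]
  rfl

lemma pf_jj (hr : S.mv.IsRot m) (y : E) :
    S.pf (S.mv.jj m) (m + 1) y = S.pf (S.mv.jj m) m (S.rhoU m y) := by
  by_cases h : y ∈ S.X (S.mv.jj m) (m + 1)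
  · rw [S.pf_mem h, S.pf_mem ((mem_X_jj hr y).1 h)]
  · rw [S.pf_notMem h, S.pf_notMem fun h' => h ((mem_X_jj hr y).2 h')]

lemma cmp_pf (m : ℕ) (p : List ℕ) : Cmp (S.pa m) p fun r => S.pf r m :=
  fun k r _ y => S.pf_cons k r m y

lemma cmp_pf_succ (hr : S.mv.IsRot m) :
    Cmp (S.pa m) (S.mv.jj m) fun r => S.pf r (m + 1) := by
  intro k r hqr y
  change S.pf (k :: r) (m + 1) y = S.pf r (m + 1) (S.mv.Q m (k :: r) y)
  obtain ⟨-, h2, -, -⟩ := rot_facts hr
  have h3 : S.mv.Q (m + 1) (k :: r) = S.mv.Q m (k :: r) := by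
    rw [h2, Function.update_of_ne]
    intro h0
    have := hqr.length_le
    rw [← h0] at this
    simp at this
  rw [S.pf_cons, h3]

/-! ### the terms of the charge -/

lemma dv_eq (hact : S.mv.IsStar m ∨ S.mv.IsRot m) (r : List ℕ) (y : E) :
    dv (S.pa m) (fun r => S.pf r m) (fun r => S.pf r (m + 1)) r y = S.Dl r m y := by
  rw [S.Dl_active hact]
  unfold dv
  change fib (S.W r m) _ y = _
  congr 1
  funext z
  change ENNReal.ofReal |S.pf r (m + 1) z - S.pf r m z| = _
  by_cases h1 : z ∈ S.X r m <;> by_cases h2 : z ∈ S.X r (m + 1)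
  · rw [S.pf_mem h1, S.pf_mem h2, indicator_of_notMem]
    · simp
    · rw [Set.mem_symmDiff]; tauto
  · rw [S.pf_mem h1, S.pf_notMem h2, indicator_of_mem]
    · simp
    · rw [Set.mem_symmDiff]; tauto
  · rw [S.pf_notMem h1, S.pf_mem h2, indicator_of_mem]
    · simp
    · rw [Set.mem_symmDiff]; tauto
  · rw [S.pf_notMem h1, S.pf_notMem h2, indicator_of_notMem]
    · simp
    · rw [Set.mem_symmDiff]; tauto

lemma ofReal_fr_max (hact : S.mv.IsStar m ∨ S.mv.IsRot m) (r : List ℕ) (y : E) :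
    ENNReal.ofReal (fr (S.W r m) (fun z => max (S.pf r m z) (S.pf r (m + 1) z)) y)
      = S.Dc r m y := by
  have hu := H654.UI.max (S.pf_UI r m) (S.pf_UI r (m + 1))
  rw [S.Dc_active hact, ofReal_fr (Bd.of_UI hu) hu.nonneg]
  congr 1
  funext z
  by_cases h1 : z ∈ S.X r m <;> by_cases h2 : z ∈ S.X r (m + 1)
  · rw [S.pf_mem h1, S.pf_mem h2, indicator_of_notMem]
    · simp
    · simp [h1, h2]
  · rw [S.pf_mem h1, S.pf_notMem h2, indicator_of_mem]
    · simp
    · simp [h2]
  · rw [S.pf_notMem h1, S.pf_mem h2, indicator_of_mem]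
    · simp
    · simp [h1]
  · rw [S.pf_notMem h1, S.pf_notMem h2, indicator_of_mem]
    · simp
    · simp [h1]

/-- the ratio `A / max (A, Dc)` -/
noncomputable def ra (S : Sys E) (r : List ℕ) (m : ℕ) (y : E) : ℝ≥0∞ :=
  S.A r m y / max (S.A r m y) (S.Dc r m y)

lemma ra_le_one (r : List ℕ) (m : ℕ) (y : E) : S.ra r m y ≤ 1 := by
  unfold ra
  refine ENNReal.div_le_of_le_mul ?_
  rw [one_mul]
  exact le_max_left _ _

lemma xd_eq (r : List ℕ) (m : ℕ) (y : E) : S.xd r m y = S.ra r m y ^ S.th * S.Dl r m y := rfl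

lemma rv_le (hact : S.mv.IsStar m ∨ S.mv.IsRot m) (r : List ℕ) (y : E) :
    rv (S.pa m) (S.cf m) (fun r => S.pf r m) (fun r => S.pf r (m + 1)) r y
      ≤ ENNReal.ofReal (S.M + 1) * S.ra r m y ^ S.th := by
  have hM := S.hM
  have h1 : rv (S.pa m) (S.cf m) (fun r => S.pf r m) (fun r => S.pf r (m + 1)) r y
      = (ENNReal.ofReal (S.M + 1) * S.A r m y)
        / max (S.Dc r m y) (ENNReal.ofReal (S.M + 1) * S.A r m y) := by
    unfold rv
    rw [S.ofReal_cf]
    congr 1
    change ENNReal.ofReal (max (fr (S.W r m) (fun z => max (S.pf r m z) (S.pf r (m + 1) z)) y)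
      (S.cf m r y)) = _
    rw [← ofReal_fr_max hact r y, ← S.ofReal_cf]
    exact ENNReal.ofReal_max _ _
  have hone : (1 : ℝ≥0∞) ≤ ENNReal.ofReal (S.M + 1) := by
    rw [← ENNReal.ofReal_one]
    exact ENNReal.ofReal_le_ofReal (by linarith)
  have h2 : max (S.A r m y) (S.Dc r m y)
      ≤ max (S.Dc r m y) (ENNReal.ofReal (S.M + 1) * S.A r m y) := by
    refine max_le ?_ (le_max_left _ _)
    refine le_trans ?_ (le_max_right _ _)
    calc S.A r m y = 1 * S.A r m y := (one_mul _).symm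
      _ ≤ _ := by gcongr
  have h3 : S.ra r m y ≤ S.ra r m y ^ S.th := by
    have := ENNReal.rpow_le_rpow_of_exponent_ge (ra_le_one (S := S) r m y) S.hth1.le
    rwa [ENNReal.rpow_one] at this
  rw [h1]
  calc _ ≤ (ENNReal.ofReal (S.M + 1) * S.A r m y) / max (S.A r m y) (S.Dc r m y) :=
        ENNReal.div_le_div_left h2 _
    _ = ENNReal.ofReal (S.M + 1) * S.ra r m y := by unfold ra; rw [mul_div_assoc]
    _ ≤ _ := by gcongr

lemma b0_lt_one : S.b0 < 1 := by
  have h1 := S.hMb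
  have h2 := S.hM
  have h3 := S.b0_pos_f
  nlinarith

lemma CR_ge_M : S.M + 1 ≤ S.CR := le_max_left _ _

lemma CR_ge_one : 1 ≤ S.CR := by
  have := S.hM
  exact le_trans (by linarith) (CR_ge_M (S := S))

lemma ra_ge {r : List ℕ} {y : E} (h : ENNReal.ofReal S.b0 < S.A r m y) :
    ENNReal.ofReal S.b0 ≤ S.ra r m y := by
  have hb := b0_lt_one (S := S)
  have hA0 : S.A r m y ≠ 0 := (S.A_pos r m y).ne'
  have hAt := S.A_ne_top r m y
  unfold ra
  rcases le_total (S.A r m y) 1 with h1 | h1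
  · have h2 : max (S.A r m y) (S.Dc r m y) ≤ 1 := max_le h1 (S.Dc_le_one r m y)
    calc ENNReal.ofReal S.b0 ≤ S.A r m y := h.le
      _ = S.A r m y / 1 := by rw [div_one]
      _ ≤ _ := ENNReal.div_le_div_left h2 _
  · have h2 : max (S.A r m y) (S.Dc r m y) = S.A r m y :=
      max_eq_left ((S.Dc_le_one r m y).trans h1)
    rw [h2, ENNReal.div_self hA0 hAt, ← ENNReal.ofReal_one]
    exact ENNReal.ofReal_le_ofReal hb.le

/-- killed labels -/
lemma Dl_le_xd {r : List ℕ} {y : E} (h : ENNReal.ofReal S.b0 < S.A r m y) :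
    S.Dl r m y ≤ ENNReal.ofReal S.CR * S.xd r m y := by
  have hb := S.b0_pos_f
  have hth := S.hth
  have h1 : (1 : ℝ≥0∞) ≤ ENNReal.ofReal S.CR * S.ra r m y ^ S.th := by
    have h2 : ENNReal.ofReal (S.b0 ^ (-S.th)) * ENNReal.ofReal (S.b0 ^ S.th) = 1 := by
      rw [← ENNReal.ofReal_mul (by positivity), ← Real.rpow_add hb, neg_add_cancel,
        Real.rpow_zero, ENNReal.ofReal_one]
    rw [← h2]
    refine mul_le_mul' (ENNReal.ofReal_le_ofReal (le_max_right _ _)) ?_
    rw [← ENNReal.ofReal_rpow_of_pos hb]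
    exact ENNReal.rpow_le_rpow (ra_ge h) hth.le
  rw [xd_eq, ← mul_assoc]
  calc S.Dl r m y = 1 * S.Dl r m y := (one_mul _).symm
    _ ≤ _ := by gcongr

/-- alive labels -/
lemma rv_dv_le (hact : S.mv.IsStar m ∨ S.mv.IsRot m) (r : List ℕ) (y : E) :
    48 * (rv (S.pa m) (S.cf m) (fun r => S.pf r m) (fun r => S.pf r (m + 1)) r y *
      dv (S.pa m) (fun r => S.pf r m) (fun r => S.pf r (m + 1)) r y)
      ≤ ENNReal.ofReal (48 * S.CR) * S.xd r m y := by
  rw [dv_eq hact, xd_eq, ENNReal.ofReal_mul (by norm_num)]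
  have e : ENNReal.ofReal 48 = 48 := by norm_num
  rw [e]
  calc _ ≤ 48 * ((ENNReal.ofReal (S.M + 1) * S.ra r m y ^ S.th) * S.Dl r m y) := by
        gcongr
        exact rv_le hact r y
    _ ≤ 48 * ((ENNReal.ofReal S.CR * S.ra r m y ^ S.th) * S.Dl r m y) := by
        gcongr
        exact CR_ge_M
    _ = _ := by ring

lemma alq_zero (q : List ℕ) (m : ℕ) : S.alq q m 0 = univ := by
  ext y
  simp [alq]

lemma mem_alq_succ {q : List ℕ} {i : ℕ} {y : E} : y ∈ S.alq q m (i + 1) ↔
    (y ∉ S.Z q m ∧ ¬ S.Leaf q m) ∧ y ∈ S.alq (S.kl q m y :: q) m i := by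
  unfold alq
  simp only [mem_setOf_eq]
  constructor
  · intro h
    refine ⟨h 0 (by omega), fun k hk => ?_⟩
    have := h (k + 1) (by omega)
    rwa [nb_succ'] at this
  · rintro ⟨h1, h2⟩ k hk
    cases k with
    | zero => exact h1
    | succ k =>
      have := h2 k (by omega)
      rw [nb_succ']
      exact this

lemma iw_mem {s : Set E} {y : E} (h : y ∈ s) : iw s y = 1 := indicator_of_mem h _
lemma iw_not {s : Set E} {y : E} (h : y ∉ s) : iw s y = 0 := indicator_of_notMem h _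

/-- **the charge below a node, explicit** -/
theorem rsv_le (hact : S.mv.IsStar m ∨ S.mv.IsRot m) : ∀ (n : ℕ) (r : List ℕ) (y : E)
    (_ : y ∉ S.Z r.tail m),
    rsv (S.pa m) (S.cf m) (fun p => S.Z p m) (fun p => S.kl p m) (fun r => S.pf r m)
        (fun r => S.pf r (m + 1)) n r y
      ≤ ∑ i ∈ Finset.range n, 17 ^ i *
        (iw (S.alq r m i) y * (ENNReal.ofReal (48 * S.CR) * S.xd (S.nb r m y i) m y)) := by
  intro n
  induction n with
  | zero => intro r y _; simp [rsv]
  | succ n ih =>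
    intro r y hy
    rw [Finset.sum_range_succ']
    have h0 : (17 : ℝ≥0∞) ^ 0 * (iw (S.alq r m 0) y *
        (ENNReal.ofReal (48 * S.CR) * S.xd (S.nb r m y 0) m y))
        = ENNReal.ofReal (48 * S.CR) * S.xd r m y := by
      rw [alq_zero, iw_mem (mem_univ y), pow_zero, one_mul, one_mul, nb_zero]
    rw [h0]
    change (if y ∈ S.Z r m then dv (S.pa m) (fun r => S.pf r m) (fun r => S.pf r (m + 1)) r y
      else 48 * (rv (S.pa m) (S.cf m) (fun r => S.pf r m) (fun r => S.pf r (m + 1)) r y *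
        dv (S.pa m) (fun r => S.pf r m) (fun r => S.pf r (m + 1)) r y)
        + 17 * (if S.Leaf r m then 0 else rsv (S.pa m) (S.cf m) (fun p => S.Z p m)
          (fun p => S.kl p m) (fun r => S.pf r m) (fun r => S.pf r (m + 1)) n
            (S.kl r m y :: r) y)) ≤ _
    by_cases hz : y ∈ S.Z r m
    · rw [if_pos hz, dv_eq hact]
      refine le_trans ?_ le_add_self
      have hA : ENNReal.ofReal S.b0 < S.A r m y := by
        cases r with
        | nil => rw [S.Z_nil] at hz; exact absurd hz (by simp)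
        | cons c p =>
          rw [S.Z_cons] at hz
          rcases hz with h | h
          · exact absurd h hy
          · exact h
      refine (Dl_le_xd hA).trans ?_
      gcongr
      have := CR_ge_one (S := S)
      linarith
    · rw [if_neg hz]
      refine (add_le_add (rv_dv_le hact r y) ?_).trans (add_comm _ _).le
      by_cases hl : S.Leaf r m
      · rw [if_pos hl, mul_zero]; exact zero_le
      · rw [if_neg hl]
        have h1 := ih (S.kl r m y :: r) y hz
        calc 17 * rsv (S.pa m) (S.cf m) (fun p => S.Z p m) (fun p => S.kl p m)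
                (fun r => S.pf r m) (fun r => S.pf r (m + 1)) n (S.kl r m y :: r) y
            ≤ 17 * ∑ i ∈ Finset.range n, 17 ^ i * (iw (S.alq (S.kl r m y :: r) m i) y *
              (ENNReal.ofReal (48 * S.CR) * S.xd (S.nb (S.kl r m y :: r) m y i) m y)) := by
              gcongr
          _ = ∑ i ∈ Finset.range n, 17 ^ (i + 1) * (iw (S.alq (S.kl r m y :: r) m i) y *
              (ENNReal.ofReal (48 * S.CR) * S.xd (S.nb (S.kl r m y :: r) m y i) m y)) := by
              rw [Finset.mul_sum]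
              refine Finset.sum_congr rfl fun i _ => ?_
              rw [pow_succ]; ring
          _ = _ := by
              refine Finset.sum_congr rfl fun i _ => ?_
              rw [nb_succ']
              congr 2
              by_cases h2 : y ∈ S.alq (S.kl r m y :: r) m i
              · rw [iw_mem h2, iw_mem (mem_alq_succ.2 ⟨⟨hz, hl⟩, h2⟩)]
              · rw [iw_not h2, iw_not fun h3 => h2 (mem_alq_succ.1 h3).2]

end rot

end Vale.Agent.P262.M2.Sys
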