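import Vale.Agent.P262.H174.RI4

/-!
# P262, milestone 2, ROT-IN part 5: inner rotation at a label as a soft change of the field
-/

set_option linter.all false

open MeasureTheory ProbabilityTheory Set
open scoped ENNReal RealInnerProductSpace Classical

namespace Vale.Agent.P262.M2.Sys

open Vale.Agent.P262.H118 (Iv st en ON rotE rotE_apply rotL_of_perp tau wd wrd Mg Piece K2 El2 paths)
open Vale.Agent.P262.H395 (mix fib Inv measurable_fib fib_mono fib_const fib_add fib_mul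
  fib_eq_self inv_fib fib_tower Fixes)
open Vale.Agent.P262.H847 (UI)
open Vale.Agent.P262.H654 (tr phi sg Bd InvR fr invR_fr fr_mono fr_const ofReal_fr)
open Vale.Agent.P262.H713 Vale.Agent.P262.H713.FT
open Vale.Agent.P262.H174

variable {E : Type*} [NormedAddCommGroup E] [InnerProductSpace ℝ E] [FiniteDimensional ℝ E]
  [MeasurableSpace E] [BorelSpace E] {S : Sys E} {m : ℕ}

/-! ### the throughput above, explicit -/

/-- the path goes from `r` to `q` in `j` steps through counted levels -/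
def thr' (S : Sys E) (q r : List ℕ) (m j : ℕ) : Set E :=
  {y | S.nb r m y j = q ∧ ∀ i < j, y ∈ S.om (S.nb r m y i) m}

theorem upv_le (q : List ℕ) (H : E → ℝ≥0∞) : ∀ (j : ℕ) (r : List ℕ) (y : E),
    upv (S.pa m) (fun r => S.om r m) (fun p => S.kl p m) q H j r y
      ≤ iw (S.thr' q r m j) y * (17 ^ j * H y) := by
  intro j
  induction j with
  | zero =>
    intro r y
    change (if r = q then H y else 0) ≤ _
    by_cases h : r = q
    · rw [if_pos h, iw_mem (show y ∈ S.thr' q r m 0 from ⟨h, fun i hi => absurd hi (by omega)⟩),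
        pow_zero, one_mul, one_mul]
    · rw [if_neg h]; exact zero_le
  | succ j ih =>
    intro r y
    change (if y ∈ S.om r m then 17 * (if S.Leaf r m then 0 else
      upv (S.pa m) (fun r => S.om r m) (fun p => S.kl p m) q H j (S.kl r m y :: r) y) else 0) ≤ _
    by_cases hy : y ∈ S.om r m
    · rw [if_pos hy]
      by_cases hl : S.Leaf r m
      · rw [if_pos hl, mul_zero]; exact zero_le
      · rw [if_neg hl]
        calc _ ≤ 17 * (iw (S.thr' q (S.kl r m y :: r) m j) y * (17 ^ j * H y)) := by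
              gcongr
              exact ih _ y
          _ ≤ 17 * (iw (S.thr' q r m (j + 1)) y * (17 ^ j * H y)) := by
              gcongr 17 * (?_ * _)
              by_cases h : y ∈ S.thr' q (S.kl r m y :: r) m j
              · rw [iw_mem h, iw_mem]
                refine ⟨?_, fun i hi => ?_⟩
                · rw [nb_succ']; exact h.1
                · cases i with
                  | zero => exact hy
                  | succ i =>
                    rw [nb_succ']
                    exact h.2 i (by omega)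
              · rw [iw_not h]; exact zero_le
          _ = _ := by rw [pow_succ]; ring
    · rw [if_neg hy]; exact zero_le

/-- rotating nodes are not children of leaves -/
lemma not_leaf_rot (hr : S.mv.IsRot m) {p : List ℕ} (hp : p <:+ (S.mv.jj m).tail) :
    ¬ S.Leaf p m := by
  obtain ⟨h1, h2, h3, h4, h5⟩ := S.mv.rot (S.mv.tm m) m hr.1 hr.2
  obtain ⟨θ, b, hON, g1, g2, g3, g4, g5, g6⟩ := h1
  obtain ⟨c, p0, hcp⟩ := List.exists_cons_of_ne_nil h4
  rw [hcp, List.tail_cons] at hp g2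
  have i1 : θ ∈ (S.W p m)ᗮ := Submodule.orthogonal_le (S.W_mono hp m) g2
  have i2 : b ∈ (S.W p m)ᗮ := by
    refine Submodule.orthogonal_le (S.W_mono (hp.trans (List.suffix_cons c p0)) m) ?_
    rw [hcp] at g3
    exact g3
  intro hl
  unfold Leaf at hl
  obtain ⟨v, hv⟩ := (finrank_le_one_iff (K := ℝ) (V := ↥(S.W p m)ᗮ)).1 hl
  obtain ⟨a, ha⟩ := hv ⟨θ, i1⟩
  obtain ⟨a', ha'⟩ := hv ⟨b, i2⟩
  have e1 : a • (v : E) = θ := congrArg Subtype.val ha
  have e2 : a' • (v : E) = b := congrArg Subtype.val ha'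
  have n1 : ‖θ‖ = 1 := hON.hp
  have n2 : ‖b‖ = 1 := hON.hq
  have n3 : ⟪θ, b⟫ = 0 := hON.hpq
  rw [← e1, ← e2, real_inner_smul_left, real_inner_smul_right, real_inner_self_eq_norm_sq] at n3
  rw [← e1, norm_smul] at n1
  rw [← e2, norm_smul] at n2
  have m1 : ‖a‖ ≠ 0 := fun h => by rw [h, zero_mul] at n1; exact zero_ne_one n1
  have m2 : ‖a'‖ ≠ 0 := fun h => by rw [h, zero_mul] at n2; exact zero_ne_one n2
  have m3 : ‖(v : E)‖ ≠ 0 := fun h => by rw [h, mul_zero] at n1; exact zero_ne_one n1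
  have m4 : a ≠ 0 := norm_ne_zero_iff.1 m1
  have m5 : a' ≠ 0 := norm_ne_zero_iff.1 m2
  have : a * (a' * ‖(v : E)‖ ^ 2) ≠ 0 := by positivity
  exact this n3

/-! ### the masses of the field -/

lemma FM_eq (hm : m ≤ S.mT) {N : ℕ} {r : List ℕ}
    (h1 : Module.finrank ℝ E ≤ r.length + N + 1) (h2 : N ≤ Module.finrank ℝ E) (y : E) :
    FM (S.pa m) (S.cf m) (fun p => S.Z p m) (fun p => S.kl p m) (fun r => S.pf r m) N r y
      = S.Fr r m y := by
  unfold FM Fr
  change fr (S.W r m) (fun z => fl (S.tCn N r m (S.kl r m z)) (kst Unit (S.pf r m)) z) y = _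
  congr 1
  funext z
  rw [S.tCn_eq hm h1 h2]
  rfl

lemma FM_succ_eq (hm : m < S.mT) (hr : S.mv.IsRot m) {N : ℕ} {r : List ℕ}
    (hnr : ¬ S.mv.jj m <:+ r)
    (h1 : Module.finrank ℝ E ≤ r.length + N + 1) (h2 : N ≤ Module.finrank ℝ E) (y : E) :
    FM (rotP (S.pa m) (S.mv.jj m) (S.rhoU m)) (S.cf m) (fun p => S.Z p m) (fun p => S.kl p m)
      (fun r => S.pf r m) N r y = S.Fr r (m + 1) y := by
  have hm1 : S.mv.tm m < S.T := S.tm_lt_f hm.le
  unfold FM Fr
  change fr (S.W r m) (fun z => fl (ch (rotP (S.pa m) (S.mv.jj m) (S.rhoU m)) (S.cf m)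
    (fun p => S.Z p m) (fun p => S.kl p m) N r (S.kl r m z)) (kst Unit (S.pf r m)) z) y = _
  rw [S.W_succ_active (Or.inr hr) r]
  congr 1
  funext z
  rw [← tCn_succ_rot hr hm1, S.tCn_eq (by omega) h1 h2]
  unfold fld
  rw [kl_succ_act (Or.inr hr) hm1, pf_succ_not hr hnr]
  rfl

/-- **visible implies counted** -/
theorem vis_rot (hm : m < S.mT) (hr : S.mv.IsRot m)
    (hcl : ∀ r (m' : ℕ), (m' = m ∨ m' = m + 1) → ∀ y, y ∉ S.Z r m' →
      S.Fr r m' y ≤ (S.De r m' y).toReal + (S.A r m' y).toReal)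
    {p : List ℕ} {n : ℕ} (hn : (S.mv.jj m).length - p.length - 1 + n = Module.finrank ℝ E) :
    Vis (S.pa m) (rotP (S.pa m) (S.mv.jj m) (S.rhoU m)) (S.cf m) (fun p => S.Z p m)
      (fun r => S.om r m) (fun p => S.kl p m) (fun r => S.pf r m) p (S.mv.jj m) n := by
  intro j r hpr hlen y hy hv
  have hm1 : S.mv.tm m < S.T := S.tm_lt_f hm.le
  have hpl := hpr.length_le
  have hnr : ¬ S.mv.jj m <:+ r := not_suffix_of_length (by omega)
  rw [FM_eq hm.le (by omega) (by omega), FM_succ_eq hm hr hnr (by omega) (by omega)] at hv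
  have key : ∀ m' : ℕ, (m' = m ∨ m' = m + 1) → S.Same (S.BB r m y) m m' →
      y ∉ S.Z r m' → S.A r m' y = S.A r m y → S.cf m r y < S.Fr r m' y → y ∈ S.om r m := by
    intro m' hm' hsame hz hA h
    have h1 := hcl r m' hm' y hz
    unfold cf at h
    rw [hA] at h1
    have h2 : S.M * (S.A r m y).toReal < (S.De r m' y).toReal := by linarith
    refine ⟨hy, Or.inr ?_⟩
    have h3 : ENNReal.ofReal S.M * S.A r m y ≤ S.De r m' y := by
      have hD : S.De r m' y ≠ ⊤ := ((S.De_le_one r m' y).trans_lt ENNReal.one_lt_top).ne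
      rw [← ENNReal.ofReal_toReal hD, ← ENNReal.ofReal_toReal (S.A_ne_top r m y),
        ← ENNReal.ofReal_mul (by have := S.hM; linarith)]
      exact ENNReal.ofReal_le_ofReal h2.le
    exact h3.trans (De_le_Db hsame)
  rcases lt_max_iff.1 hv with h | h
  · exact key m (Or.inl rfl) (Same.refl (zero_mem_BB r m y) hm1) hy rfl h
  · refine key (m + 1) (Or.inr rfl) (Same.active (zero_mem_BB r m y) (Or.inr hr) hm1) ?_ ?_ h
    · rw [Z_succ_act (Or.inr hr) hm1]; exact hy
    · rw [A_succ_act (Or.inr hr) hm1]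

lemma fl_sft_eq (hm : m ≤ S.mT) {n : ℕ} {q : List ℕ} (h1 : Module.finrank ℝ E ≤ q.length + n)
    (h2 : n ≤ Module.finrank ℝ E) (h3 : 1 ≤ n) (y : E) :
    fl (sft (S.pa m) (S.cf m) (fun p => S.Z p m) (fun p => S.kl p m) n q) (kst Unit (S.pf q m)) y
      = S.fno q m y := by
  obtain ⟨n0, rfl⟩ : ∃ n0, n = n0 + 1 := ⟨n - 1, by omega⟩
  rw [sft_succ', fl_node]
  have e : (ch (S.pa m) (S.cf m) (fun p => S.Z p m) (fun p => S.kl p m) n0 q)
      = S.tC q m := funext fun k => S.tCn_eq hm (by omega) (by omega) k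
  rw [e]
  rfl

lemma HB_eq (hm : m ≤ S.mT) {n : ℕ} (h1 : Module.finrank ℝ E ≤ (S.mv.jj m).length + n)
    (h2 : n ≤ Module.finrank ℝ E) (h3 : 1 ≤ n) (y : E) :
    HB (S.pa m) (S.cf m) (fun p => S.Z p m) (fun p => S.kl p m) (fun r => S.pf r m) n
      (S.mv.jj m) (S.rhoU m) y = S.Hm m y := by
  unfold HB Hm exc
  rw [pay_kst, fl_sft_eq hm h1 h2 h3]

/-- the throughput set in the form of `cnt` -/
lemma iw_thr_le {p : List ℕ} {y : E} {j : ℕ} (hj : S.gp p m = j + 1) :
    iw (S.thr' (S.mv.jj m) (S.kl p m y :: p) m j) y ≤ iw (S.cnt p m) y := by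
  by_cases h : y ∈ S.thr' (S.mv.jj m) (S.kl p m y :: p) m j
  · rw [iw_mem h, iw_mem]
    obtain ⟨h1, h2⟩ := h
    refine ⟨?_, ?_⟩
    · change S.nb p m y (S.gp p m) = S.mv.jj m
      rw [hj, nb_succ']
      exact h1
    · intro i hi hi'
      obtain ⟨i0, rfl⟩ : ∃ i0, i = i0 + 1 := ⟨i - 1, by omega⟩
      rw [nb_succ']
      exact h2 i0 (by omega)
  · rw [iw_not h]; exact zero_le

/-- the last level above the rotating node is not killed -/
lemma not_Z_tail {p : List ℕ} {y : E} {j : ℕ} (hy : y ∉ S.Z p m)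
    (h : y ∈ S.thr' (S.mv.jj m) (S.kl p m y :: p) m j) : y ∉ S.Z (S.mv.jj m).tail m := by
  obtain ⟨h1, h2⟩ := h
  cases j with
  | zero =>
    rw [nb_zero] at h1
    rw [← h1, List.tail_cons]
    exact hy
  | succ j =>
    rw [← h1, nb_succ, List.tail_cons]
    exact (h2 j (by omega)).1

lemma pow_gp_le {p : List ℕ} {j : ℕ} (hj : S.gp p m = j + 1) :
    (17 : ℝ≥0∞) ^ j ≤ 17 ^ S.gp p m := by
  rw [hj]
  exact pow_le_pow_right₀ (by norm_num) (Nat.le_succ j)

/-- `L¹` part of the price, one point -/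
lemma upvA_le (hact : S.mv.IsStar m ∨ S.mv.IsRot m) {p : List ℕ} {y : E} {j n : ℕ}
    (hj : S.gp p m = j + 1) (hn : n ≤ Module.finrank ℝ E) (hy : y ∉ S.Z p m) :
    upv (S.pa m) (fun r => S.om r m) (fun p => S.kl p m) (S.mv.jj m)
      (rsv (S.pa m) (S.cf m) (fun p => S.Z p m) (fun p => S.kl p m) (fun r => S.pf r m)
        (fun r => S.pf r (m + 1)) n (S.mv.jj m)) j (S.kl p m y :: p) y
      ≤ iw (S.cnt p m) y * (17 ^ S.gp p m * S.RX (S.mv.jj m) m y) := by
  refine (upv_le _ _ j _ y).trans ?_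
  by_cases h : y ∈ S.thr' (S.mv.jj m) (S.kl p m y :: p) m j
  · refine mul_le_mul' (iw_thr_le hj) (mul_le_mul' (pow_gp_le hj) ?_)
    refine (rsv_le hact n _ y (not_Z_tail hy h)).trans ?_
    unfold RX
    exact Finset.sum_le_sum_of_subset (Finset.range_mono hn)
  · rw [iw_not h, zero_mul]; exact zero_le

/-- soft part of the price, one point -/
lemma upvB_le {p : List ℕ} {y : E} {j : ℕ} (hj : S.gp p m = j + 1) (H : E → ℝ≥0∞) :
    upv (S.pa m) (fun r => S.om r m) (fun p => S.kl p m) (S.mv.jj m) H j (S.kl p m y :: p) y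
      ≤ iw (S.cnt p m) y * (17 ^ S.gp p m * H y) := by
  refine (upv_le _ _ j _ y).trans ?_
  exact mul_le_mul' (iw_thr_le hj) (mul_le_mul' (pow_gp_le hj) le_rfl)

/-- no change of the field at nodes which are not on the path of the rotating node -/
lemma fld_succ_not (hm : m < S.mT) (hr : S.mv.IsRot m) {p : List ℕ} (hp : ¬ S.mv.jj m <:+ p)
    (hp' : ¬ p <:+ S.mv.jj m) : S.fld p (m + 1) = S.fld p m := by
  have hm1 : S.mv.tm m < S.T := S.tm_lt_f hm.le
  funext x
  unfold fld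
  rw [kl_succ_act (Or.inr hr) hm1, pf_succ_not hr hp]
  congr 1
  unfold tC
  rw [tCn_succ_rot hr hm1]
  unfold tCn ch
  by_cases hl : S.Leaf p m
  · rw [if_pos (show (rotP (S.pa m) (S.mv.jj m) (S.rhoU m)).lf p from hl),
      if_pos (show (S.pa m).lf p from hl)]
  · rw [if_neg (show ¬ (rotP (S.pa m) (S.mv.jj m) (S.rhoU m)).lf p from hl),
      if_neg (show ¬ (S.pa m).lf p from hl)]
    set k := S.kl p m x
    have hne : ∀ s : List ℕ, s ++ k :: p ≠ S.mv.jj m := by
      intro s h0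
      apply hp'
      rw [← h0]
      exact (List.suffix_cons k p).trans ⟨s, rfl⟩
    have h1 : (rotP (S.pa m) (S.mv.jj m) (S.rhoU m)).P (k :: p) = (S.pa m).P (k :: p) :=
      rotP_P_ne (hne [])
    rw [h1]
    congr 1
    exact sft_congr _ ⟨fun s => rfl, fun s _ => rotP_P_ne (hne s), fun s => Iff.rfl, fun s => rfl,
      fun s => rfl⟩ fun s => rfl

lemma sf_fld_eq (hL : S.LabOK m) (p : List ℕ) (x : E) :
    H44.sf (S.W p m) x (S.fld p m) = fun z : (S.W p m)ᗮ =>
      fl (S.tC p m (S.kl p m x)) (kst Unit (S.pf p m)) (H852.sl (S.W p m) x z) := by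
  funext z
  exact hL.fld_fibre (H852.starProjection_sl (S.W p m) x z)

/-- the price when it is infinite -/
lemma softAt_top {F : Type*} [NormedAddCommGroup F] [InnerProductSpace ℝ F]
    [FiniteDimensional ℝ F] [MeasurableSpace F] [BorelSpace F] {f f' : F → ℝ} (hf : UI f)
    (hf' : UI f') : H44.SoftAt f f' ⊤ :=
  ⟨_, 0, Soft.of_L1 hf hf', le_rfl, le_top⟩

/-- **inner rotation at a label**: soft change of the field in the fibre, price `Gin` -/
theorem soft_in (hm : m < S.mT) (hr : S.mv.IsRot m) {k : ℝ} (hk0 : 0 ≤ k) (hk : k ≤ 1 / 2)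
    (hcap : CF2.CapF (S.pa m) (S.cf m) (fun p => S.Z p m) k)
    (hcl : ∀ r (m' : ℕ), (m' = m ∨ m' = m + 1) → ∀ y, y ∉ S.Z r m' →
      S.Fr r m' y ≤ (S.De r m' y).toReal + (S.A r m' y).toReal)
    {p : List ℕ} (hp : ¬ S.mv.jj m <:+ p) {x : E} (hx : x ∉ S.Z p m) :
    H44.SoftAt (H44.sf (S.W p m) x (S.fld p m)) (H44.sf (S.W p m) x (S.fld p (m + 1)))
      (S.Gin p m x) := by
  have hm1 : S.mv.tm m < S.T := S.tm_lt_f hm.le
  have hL := S.labOK hm.le
  have hL' := S.labOK (m := m + 1) (by omega)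
  by_cases hpq : p <:+ S.mv.jj m
  swap
  · rw [fld_succ_not hm hr hp hpq]
    exact (H44.SoftAt.refl _).mono zero_le
  by_cases hfin : S.Gin p m x = ⊤
  · rw [hfin]
    refine softAt_top (H44.sf_UI _ _ hL.fld_UI) (H44.sf_UI _ _ ?_)
    exact hL'.fld_UI
  obtain ⟨hq0, hQ', hfix, hU⟩ := rot_facts hr
  have hG := (S.mv.rot_data hr).2.1
  have hlenq : (S.mv.jj m).length ≤ Module.finrank ℝ E := (S.mem_G.1 hG).1
  have hlt : p.length < (S.mv.jj m).length := by
    rcases Nat.lt_or_ge p.length (S.mv.jj m).length with h | h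
    · exact h
    · exact absurd (hpq.eq_of_length (le_antisymm hpq.length_le h) ▸ List.suffix_refl p) hp
  have hpt : p <:+ (S.mv.jj m).tail := by
    obtain ⟨c, p0, hcp⟩ := List.exists_cons_of_ne_nil hq0
    rw [hcp, List.tail_cons]
    rw [hcp] at hpq hp
    rcases List.suffix_cons_iff.1 hpq with h | h
    · exact absurd (h ▸ List.suffix_refl _) hp
    · exact h
  have hnl := not_leaf_rot hr hpt
  set j := (S.mv.jj m).length - p.length - 1 with hj
  set n := Module.finrank ℝ E - j with hn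
  have hjn : j + n = Module.finrank ℝ E := by omega
  have hgp : S.gp p m = j + 1 := by unfold gp; omega
  have hHid : HidR (sft (S.pa m) (S.cf m) (fun p => S.Z p m) (fun p => S.kl p m) n (S.mv.jj m))
      (S.pf (S.mv.jj m) m) (S.rhoU m) :=
    hidR_of_caps hk0 hk S.cc_le' (good_sft (S.pa_ok m) hL n (S.mv.jj m))
      (CF2.cpI_sft (S.pa_ok m) hcap n (S.mv.jj m)) (S.pf_UI (S.mv.jj m) m) (S.rhoU m)
  unfold Gin at hfin
  have hA0 := fun h => hfin (ENNReal.add_eq_top.2 (Or.inl h))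
  have hB0 := fun h => hfin (ENNReal.add_eq_top.2 (Or.inr h))
  have key := soft_ch_vec (Q := S.pa m) (c := S.cf m) (Z := fun p => S.Z p m)
    (om := fun r => S.om r m) (cls := fun p => S.kl p m) (g := fun r => S.pf r m)
    (g' := fun r => S.pf r (m + 1)) (c0 := S.cc) (p := p) (q := S.mv.jj m) (ρ := S.rhoU m) (n := n)
    (j := j) (S.pa_ok m) hL S.cc_nonneg S.cc_le' hpq (cmp_pf m p) (cmp_pf_succ hr)
    (pf_jj hr) (fun r => S.pf_UI r m) (fun r => S.pf_UI r (m + 1)) hfix
    (fun r => measurableSet_om r m) (fun r => om_inv r hm1) (vis_rot hm hr hcl (by omega))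
    (by omega) hHid hnl (S.kl p m x) x
    (a := (fib (S.W p m) (fun y => iw (S.cnt p m) y * (17 ^ S.gp p m * S.RX (S.mv.jj m) m y))
      x).toReal)
    (b := (fib (S.W p m) (fun y => iw (S.cnt p m) y * (17 ^ S.gp p m * S.Hm m y)) x).toReal)
    ENNReal.toReal_nonneg ENNReal.toReal_nonneg ?_ ?_
  · have e1 := sf_fld_eq hL p x
    have e2 : H44.sf (S.W p m) x (S.fld p (m + 1)) = fun z : (S.W p m)ᗮ =>
        fl (S.tC p (m + 1) (S.kl p m x)) (kst Unit (S.pf p m)) (H852.sl (S.W p m) x z) := by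
      funext z
      change S.fld p (m + 1) (H852.sl (S.W p m) x z) = _
      unfold fld
      rw [kl_succ_act (Or.inr hr) hm1, pf_succ_not hr hp,
        hL.kl_eq (H852.starProjection_sl (S.W p m) x z)]
      rfl
    rw [e1, e2]
    unfold tC
    rw [tCn_succ_rot hr hm1]
    rw [hjn] at key
    refine ⟨_, _, key, ENNReal.toReal_nonneg, ?_⟩
    rw [ENNReal.ofReal_add ENNReal.toReal_nonneg ENNReal.toReal_nonneg,
      ENNReal.ofReal_toReal hA0, ENNReal.ofReal_toReal hB0]
    exact le_rfl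
  · rw [ENNReal.ofReal_toReal hA0]
    refine fib_le_of_le fun y hy => ?_
    have hk1 : S.kl p m y = S.kl p m x := hL.kl_eq hy
    have hy2 : y ∉ S.Z p m := fun h => hx ((mem_iff_of (S.Z_inv p m) hy).1 h)
    rw [← hk1]
    exact upvA_le (Or.inr hr) hgp (by omega) hy2
  · rw [ENNReal.ofReal_toReal hB0]
    refine fib_le_of_le fun y hy => ?_
    have hk1 : S.kl p m y = S.kl p m x := hL.kl_eq hy
    rw [← hk1]
    refine (upvB_le hgp _).trans ?_
    rw [HB_eq hm.le (by omega) (by omega) (by omega)]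

end Vale.Agent.P262.M2.Sys
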