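import Vale.Agent.P262.H174.RI5

/-!
# P262, milestone 2, ROT-IN part 6: inner rotations integrated over the counted labels (ROTI)
-/

set_option linter.all false

open MeasureTheory ProbabilityTheory Set
open scoped ENNReal RealInnerProductSpace Classical

namespace Vale.Agent.P262.M2.Sys

open Vale.Agent.P262.H118 (Iv st en ON rotE rotE_apply rotL_of_perp tau wd wrd Mg Piece K2 El2 paths)
open Vale.Agent.P262.H395 (mix fib Inv measurable_fib fib_mono fib_const fib_add fib_mul
  fib_eq_self inv_fib fib_tower Fixes)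
open Vale.Agent.P262.H847 (UI)
open Vale.Agent.P262.H44 (InvS)
open Vale.Agent.P262.H654 (tr phi sg Bd InvR fr invR_fr fr_mono fr_const ofReal_fr measurable_phi)
open Vale.Agent.P262.H713 Vale.Agent.P262.H713.FT
open Vale.Agent.P262.H174

variable {E : Type*} [NormedAddCommGroup E] [InnerProductSpace ℝ E] [FiniteDimensional ℝ E]
  [MeasurableSpace E] [BorelSpace E] {S : Sys E} {m : ℕ}

/-! ### measurability -/

lemma xd_meas (r : List ℕ) (m : ℕ) : Measurable (S.xd r m) :=
  (((S.A_meas r m).div ((S.A_meas r m).max (S.Dc_meas r m))).pow_const _).mul (S.Dl_meas r m)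

lemma alq_meas (q : List ℕ) (m i : ℕ) : MeasurableSet (S.alq q m i) := by
  have e : S.alq q m i = ⋂ (k : ℕ), ⋂ (_ : k < i),
      {y | y ∈ (fun r => (S.Z r m)ᶜ ∩ (if S.Leaf r m then ∅ else univ)) (S.nb q m y k)} := by
    ext y
    simp only [alq, mem_setOf_eq, mem_iInter]
    refine forall_congr' fun k => forall_congr' fun _ => ?_
    by_cases h : S.Leaf (S.nb q m y k) m <;> simp [h]
  rw [e]
  refine MeasurableSet.iInter fun k => MeasurableSet.iInter fun _ => ?_
  refine measurableSet_nb (S := S) q m k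
    (s := fun r => (S.Z r m)ᶜ ∩ (if S.Leaf r m then ∅ else univ)) fun r =>
      (S.measurableSet_Z r m).compl.inter ?_
  split_ifs
  · exact MeasurableSet.empty
  · exact MeasurableSet.univ

lemma iw_meas_i {s : Set E} (hs : MeasurableSet s) : Measurable (iw s) :=
  measurable_one.indicator hs

lemma RX_meas (q : List ℕ) (m : ℕ) : Measurable (S.RX q m) := by
  unfold RX
  refine Finset.measurable_sum _ fun i _ => ?_
  refine Measurable.const_mul ?_ _
  refine (iw_meas_i (alq_meas q m i)).mul (Measurable.const_mul ?_ _)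
  exact measurable_nb q m i fun r => xd_meas r m

lemma eqset_meas (p q : List ℕ) (m k : ℕ) : MeasurableSet {y | S.nb p m y k = q} := by
  have e : {y | S.nb p m y k = q}
      = {y | y ∈ (fun r => if r = q then (univ : Set E) else ∅) (S.nb p m y k)} := by
    ext y
    by_cases h : S.nb p m y k = q <;> simp [h]
  rw [e]
  refine measurableSet_nb (S := S) p m k (s := fun r => if r = q then (univ : Set E) else ∅)
    fun r => ?_
  split_ifs
  · exact MeasurableSet.univ
  · exact MeasurableSet.empty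

lemma cnt_meas (p : List ℕ) (m : ℕ) : MeasurableSet (S.cnt p m) :=
  (eqset_meas p _ m _).inter (measurableSet_OMb p m _)

lemma fno_meas (hL : S.LabOK m) (q : List ℕ) : Measurable (S.fno q m) := by
  unfold fno
  refine Measurable.ite (S.measurableSet_Z q m) measurable_const ?_
  exact (measurable_phi ((hL.ok q).meas) hL.Fr_UI.meas).mul hL.fld_UI.meas

lemma Hm_meas (hL : S.LabOK m) : Measurable (S.Hm m) := by
  unfold Hm
  have h2 : Measurable fun x : E => ENNReal.ofReal ‖S.rhoU m x - x‖ := by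
    have : Continuous fun x : E => ‖S.rhoU m x - x‖ :=
      ((S.rhoU m).continuous.sub continuous_id).norm
    exact this.measurable.ennreal_ofReal
  exact (((S.pf_UI _ m).meas.sub (fno_meas hL _)).abs.ennreal_ofReal).mul h2

lemma GinA_meas (p : List ℕ) (m : ℕ) :
    Measurable fun y => iw (S.cnt p m) y * (17 ^ S.gp p m * S.RX (S.mv.jj m) m y) :=
  (iw_meas_i (cnt_meas p m)).mul ((RX_meas _ m).const_mul _)

lemma GinB_meas (hL : S.LabOK m) (p : List ℕ) :
    Measurable fun y => iw (S.cnt p m) y * (17 ^ S.gp p m * S.Hm m y) :=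
  (iw_meas_i (cnt_meas p m)).mul ((Hm_meas hL).const_mul _)

/-- the price is measurable -/
theorem Gin_meas (hL : S.LabOK m) (p : List ℕ) : Measurable (S.Gin p m) :=
  (measurable_fib (GinA_meas p m)).add (measurable_fib (GinB_meas hL p))

/-- the price is a function of the label -/
theorem Gin_inv (p : List ℕ) (m : ℕ) : Inv (S.W p m) (S.Gin p m) := by
  intro x w hw
  unfold Gin
  rw [inv_fib (S.W p m) _ x w hw, inv_fib (S.W p m) _ x w hw]

/-! ### the counted ancestors as a function of the node -/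

/-- all the nodes above `r` and `r` itself are counted -/
def cup (S : Sys E) (m : ℕ) (r : List ℕ) : Set E :=
  {x | ∀ i, i ≤ r.length → x ∈ S.om (r.drop (r.length - i)) m}

lemma cup_inv (hm : S.mv.tm m < S.T) (r : List ℕ) : InvS (S.W r m) (S.cup m r) := by
  intro x w hw
  unfold cup
  simp only [mem_setOf_eq]
  refine forall_congr' fun i => forall_congr' fun _ => ?_
  refine om_inv _ hm x w (Submodule.orthogonal_le (S.W_mono ?_ m) hw)
  exact List.drop_suffix _ _

lemma cup_meas (r : List ℕ) : MeasurableSet (S.cup m r) := by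
  have e : S.cup m r = ⋂ (i : ℕ), ⋂ (_ : i ≤ r.length), S.om (r.drop (r.length - i)) m := by
    ext x
    simp only [cup, mem_setOf_eq, mem_iInter]
  rw [e]
  exact MeasurableSet.iInter fun i => MeasurableSet.iInter fun _ => measurableSet_om _ m

lemma nd_drop (m : ℕ) (x : E) {i l : ℕ} (h : i ≤ l) :
    (S.nd m x l).drop (l - i) = S.nd m x i := by
  have h1 := List.suffix_iff_eq_drop.1 (nd_suffix_nd (S := S) m x h)
  rw [length_nd, length_nd] at h1
  exact h1.symm

lemma mem_cup_nd {x : E} {l : ℕ} : x ∈ S.cup m (S.nd m x l) ↔ x ∈ S.OL (l + 1) m := by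
  unfold cup OL
  simp only [mem_setOf_eq, length_nd]
  constructor
  · intro h i hi
    have := h i (by omega)
    rwa [nd_drop m x (by omega)] at this
  · intro h i hi
    rw [nd_drop m x hi]
    exact h i (by omega)

lemma iw_inv_i {W : Submodule ℝ E} {s : Set E} (hs : InvS W s) : Inv W (iw s) := by
  intro x w hw
  by_cases h : x ∈ s
  · rw [iw_mem h, iw_mem ((hs x w hw).2 h)]
  · rw [iw_not h, iw_not fun h' => h ((hs x w hw).1 h')]

/-- averages over the fibres of counted labels -/
theorem int_OL_fib (hm : S.mv.tm m < S.T) (l : ℕ) {F : List ℕ → E → ℝ≥0∞}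
    (hF : ∀ r, Measurable (F r)) :
    ∫⁻ x, iw (S.OL (l + 1) m) x * fib (S.W (S.nd m x l) m) (F (S.nd m x l)) x ∂stdGaussian E
      = ∫⁻ x, iw (S.OL (l + 1) m) x * F (S.nd m x l) x ∂stdGaussian E := by
  have h := int_mul_fib (S := S) hm l (g := fun r => iw (S.cup m r)) (F := F)
    (fun r => iw_inv_i (cup_inv hm r)) (fun r => iw_meas_i (cup_meas r)) hF
  have e : ∀ x, iw (S.cup m (S.nd m x l)) x = iw (S.OL (l + 1) m) x := by
    intro x
    by_cases h : x ∈ S.OL (l + 1) m
    · rw [iw_mem h, iw_mem (mem_cup_nd.2 h)]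
    · rw [iw_not h, iw_not fun h' => h (mem_cup_nd.1 h')]
  simp_rw [e] at h
  exact h

/-! ### ROTI -/

lemma slp_le_one_i (p : List ℕ) (m : ℕ) (x : E) (s : ℝ≥0∞) : S.slp p m x s ≤ 1 := by
  unfold slp
  refine ENNReal.rpow_le_one ?_ S.hth.le
  refine ENNReal.div_le_of_le_mul ?_
  rw [one_mul]
  exact le_max_left _ _

lemma omj_sub_OL (l m : ℕ) : S.omj l m ⊆ S.OL (l + 1) m := by
  rintro x ⟨⟨-, h1⟩, h2⟩ i hi
  rw [mem_setOf_eq] at h2
  rcases Nat.lt_or_ge i l with h | h
  · exact h1 i h
  · have : i = l := by omega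
    subst this
    exact h2

/-- the path through the rotating node, levels counted -/
lemma cnt_thru {x : E} {l j : ℕ} (hj : (S.mv.jj m).length = j + 1) (hl : l ≤ j)
    (h1 : x ∈ S.OL (l + 1) m) (h2 : x ∈ S.cnt (S.nd m x l) m) :
    x ∈ S.thru (j + 1) m ∩ S.OL (j + 1) m := by
  have hgp : S.gp (S.nd m x l) m = j + 1 - l := by unfold gp; rw [length_nd, hj]
  obtain ⟨h3, h4⟩ := h2
  change S.nb (S.nd m x l) m x (S.gp (S.nd m x l) m) = S.mv.jj m at h3
  rw [hgp, ← nd_add, show l + (j + 1 - l) = j + 1 by omega] at h3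
  refine ⟨h3, fun i hi => ?_⟩
  rcases Nat.lt_or_ge i (l + 1) with h | h
  · exact h1 i h
  · have h5 := h4 (i - l) (by omega) (by rw [hgp]; omega)
    rw [← nd_add, show l + (i - l) = i by omega] at h5
    exact h5

lemma iw_cnt_le {x : E} {l j : ℕ} (hj : (S.mv.jj m).length = j + 1) (hl : l ≤ j) (c : ℝ≥0∞) :
    iw (S.OL (l + 1) m) x * (iw (S.cnt (S.nd m x l) m) x * c)
      ≤ iw (S.thru (j + 1) m ∩ S.OL (j + 1) m) x * c := by
  by_cases h1 : x ∈ S.OL (l + 1) m
  · by_cases h2 : x ∈ S.cnt (S.nd m x l) m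
    · rw [iw_mem h1, iw_mem h2, iw_mem (cnt_thru hj hl h1 h2), one_mul]
    · rw [iw_not h2, zero_mul, mul_zero]; exact zero_le
  · rw [iw_not h1, zero_mul]; exact zero_le

lemma thru_meas (j m : ℕ) : MeasurableSet (S.thru j m) := eqset_meas [] _ m j

/-- the weighted changes below the rotating node -/
lemma RX_term {x : E} {j i : ℕ} (hx : x ∈ S.thru (j + 1) m) (hm : S.mv.tm m < S.T) :
    iw (S.alq (S.mv.jj m) m i) x * S.xd (S.nb (S.mv.jj m) m x i) m x
      = iw (S.alj (j + 1) (j + 1 + i) m) x * S.xd (S.nd m x (j + 1 + i)) m x := by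
  have hx' : S.nd m x (j + 1) = S.mv.jj m := hx
  rw [nd_add, hx']
  congr 1
  have e : x ∈ S.alq (S.mv.jj m) m i ↔ x ∈ S.alj (j + 1) (j + 1 + i) m := by
    unfold alq alj
    simp only [mem_setOf_eq]
    constructor
    · intro h k hk hk'
      have := h (k - (j + 1)) (by omega)
      rwa [← hx', ← nd_add, show j + 1 + (k - (j + 1)) = k by omega] at this
    · intro h k hk
      have := h (j + 1 + k) (by omega) (by omega)
      rwa [nd_add, hx'] at this
  by_cases h : x ∈ S.alq (S.mv.jj m) m i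
  · rw [iw_mem h, iw_mem (e.1 h)]
  · rw [iw_not h, iw_not fun h' => h (e.2 h')]

/-- nothing below the leaves -/
lemma alj_empty (hm : S.mv.tm m < S.T) {j i : ℕ} (hi : 1 ≤ i)
    (h : Module.finrank ℝ E < j + 1 + i) : S.alj (j + 1) (j + 1 + i) m = ∅ := by
  ext x
  simp only [mem_empty_iff_false, iff_false]
  intro hx
  have h1 := (hx (j + i) (by omega) (by omega)).2
  have h2 := length_le_of_not_leaf hm h1
  rw [length_nd] at h2
  omega

/-- **(ROTI)** on `M2.Sys` -/
theorem roti {G : List ℕ → ℕ → E → ℝ≥0∞}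
    (hG : ∀ m < S.mT, S.mv.IsRot m → ∀ p, ¬ S.mv.jj m <:+ p → ∀ x, G p m x ≤ S.Gin p m x) :
    S.ROTI G S.Hm (48 * S.CR) 17 := by
  intro m hm hr j hj l hl
  have hm1 : S.mv.tm m < S.T := S.tm_lt_f hm.le
  have hL := S.labOK hm.le
  have hCR := CR_ge_one (S := S)
  have hjn : j + 1 ≤ Module.finrank ℝ E := by
    have := (S.mem_G.1 (S.mv.rot_data hr).2.1).1
    omega
  -- drop the slope and pass to the labels of level `l`
  have s1 : S.Pt G l m ≤ ∫⁻ x, iw (S.OL (l + 1) m) x * S.Gin (S.nd m x l) m x ∂stdGaussian E := by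
    unfold Pt
    refine lintegral_mono fun x => ?_
    refine mul_le_mul' ?_ ?_
    · exact ind_le_ind (inter_subset_left.trans (omj_sub_OL l m)) x
    · have hnot : ¬ S.mv.jj m <:+ S.nd m x l :=
        not_suffix_of_length (by rw [length_nd]; omega)
      calc _ ≤ 1 * S.Gin (S.nd m x l) m x :=
            mul_le_mul' (slp_le_one_i _ _ _ _) (hG m hm hr _ hnot x)
        _ = _ := one_mul _
  refine s1.trans ?_
  -- the two parts
  have s2 : ∫⁻ x, iw (S.OL (l + 1) m) x * S.Gin (S.nd m x l) m x ∂stdGaussian E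
      = (∫⁻ x, iw (S.OL (l + 1) m) x * (iw (S.cnt (S.nd m x l) m) x *
          (17 ^ S.gp (S.nd m x l) m * S.RX (S.mv.jj m) m x)) ∂stdGaussian E)
        + ∫⁻ x, iw (S.OL (l + 1) m) x * (iw (S.cnt (S.nd m x l) m) x *
          (17 ^ S.gp (S.nd m x l) m * S.Hm m x)) ∂stdGaussian E := by
    rw [← int_OL_fib hm1 l (F := fun p y => iw (S.cnt p m) y *
        (17 ^ S.gp p m * S.RX (S.mv.jj m) m y)) (fun p => GinA_meas p m),
      ← int_OL_fib hm1 l (F := fun p y => iw (S.cnt p m) y *
        (17 ^ S.gp p m * S.Hm m y)) (fun p => GinB_meas hL p), ← lintegral_add_left]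
    · refine lintegral_congr fun x => ?_
      rw [← mul_add]
      rfl
    · refine (iw_meas_i (measurableSet_OL (l + 1) m)).mul ?_
      exact measurable_nd m l (F := fun p => fib (S.W p m) (fun y => iw (S.cnt p m) y *
        (17 ^ S.gp p m * S.RX (S.mv.jj m) m y))) fun p => measurable_fib (GinA_meas p m)
  rw [s2, add_comm]
  have hgp : ∀ x, S.gp (S.nd m x l) m = j + 1 - l := fun x => by
    unfold gp; rw [length_nd, hj]
  have mT : MeasurableSet (S.thru (j + 1) m ∩ S.OL (j + 1) m) :=
    (thru_meas (j + 1) m).inter (measurableSet_OL (j + 1) m)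
  have mfi : ∀ i, Measurable fun x : E => iw (S.thru (j + 1) m ∩ S.OL (j + 1) m ∩
      S.alj (j + 1) (j + 1 + i) m) x * S.xd (S.nd m x (j + 1 + i)) m x := by
    intro i
    refine (iw_meas_i (mT.inter ?_)).mul (measurable_nd m _ fun r => xd_meas r m)
    have e : S.alj (j + 1) (j + 1 + i) m = ⋂ (k : ℕ), ⋂ (_ : j + 1 ≤ k), ⋂ (_ : k < j + 1 + i),
        {y | y ∈ (fun r => (S.Z r m)ᶜ ∩ (if S.Leaf r m then ∅ else univ)) (S.nd m y k)} := by
      ext y
      simp only [alj, mem_setOf_eq, mem_iInter]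
      refine forall_congr' fun k => forall_congr' fun _ => forall_congr' fun _ => ?_
      by_cases h : S.Leaf (S.nd m y k) m <;> simp [h]
    rw [e]
    refine MeasurableSet.iInter fun k => MeasurableSet.iInter fun _ =>
      MeasurableSet.iInter fun _ => ?_
    refine measurableSet_nd (S := S) m k
      (s := fun r => (S.Z r m)ᶜ ∩ (if S.Leaf r m then ∅ else univ)) fun r =>
        (S.measurableSet_Z r m).compl.inter ?_
    split_ifs
    · exact MeasurableSet.empty
    · exact MeasurableSet.univ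
  refine add_le_add ?_ ?_
  · -- soft part
    unfold Hw
    have mf : Measurable (fun x => iw (S.thru (j + 1) m ∩ S.OL (j + 1) m) x * S.Hm m x) :=
      (iw_meas_i mT).mul (Hm_meas hL)
    rw [← lintegral_const_mul _ mf]
    refine lintegral_mono fun x => ?_
    refine (iw_cnt_le hj hl _).trans ?_
    rw [hgp x]
    have h17 : (17 : ℝ≥0∞) ^ (j + 1 - l) ≤ ENNReal.ofReal (48 * S.CR * 17 ^ (j + 1 - l)) := by
      rw [ENNReal.ofReal_mul (by linarith), ENNReal.ofReal_pow (by norm_num)]
      have e : ENNReal.ofReal 17 = 17 := by norm_num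
      rw [e]
      calc (17 : ℝ≥0∞) ^ (j + 1 - l) = 1 * 17 ^ (j + 1 - l) := (one_mul _).symm
        _ ≤ _ := by
          gcongr
          rw [← ENNReal.ofReal_one]
          exact ENNReal.ofReal_le_ofReal (by linarith)
    calc iw (S.thru (j + 1) m ∩ S.OL (j + 1) m) x * (17 ^ (j + 1 - l) * S.Hm m x)
        = 17 ^ (j + 1 - l) * (iw (S.thru (j + 1) m ∩ S.OL (j + 1) m) x * S.Hm m x) := by ring
      _ ≤ _ := by gcongr
  · -- `L¹` part
    have s3 : ∫⁻ x, iw (S.OL (l + 1) m) x * (iw (S.cnt (S.nd m x l) m) x *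
          (17 ^ S.gp (S.nd m x l) m * S.RX (S.mv.jj m) m x)) ∂stdGaussian E
        ≤ ∑ i ∈ Finset.range (Module.finrank ℝ E), ∫⁻ x, 17 ^ (j + 1 - l) * (17 ^ i *
          (ENNReal.ofReal (48 * S.CR) * (iw (S.thru (j + 1) m ∩ S.OL (j + 1) m ∩
            S.alj (j + 1) (j + 1 + i) m) x * S.xd (S.nd m x (j + 1 + i)) m x)))
          ∂stdGaussian E := by
      rw [← lintegral_finset_sum']
      · refine lintegral_mono fun x => ?_
        refine (iw_cnt_le hj hl _).trans ?_
        rw [hgp x]
        by_cases hx : x ∈ S.thru (j + 1) m ∩ S.OL (j + 1) m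
        · rw [iw_mem hx, one_mul]
          unfold RX
          rw [Finset.mul_sum]
          refine Finset.sum_le_sum fun i _ => ?_
          have h1 := RX_term (i := i) hx.1 hm1
          have h2 : iw (S.thru (j + 1) m ∩ S.OL (j + 1) m ∩ S.alj (j + 1) (j + 1 + i) m) x
              = iw (S.alj (j + 1) (j + 1 + i) m) x := by
            by_cases h : x ∈ S.alj (j + 1) (j + 1 + i) m
            · rw [iw_mem h, iw_mem (show x ∈ (S.thru (j + 1) m ∩ S.OL (j + 1) m) ∩
                S.alj (j + 1) (j + 1 + i) m from ⟨hx, h⟩)]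
            · rw [iw_not h, iw_not (s := (S.thru (j + 1) m ∩ S.OL (j + 1) m) ∩
                S.alj (j + 1) (j + 1 + i) m) fun h' => h h'.2]
          rw [h2, ← h1]
          apply le_of_eq
          ring
        · rw [iw_not hx, zero_mul]; exact zero_le
      · intro i _
        exact (Measurable.const_mul (Measurable.const_mul (Measurable.const_mul (mfi i) _) _)
          _).aemeasurable
    refine s3.trans ?_
    have s4 : ∀ i, ∫⁻ x, 17 ^ (j + 1 - l) * (17 ^ i *
          (ENNReal.ofReal (48 * S.CR) * (iw (S.thru (j + 1) m ∩ S.OL (j + 1) m ∩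
            S.alj (j + 1) (j + 1 + i) m) x * S.xd (S.nd m x (j + 1 + i)) m x)))
          ∂stdGaussian E
        = ENNReal.ofReal (48 * S.CR * 17 ^ (j + 1 + i - l)) * S.thq (j + 1) (j + 1 + i) m := by
      intro i
      rw [lintegral_const_mul _ (Measurable.const_mul (Measurable.const_mul (mfi i) _) _),
        lintegral_const_mul _ (Measurable.const_mul (mfi i) _), lintegral_const_mul _ (mfi i)]
      unfold thq
      have e17 : ENNReal.ofReal (48 * S.CR * 17 ^ (j + 1 + i - l))
          = 17 ^ (j + 1 + i - l) * ENNReal.ofReal (48 * S.CR) := by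
        rw [ENNReal.ofReal_mul (by linarith), ENNReal.ofReal_pow (by norm_num), mul_comm]
        congr 2
        norm_num
      rw [e17, ← mul_assoc, ← mul_assoc, ← pow_add, show j + 1 - l + i = j + 1 + i - l by omega]
    rw [Finset.sum_congr rfl fun i _ => s4 i]
    have s5 := Finset.sum_Ico_eq_sum_range
      (fun i => ENNReal.ofReal (48 * S.CR * 17 ^ (i - l)) * S.thq (j + 1) i m) (j + 1)
      (j + 1 + Module.finrank ℝ E)
    rw [show j + 1 + Module.finrank ℝ E - (j + 1) = Module.finrank ℝ E by omega] at s5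
    rw [← s5]
    refine Finset.sum_le_sum_of_ne_zero fun i hi hne => ?_
    rw [Finset.mem_Ico] at hi
    rw [Finset.mem_Icc]
    refine ⟨hi.1, ?_⟩
    by_contra hcon
    apply hne
    have hnl : S.nl = Module.finrank ℝ E := rfl
    rw [hnl] at hcon
    have h6 := alj_empty (S := S) hm1 (j := j) (i := i - (j + 1)) (by omega) (by omega)
    rw [show j + 1 + (i - (j + 1)) = i by omega] at h6
    unfold thq
    rw [h6, inter_empty]
    simp [iw]

end Vale.Agent.P262.M2.Sys
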