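import Vale.Agent.P262.H941.Scale

/-!
# P262, scheme S1: soft distance of two fields

`Soft e e' a b` : tested against a bounded `L`-Lipschitz function the fields `e`, `e'` differ by at
most `a + L b`. An `L¹`-change has `b = 0`; the rigid rotation of an arbitrary hidden field by a
small angle has `a = 0`.
-/

set_option linter.unusedSectionVars false
set_option linter.unusedVariables false

namespace Vale.Agent.P262.H174

open MeasureTheory ProbabilityTheory Set Filter Topology
open scoped RealInnerProductSpace ENNReal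
open Vale.Agent.P262.H847 Vale.Agent.P262.H912 Vale.Agent.P262.H941

variable {E : Type*} [NormedAddCommGroup E] [InnerProductSpace ℝ E] [FiniteDimensional ℝ E]
  [MeasurableSpace E] [BorelSpace E]

/-- test functions of sup norm `≤ 1` and Lipschitz constant `L` -/
structure Test (Ψ : E → ℝ) (L : ℝ) : Prop where
  meas : Measurable Ψ
  bd : ∀ x, |Ψ x| ≤ 1
  lip : ∀ x y, |Ψ x - Ψ y| ≤ L * ‖x - y‖

/-- soft distance -/
def Soft (e e' : E → ℝ) (a b : ℝ) : Prop :=
  ∀ (Ψ : E → ℝ) (L : ℝ), 0 ≤ L → Test Ψ L →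
    |∫ x, (e' x - e x) * Ψ x ∂(stdGaussian E)| ≤ a + L * b

lemma UI.int_mul {f : E → ℝ} (hf : UI f) {Ψ : E → ℝ} {L : ℝ} (hΨ : Test Ψ L) :
    Integrable (fun x => f x * Ψ x) (stdGaussian E) :=
  Integrable.of_bound (hf.meas.mul hΨ.meas).aestronglyMeasurable 1
    (Eventually.of_forall fun x => by
      rw [norm_mul, Real.norm_eq_abs, Real.norm_eq_abs, abs_of_nonneg (hf.nonneg x)]
      exact mul_le_one₀ (hf.le_one x) (abs_nonneg _) (hΨ.bd x))

lemma Soft.nonneg {e e' : E → ℝ} {a b : ℝ} (h : Soft e e' a b) : 0 ≤ a := by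
  have h1 := h (fun _ => 0) 0 le_rfl ⟨measurable_const, fun _ => by simp, fun _ _ => by simp⟩
  simpa using h1

lemma Soft.refl (e : E → ℝ) : Soft e e 0 0 := by
  intro Ψ L hL hΨ
  simp

lemma Soft.mono {e e' : E → ℝ} {a b a' b' : ℝ} (h : Soft e e' a b) (ha : a ≤ a') (hb : b ≤ b') :
    Soft e e' a' b' := fun Ψ L hL hΨ =>
  (h Ψ L hL hΨ).trans (add_le_add ha (mul_le_mul_of_nonneg_left hb hL))

lemma Soft.symm {e e' : E → ℝ} {a b : ℝ} (h : Soft e e' a b) : Soft e' e a b := by
  intro Ψ L hL hΨ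
  have h1 := h Ψ L hL hΨ
  have h2 : ∫ x, (e x - e' x) * Ψ x ∂(stdGaussian E)
      = -∫ x, (e' x - e x) * Ψ x ∂(stdGaussian E) := by
    rw [← integral_neg]
    congr 1; funext x; ring
  rw [h2, abs_neg]
  exact h1

lemma Soft.trans {e e' e'' : E → ℝ} (he : UI e) (he' : UI e') (he'' : UI e'') {a b a' b' : ℝ}
    (h : Soft e e' a b) (h' : Soft e' e'' a' b') : Soft e e'' (a + a') (b + b') := by
  intro Ψ L hL hΨ
  have h1 := h Ψ L hL hΨ
  have h2 := h' Ψ L hL hΨ
  have i1 : Integrable (fun x => (e' x - e x) * Ψ x) (stdGaussian E) := by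
    have := (UI.int_mul he' hΨ).sub (UI.int_mul he hΨ)
    refine this.congr (Eventually.of_forall fun x => ?_)
    show e' x * Ψ x - e x * Ψ x = (e' x - e x) * Ψ x
    ring
  have i2 : Integrable (fun x => (e'' x - e' x) * Ψ x) (stdGaussian E) := by
    have := (UI.int_mul he'' hΨ).sub (UI.int_mul he' hΨ)
    refine this.congr (Eventually.of_forall fun x => ?_)
    show e'' x * Ψ x - e' x * Ψ x = (e'' x - e' x) * Ψ x
    ring
  have h3 : ∫ x, (e'' x - e x) * Ψ x ∂(stdGaussian E)
      = ∫ x, (e' x - e x) * Ψ x ∂(stdGaussian E) + ∫ x, (e'' x - e' x) * Ψ x ∂(stdGaussian E) := by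
    rw [← integral_add i1 i2]
    congr 1; funext x; ring
  rw [h3]
  refine (abs_add_le _ _).trans ?_
  linarith

/-- an `L¹`-change is soft -/
lemma Soft.of_L1 {e e' : E → ℝ} (he : UI e) (he' : UI e') :
    Soft e e' (∫ x, |e' x - e x| ∂(stdGaussian E)) 0 := by
  intro Ψ L hL hΨ
  have i0 : Integrable (fun x => |e' x - e x|) (stdGaussian E) :=
    ((he'.integrable _).sub (he.integrable _)).abs
  refine (abs_integral_le_integral_abs).trans ?_
  rw [mul_zero, add_zero]
  refine integral_mono_of_nonneg (Eventually.of_forall fun x => abs_nonneg _) i0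
    (Eventually.of_forall fun x => ?_)
  show |(e' x - e x) * Ψ x| ≤ |e' x - e x|
  rw [abs_mul]
  exact mul_le_of_le_one_right (abs_nonneg _) (hΨ.bd x)

/-- the mass of the field -/
lemma Soft.mass {e e' : E → ℝ} (he : UI e) (he' : UI e') {a b : ℝ} (h : Soft e e' a b) :
    |∫ x, e' x ∂(stdGaussian E) - ∫ x, e x ∂(stdGaussian E)| ≤ a := by
  have h1 := h (fun _ => 1) 0 le_rfl ⟨measurable_const, fun _ => by simp, fun _ _ => by simp⟩
  simp only [mul_one, zero_mul, add_zero] at h1
  rwa [integral_sub (he'.integrable _) (he.integrable _)] at h1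

/-- complementary fields: if `e = G - h`, `e' = G - h'` then `Soft h h'` gives `Soft e e'` -/
lemma Soft.compl {h h' e e' : E → ℝ} {a b : ℝ} (hs : Soft h h' a b)
    (heq : ∀ x, e' x - e x = -(h' x - h x)) : Soft e e' a b := by
  intro Ψ L hL hΨ
  have h1 := hs Ψ L hL hΨ
  have h2 : ∫ x, (e' x - e x) * Ψ x ∂(stdGaussian E)
      = -∫ x, (h' x - h x) * Ψ x ∂(stdGaussian E) := by
    rw [← integral_neg]
    congr 1; funext x; rw [heq]; ring
  rw [h2, abs_neg]
  exact h1

/-- **rigid motion of an arbitrary field**: `b` = the field mass weighted by the displacement -/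
theorem Soft.rot {h : E → ℝ} (hh : UI h) (R : E ≃ₗᵢ[ℝ] E) :
    Soft h (fun x => h (R x)) 0 (∫ x, h x * ‖R.symm x - x‖ ∂(stdGaussian E)) := by
  intro Ψ L hL hΨ
  have hmp : (stdGaussian E).map R = stdGaussian E := by
    haveI : IsProbabilityMeasure ((stdGaussian E).map R) :=
      Measure.isProbabilityMeasure_map (by fun_prop)
    apply Measure.ext_of_charFun
    funext t
    rw [charFun_apply, integral_map (by fun_prop) (by fun_prop)]
    have e1 : ∀ x : E, Complex.exp (⟪R x, t⟫ * Complex.I)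
        = Complex.exp (⟪x, R.symm t⟫ * Complex.I) := by
      intro x
      congr 3
      rw [← R.inner_map_map x (R.symm t), R.apply_symm_apply]
    simp_rw [e1]
    rw [← charFun_apply, charFun_stdGaussian, charFun_stdGaussian, R.symm.norm_map]
  have hRm : Measurable (fun x : E => h (R x)) := hh.meas.comp (by fun_prop)
  have hhR : UI (fun x => h (R x)) := ⟨hRm, fun x => hh.nonneg _, fun x => hh.le_one _⟩
  have hΨR : Test (fun x => Ψ (R.symm x)) L := by
    refine ⟨hΨ.meas.comp (by fun_prop), fun x => hΨ.bd _, fun x y => ?_⟩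
    have := hΨ.lip (R.symm x) (R.symm y)
    rwa [← map_sub, R.symm.norm_map] at this
  have i1 := UI.int_mul hhR hΨ
  have i2 := UI.int_mul hh hΨ
  have i3 := UI.int_mul hh hΨR
  have e1 : ∫ x, h (R x) * Ψ x ∂(stdGaussian E) = ∫ x, h x * Ψ (R.symm x) ∂(stdGaussian E) := by
    conv_rhs => rw [← hmp]
    rw [integral_map (by fun_prop)]
    · congr 1; funext x; rw [R.symm_apply_apply]
    · exact (hh.meas.mul hΨR.meas).aestronglyMeasurable
  have e2 : ∫ x, (h (R x) - h x) * Ψ x ∂(stdGaussian E)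
      = ∫ x, h x * (Ψ (R.symm x) - Ψ x) ∂(stdGaussian E) := by
    have h1 : ∫ x, (h (R x) - h x) * Ψ x ∂(stdGaussian E)
        = ∫ x, h (R x) * Ψ x ∂(stdGaussian E) - ∫ x, h x * Ψ x ∂(stdGaussian E) := by
      rw [← integral_sub i1 i2]
      congr 1; funext x; ring
    rw [h1, e1, ← integral_sub i3 i2]
    congr 1; funext x; ring
  show |∫ x, (h (R x) - h x) * Ψ x ∂(stdGaussian E)| ≤ _
  rw [e2]
  have i4 : Integrable (fun x => h x * ‖R.symm x - x‖) (stdGaussian E) := by
    have h1 : Integrable (fun x : E => 2 * ‖x‖) (stdGaussian E) := integrable_norm.const_mul 2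
    refine h1.mono' (hh.meas.mul (by fun_prop)).aestronglyMeasurable
      (Eventually.of_forall fun x => ?_)
    rw [norm_mul, norm_norm, Real.norm_eq_abs, abs_of_nonneg (hh.nonneg x)]
    have h2 : ‖R.symm x - x‖ ≤ 2 * ‖x‖ := by
      refine (norm_sub_le _ _).trans ?_
      rw [R.symm.norm_map]; linarith
    exact (mul_le_of_le_one_left (norm_nonneg _) (hh.le_one x)).trans h2
  refine (abs_integral_le_integral_abs).trans ?_
  rw [zero_add, ← integral_const_mul]
  refine integral_mono_of_nonneg (Eventually.of_forall fun x => abs_nonneg _) (i4.const_mul L)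
    (Eventually.of_forall fun x => ?_)
  show |h x * (Ψ (R.symm x) - Ψ x)| ≤ L * (h x * ‖R.symm x - x‖)
  rw [abs_mul, abs_of_nonneg (hh.nonneg x)]
  calc h x * |Ψ (R.symm x) - Ψ x| ≤ h x * (L * ‖R.symm x - x‖) :=
        mul_le_mul_of_nonneg_left (hΨ.lip _ _) (hh.nonneg x)
    _ = _ := by ring

end Vale.Agent.P262.H174
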