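import Vale.Agent.P262.H174.Soft

/-!
# P262, scheme S1: soft distance seen at scale `s`
-/

set_option linter.unusedSectionVars false
set_option linter.unusedVariables false

namespace Vale.Agent.P262.H174

open MeasureTheory ProbabilityTheory Set Filter Topology
open scoped RealInnerProductSpace ENNReal
open Vale.Agent.P262.H847 Vale.Agent.P262.H912 Vale.Agent.P262.H941

variable {E : Type*} [NormedAddCommGroup E] [InnerProductSpace ℝ E] [FiniteDimensional ℝ E]
  [MeasurableSpace E] [BorelSpace E]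

/-! ### shift of the Gaussian measure -/

lemma int_exp_one (w : E) :
    ∫ g, Real.exp (⟪w, g⟫ - ‖w‖ ^ 2 / 2) ∂(stdGaussian E) = 1 := by
  have h := integral_shift' (E := E) (F := fun _ => (1 : ℝ)) measurable_const w
  simp at h
  exact h.symm

lemma integrable_exp_lin (w : E) (a : ℝ) :
    Integrable (fun g : E => Real.exp (⟪w, g⟫ - a)) (stdGaussian E) := by
  have h := integrable_lin_exp (E := E) (a := 1) (b := 0) (c := ‖w‖) zero_le_one le_rfl
  refine (h.const_mul (Real.exp (-a))).mono' (by fun_prop) (Eventually.of_forall fun g => ?_)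
  rw [Real.norm_eq_abs, abs_of_pos (Real.exp_pos _), zero_mul, add_zero, one_mul, ← Real.exp_add]
  apply Real.exp_le_exp.mpr
  have := real_inner_le_norm w g
  linarith

lemma int_exp_sq (w : E) :
    ∫ g, Real.exp (⟪w, g⟫ - ‖w‖ ^ 2 / 2) ^ 2 ∂(stdGaussian E) = Real.exp (‖w‖ ^ 2) := by
  have h := int_exp_one ((2 : ℝ) • w)
  have e1 : ∀ g : E, Real.exp (⟪w, g⟫ - ‖w‖ ^ 2 / 2) ^ 2
      = Real.exp (‖w‖ ^ 2) * Real.exp (⟪(2 : ℝ) • w, g⟫ - ‖(2 : ℝ) • w‖ ^ 2 / 2) := by
    intro g
    rw [← Real.exp_add, ← Real.exp_nat_mul]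
    congr 1
    rw [real_inner_smul_left, norm_smul, Real.norm_eq_abs]
    push_cast
    rw [mul_pow, sq_abs]
    ring
  simp_rw [e1]
  rw [integral_const_mul, h, mul_one]

lemma tv_shift (w : E) :
    ∫ g, |Real.exp (⟪w, g⟫ - ‖w‖ ^ 2 / 2) - 1| ∂(stdGaussian E) ≤ 2 * ‖w‖ := by
  set X : E → ℝ := fun g => Real.exp (⟪w, g⟫ - ‖w‖ ^ 2 / 2) with hX
  have iX : Integrable X (stdGaussian E) := integrable_exp_lin w _
  have i1 : Integrable (fun g => X g - 1) (stdGaussian E) := iX.sub (integrable_const _)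
  have hX1 : ∫ g, X g ∂(stdGaussian E) = 1 := int_exp_one w
  rcases le_total 1 ‖w‖ with h | h
  · have h1 : ∫ g, |X g - 1| ∂(stdGaussian E) ≤ ∫ g, (X g + 1) ∂(stdGaussian E) := by
      refine integral_mono i1.abs (iX.add (integrable_const _)) fun g => ?_
      show |X g - 1| ≤ X g + 1
      have := Real.exp_pos (⟪w, g⟫ - ‖w‖ ^ 2 / 2)
      rw [abs_le]; constructor <;> simp only [hX] <;> linarith
    rw [integral_add iX (integrable_const _), hX1] at h1
    simp at h1
    linarith
  · have iX2 : Integrable (fun g => X g ^ 2) (stdGaussian E) := by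
      have h2 := integrable_exp_lin ((2 : ℝ) • w) (‖w‖ ^ 2)
      refine h2.congr (Eventually.of_forall fun g => ?_)
      show Real.exp (⟪(2 : ℝ) • w, g⟫ - ‖w‖ ^ 2) = Real.exp (⟪w, g⟫ - ‖w‖ ^ 2 / 2) ^ 2
      rw [← Real.exp_nat_mul, real_inner_smul_left]
      congr 1; push_cast; ring
    have i2 : Integrable (fun g => (X g - 1) ^ 2) (stdGaussian E) := by
      have h3 := (iX2.sub (iX.const_mul 2)).add (integrable_const (1 : ℝ))
      refine h3.congr (Eventually.of_forall fun g => ?_)
      show X g ^ 2 - 2 * X g + 1 = (X g - 1) ^ 2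
      ring
    have h4 : ∫ g, (X g - 1) ^ 2 ∂(stdGaussian E) = Real.exp (‖w‖ ^ 2) - 1 := by
      have e1 : ∀ g, (X g - 1) ^ 2 = X g ^ 2 - (2 * X g - 1) := fun g => by ring
      have e2 : ∫ g, X g ^ 2 ∂(stdGaussian E) = Real.exp (‖w‖ ^ 2) := int_exp_sq w
      have i3 : Integrable (fun g => 2 * X g - 1) (stdGaussian E) :=
        (iX.const_mul 2).sub (integrable_const _)
      have e3 : ∫ g, (2 * X g - 1) ∂(stdGaussian E) = 1 := by
        rw [integral_sub (iX.const_mul 2) (integrable_const _), integral_const_mul, hX1]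
        simp
        norm_num
      simp_rw [e1]
      rw [integral_sub iX2 i3, e2, e3]
    have h5 : Real.exp (‖w‖ ^ 2) - 1 ≤ 2 * ‖w‖ ^ 2 := by
      have h0 : 0 ≤ ‖w‖ ^ 2 := sq_nonneg _
      have h1 : ‖w‖ ^ 2 ≤ 1 := by nlinarith [norm_nonneg w]
      have h6 := Real.exp_bound' h0 h1 (n := 2) (by norm_num)
      simp [Finset.sum_range_succ] at h6
      nlinarith
    -- Cauchy-Schwarz in the form |x| ≤ (t + x²/t)/2
    rcases eq_or_lt_of_le (norm_nonneg w) with h0 | h0
    · have hw : w = 0 := norm_eq_zero.mp h0.symm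
      have h1 : ∀ g : E, |Real.exp (⟪w, g⟫ - ‖w‖ ^ 2 / 2) - 1| = 0 := fun g => by simp [hw]
      have h2 : ∫ g, |X g - 1| ∂(stdGaussian E) = 0 := by
        simp only [hX, h1, integral_zero]
      rw [h2]
      positivity
    · have h7 : ∫ g, |X g - 1| ∂(stdGaussian E)
          ≤ ∫ g, (‖w‖ + (X g - 1) ^ 2 / (4 * ‖w‖)) ∂(stdGaussian E) := by
        refine integral_mono i1.abs ((integrable_const _).add (i2.div_const _)) fun g => ?_
        show |X g - 1| ≤ ‖w‖ + (X g - 1) ^ 2 / (4 * ‖w‖)
        have h8 : |X g - 1| * (4 * ‖w‖) ≤ (‖w‖ + (X g - 1) ^ 2 / (4 * ‖w‖)) * (4 * ‖w‖) := by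
          have e2 : (‖w‖ + (X g - 1) ^ 2 / (4 * ‖w‖)) * (4 * ‖w‖) = 4 * ‖w‖ ^ 2 + (X g - 1) ^ 2 := by
            field_simp
          rw [e2, ← sq_abs (X g - 1)]
          nlinarith [sq_nonneg (|X g - 1| - 2 * ‖w‖)]
        exact le_of_mul_le_mul_right h8 (by positivity)
      rw [integral_add (integrable_const _) (i2.div_const _), integral_div, h4] at h7
      simp at h7
      have h9 : (Real.exp (‖w‖ ^ 2) - 1) / (4 * ‖w‖) ≤ ‖w‖ / 2 := by
        rw [div_le_iff₀ (by positivity)]
        nlinarith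
      linarith

/-! ### the averaged test function -/

/-- kernel of two variables -/
structure Ker (Φ : E → E → ℝ) (ℓ : ℝ) : Prop where
  meas : Measurable (Function.uncurry Φ)
  bd : ∀ y g, |Φ y g| ≤ 1
  lip : ∀ y g g', |Φ y g - Φ y g'| ≤ ℓ * ‖g - g'‖

/-- the averaged test function -/
noncomputable def bar (c s : ℝ) (Φ : E → E → ℝ) (x : E) : ℝ :=
  ∫ z, Φ (c • x + s • z) (s • x - c • z) ∂(stdGaussian E)

lemma Ker.meas_bar {Φ : E → E → ℝ} {ℓ : ℝ} (hΦ : Ker Φ ℓ) (c s : ℝ) :
    Measurable (fun p : E × E => Φ (c • p.1 + s • p.2) (s • p.1 - c • p.2)) :=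
  hΦ.meas.comp (by fun_prop : Measurable fun p : E × E => (c • p.1 + s • p.2, s • p.1 - c • p.2))

lemma Ker.int_bar {Φ : E → E → ℝ} {ℓ : ℝ} (hΦ : Ker Φ ℓ) (c s : ℝ) (x : E) :
    Integrable (fun z => Φ (c • x + s • z) (s • x - c • z)) (stdGaussian E) :=
  Integrable.of_bound ((hΦ.meas_bar c s).comp (measurable_prodMk_left (x := x))).aestronglyMeasurable
    1 (Eventually.of_forall fun z => by rw [Real.norm_eq_abs]; exact hΦ.bd _ _)

theorem Ker.test_bar {Φ : E → E → ℝ} {ℓ : ℝ} (hΦ : Ker Φ ℓ) (hℓ : 0 ≤ ℓ) {c s : ℝ}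
    (hcs : c ^ 2 + s ^ 2 = 1) (hs : 0 < s) : Test (bar c s Φ) ((ℓ + 2) / s) := by
  have hc1 : |c| ≤ 1 := by
    rw [abs_le]; constructor <;> nlinarith [sq_nonneg s]
  refine ⟨?_, fun x => ?_, ?_⟩
  · exact ((hΦ.meas_bar c s).stronglyMeasurable.integral_prod_right (ν := stdGaussian E)).measurable
  · unfold bar
    refine (abs_integral_le_integral_abs).trans ?_
    have := integral_mono (hΦ.int_bar c s x).abs (integrable_const (1 : ℝ))
      (fun z => hΦ.bd _ _)
    simpa using this
  · -- increments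
    have key : ∀ x h : E, |bar c s Φ (x + h) - bar c s Φ x| ≤ (ℓ + 2) / s * ‖h‖ := by
      intro x h
      set w : E := (c / s) • h with hw
      set F : E → ℝ := fun g => Φ (c • x + s • g) (s • x - c • g + (1 / s) • h) with hF
      have hFm : Measurable F := hΦ.meas.comp
        (by fun_prop : Measurable fun g : E => (c • x + s • g, s • x - c • g + (1 / s) • h))
      have hFb : ∀ g, |F g| ≤ 1 := fun g => hΦ.bd _ _
      have e1 : bar c s Φ (x + h) = ∫ g, F (g + w) ∂(stdGaussian E) := by
        unfold bar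
        congr 1; funext z
        simp only [hF, hw]
        congr 1
        · rw [smul_add, smul_add, smul_smul, mul_div_cancel₀ _ hs.ne']
          abel
        · rw [smul_add, smul_add, smul_smul, ← sub_sub, sub_add]
          rw [sub_sub_eq_add_sub, sub_eq_sub_iff_add_eq_add]
          have e3 : (1 / s) • h = s • h + (c * (c / s)) • h := by
            rw [← add_smul]
            congr 1
            field_simp
            nlinarith
          rw [e3]
          abel
      rw [integral_shift' hFm w] at e1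
      have iX := integrable_exp_lin w (‖w‖ ^ 2 / 2)
      have i1 : Integrable (fun g => F g * Real.exp (⟪w, g⟫ - ‖w‖ ^ 2 / 2)) (stdGaussian E) := by
        refine iX.mono' (hFm.mul (by fun_prop)).aestronglyMeasurable
          (Eventually.of_forall fun g => ?_)
        rw [norm_mul, Real.norm_eq_abs, Real.norm_eq_abs, abs_of_pos (Real.exp_pos _)]
        exact mul_le_of_le_one_left (Real.exp_pos _).le (hFb g)
      have i2 := hΦ.int_bar c s x
      have e2 : bar c s Φ (x + h) - bar c s Φ x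
          = ∫ g, (F g * Real.exp (⟪w, g⟫ - ‖w‖ ^ 2 / 2) - Φ (c • x + s • g) (s • x - c • g))
            ∂(stdGaussian E) := by
        rw [e1, integral_sub i1 i2]; rfl
      rw [e2]
      refine (abs_integral_le_integral_abs).trans ?_
      have iA : Integrable (fun g => |Real.exp (⟪w, g⟫ - ‖w‖ ^ 2 / 2) - 1|) (stdGaussian E) :=
        (iX.sub (integrable_const _)).abs
      have h3 : ∫ g, |F g * Real.exp (⟪w, g⟫ - ‖w‖ ^ 2 / 2) - Φ (c • x + s • g) (s • x - c • g)|
            ∂(stdGaussian E)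
          ≤ ∫ g, (|Real.exp (⟪w, g⟫ - ‖w‖ ^ 2 / 2) - 1| + ℓ * ((1 / s) * ‖h‖))
            ∂(stdGaussian E) := by
        refine integral_mono (i1.sub i2).abs (iA.add (integrable_const _)) fun g => ?_
        show |F g * Real.exp (⟪w, g⟫ - ‖w‖ ^ 2 / 2) - Φ (c • x + s • g) (s • x - c • g)|
          ≤ |Real.exp (⟪w, g⟫ - ‖w‖ ^ 2 / 2) - 1| + ℓ * ((1 / s) * ‖h‖)
        have e4 : F g * Real.exp (⟪w, g⟫ - ‖w‖ ^ 2 / 2) - Φ (c • x + s • g) (s • x - c • g)
            = F g * (Real.exp (⟪w, g⟫ - ‖w‖ ^ 2 / 2) - 1)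
              + (F g - Φ (c • x + s • g) (s • x - c • g)) := by ring
        rw [e4]
        refine (abs_add_le _ _).trans (add_le_add ?_ ?_)
        · rw [abs_mul]
          exact mul_le_of_le_one_left (abs_nonneg _) (hFb g)
        · have h5 := hΦ.lip (c • x + s • g) (s • x - c • g + (1 / s) • h) (s • x - c • g)
          rw [add_sub_cancel_left, norm_smul, Real.norm_eq_abs,
            abs_of_pos (by positivity : 0 < 1 / s)] at h5
          exact h5
      refine h3.trans ?_
      rw [integral_add iA (integrable_const _)]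
      have h6 := tv_shift w
      have h7 : ‖w‖ ≤ (1 / s) * ‖h‖ := by
        rw [hw, norm_smul, Real.norm_eq_abs, abs_div, abs_of_pos hs]
        apply mul_le_mul_of_nonneg_right _ (norm_nonneg _)
        exact div_le_div_of_nonneg_right hc1 hs.le
      simp only [integral_const, probReal_univ, smul_eq_mul, one_mul]
      have e5 : (ℓ + 2) / s * ‖h‖ = ℓ * ((1 / s) * ‖h‖) + 2 * ((1 / s) * ‖h‖) := by ring
      rw [e5]
      linarith
    intro x y
    have := key y (x - y)
    rwa [add_sub_cancel] at this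

/-- rotation invariance of the product Gaussian measure -/
lemma map_rot (c s : ℝ) (hcs : c ^ 2 + s ^ 2 = 1) :
    (gg E).map (fun p : E × E => (c • p.1 + s • p.2, s • p.1 - c • p.2)) = gg E := by
  obtain ⟨θ, hc, hs⟩ : ∃ θ : ℝ, Real.cos θ = c ∧ Real.sin θ = s := by
    refine ⟨Complex.arg ⟨c, s⟩, ?_, ?_⟩
    · have hn : ‖(⟨c, s⟩ : ℂ)‖ = 1 := by
        rw [Complex.norm_def, Complex.normSq_mk]
        rw [show c * c + s * s = 1 by nlinarith]
        simp
      rw [Complex.cos_arg (by intro h; rw [h] at hn; simp at hn), hn]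
      simp
    · have hn : ‖(⟨c, s⟩ : ℂ)‖ = 1 := by
        rw [Complex.norm_def, Complex.normSq_mk]
        rw [show c * c + s * s = 1 by nlinarith]
        simp
      rw [Complex.sin_arg, hn]
      simp
  have hneg : (stdGaussian E).map (fun x => -x) = stdGaussian E := by
    haveI : IsProbabilityMeasure ((stdGaussian E).map (fun x => -x)) :=
      Measure.isProbabilityMeasure_map (by fun_prop)
    apply Measure.ext_of_charFun
    funext t
    rw [charFun_apply, integral_map (by fun_prop) (by fun_prop)]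
    have e1 : ∀ x : E, Complex.exp (⟪-x, t⟫ * Complex.I)
        = Complex.exp (⟪x, -t⟫ * Complex.I) := by
      intro x; rw [inner_neg_left, inner_neg_right]
    simp_rw [e1]
    rw [← charFun_apply, charFun_stdGaussian, charFun_stdGaussian, norm_neg]
  have h0 : (stdGaussian E)[id] = 0 := by
    have h1 : ∫ x, id x ∂(stdGaussian E) = -∫ x, id x ∂(stdGaussian E) := by
      conv_lhs => rw [← hneg]
      rw [integral_map (by fun_prop) (by fun_prop)]
      simp only [id]
      rw [integral_neg]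
    have h2 : (2 : ℝ) • ∫ x, id x ∂(stdGaussian E) = 0 := by
      rw [two_smul]
      nth_rewrite 2 [h1]
      simp
    exact (smul_eq_zero.mp h2).resolve_left (by norm_num)
  have h1 := IsGaussian.map_rotation_eq_self (μ := stdGaussian E) h0 θ
  have h2 : (gg E).map (fun p : E × E => (p.1, -p.2)) = gg E := by
    have := Measure.map_prod_map (stdGaussian E) (stdGaussian E) (f := fun x : E => x)
      (g := fun x : E => -x) measurable_id (by fun_prop)
    rw [hneg] at this
    simp only [Measure.map_id'] at this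
    exact this.symm
  calc (gg E).map (fun p : E × E => (c • p.1 + s • p.2, s • p.1 - c • p.2))
      = ((gg E).map (ContinuousLinearMap.rotation θ)).map (fun p : E × E => (p.1, -p.2)) := by
        rw [Measure.map_map (by fun_prop) (by fun_prop)]
        congr 1
        funext p
        simp only [Function.comp, ContinuousLinearMap.rotation_apply, hc, hs]
        congr 1
        rw [neg_add, neg_smul, neg_neg, sub_eq_add_neg]
    _ = _ := by rw [h1, h2]

/-- integration against a kernel = integration against the averaged test function -/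
theorem ker_eq_bar {Φ : E → E → ℝ} {ℓ : ℝ} (hΦ : Ker Φ ℓ) {c s : ℝ} (hcs : c ^ 2 + s ^ 2 = 1)
    {f : E → ℝ} (hf : Measurable f) (hfb : ∀ x, |f x| ≤ 1) :
    ∫ p : E × E, f (c • p.1 + s • p.2) * Φ p.1 p.2 ∂(gg E)
      = ∫ x, f x * bar c s Φ x ∂(stdGaussian E) := by
  set G : E × E → ℝ := fun p => f (c • p.1 + s • p.2) * Φ p.1 p.2 with hG
  have hGm : Measurable G := (hf.comp (by fun_prop)).mul hΦ.meas
  conv_lhs => rw [← map_rot (E := E) c s hcs]
  rw [integral_map (by fun_prop) hGm.aestronglyMeasurable]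
  have e1 : ∀ p : E × E, G (c • p.1 + s • p.2, s • p.1 - c • p.2)
      = f p.1 * Φ (c • p.1 + s • p.2) (s • p.1 - c • p.2) := by
    intro p
    simp only [hG]
    congr 2
    rw [smul_add, smul_sub, smul_smul, smul_smul, smul_smul, smul_smul]
    have e2 : (c * c) • p.1 + (c * s) • p.2 + ((s * s) • p.1 - (s * c) • p.2)
        = (c * c + s * s) • p.1 := by
      rw [mul_comm s c, add_smul]; abel
    rw [e2, show c * c + s * s = 1 by nlinarith, one_smul]
  have hi : Integrable (fun p : E × E => f p.1 * Φ (c • p.1 + s • p.2) (s • p.1 - c • p.2))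
      (gg E) := by
    refine Integrable.of_bound ((hf.comp measurable_fst).mul (hΦ.meas_bar c s)).aestronglyMeasurable
      1 (Eventually.of_forall fun p => ?_)
    rw [norm_mul, Real.norm_eq_abs, Real.norm_eq_abs]
    exact mul_le_one₀ (hfb _) (abs_nonneg _) (hΦ.bd _ _)
  simp_rw [e1]
  rw [integral_prod _ hi]
  congr 1; funext x
  show ∫ y, f x * Φ (c • x + s • y) (s • x - c • y) ∂(stdGaussian E) = f x * bar c s Φ x
  rw [integral_const_mul]
  rfl

/-- **soft change of a field tested against a kernel at scale `s`** -/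
theorem Soft.ker {e e' : E → ℝ} (he : UI e) (he' : UI e') {a b : ℝ} (h : Soft e e' a b)
    {Φ : E → E → ℝ} {ℓ : ℝ} (hΦ : Ker Φ ℓ) (hℓ : 0 ≤ ℓ) {c s : ℝ} (hcs : c ^ 2 + s ^ 2 = 1)
    (hs : 0 < s) :
    |∫ p : E × E, (e' (c • p.1 + s • p.2) - e (c • p.1 + s • p.2)) * Φ p.1 p.2 ∂(gg E)|
      ≤ a + (ℓ + 2) / s * b := by
  have h1 := ker_eq_bar hΦ hcs (f := fun x => e' x - e x) (he'.meas.sub he.meas) (fun x => by
    have := he.nonneg x; have := he.le_one x
    have := he'.nonneg x; have := he'.le_one x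
    rw [abs_le]; constructor <;> linarith)
  rw [h1]
  exact h _ _ (by positivity) (hΦ.test_bar hℓ hcs hs)

end Vale.Agent.P262.H174
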