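import Vale.Agent.P262.H174.Soft2
import Vale.Agent.P262.H274.D8b

/-!
# P262, scheme S1: path bound, support bound and level estimate for softly moving fields
-/

set_option linter.unusedSectionVars false
set_option linter.unusedVariables false

namespace Vale.Agent.P262.H174

open MeasureTheory ProbabilityTheory Set Filter Topology
open scoped RealInnerProductSpace ENNReal
open Vale.Agent.P262.H847 Vale.Agent.P262.H912 Vale.Agent.P262.H941

variable {E : Type*} [NormedAddCommGroup E] [InnerProductSpace ℝ E] [FiniteDimensional ℝ E]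
  [MeasurableSpace E] [BorelSpace E]

/-- the kernel of a mode -/
lemma ker_mode {w : E → E} (hw : Measurable w) (hw1 : ∀ y, ‖w y‖ ≤ 1) :
    Ker (fun y g => Real.exp (-(1 / 2)) * (Real.sin ⟪g, w y⟫ * Real.exp (‖w y‖ ^ 2 / 2))) 1 := by
  have hx : ∀ y, Real.exp (-(1 / 2)) * Real.exp (‖w y‖ ^ 2 / 2) ≤ 1 := by
    intro y
    rw [← Real.exp_add]
    apply Real.exp_le_one_iff.mpr
    have := hw1 y
    have := norm_nonneg (w y)
    nlinarith
  refine ⟨?_, fun y g => ?_, fun y g g' => ?_⟩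
  · have h1 : Measurable (fun p : E × E => w p.1) := hw.comp measurable_fst
    have h2 : Measurable (fun p : E × E => ⟪p.2, w p.1⟫) := measurable_snd.inner h1
    exact ((Real.measurable_sin.comp h2).mul
      (Real.measurable_exp.comp ((h1.norm.pow_const 2).div_const 2))).const_mul _
  · have e1 : Real.exp (-(1 / 2)) * (Real.sin ⟪g, w y⟫ * Real.exp (‖w y‖ ^ 2 / 2))
        = (Real.exp (-(1 / 2)) * Real.exp (‖w y‖ ^ 2 / 2)) * Real.sin ⟪g, w y⟫ := by ring
    rw [e1, abs_mul, abs_of_pos (by positivity)]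
    exact mul_le_one₀ (hx y) (abs_nonneg _) (Real.abs_sin_le_one _)
  · have e1 : Real.exp (-(1 / 2)) * (Real.sin ⟪g, w y⟫ * Real.exp (‖w y‖ ^ 2 / 2))
        - Real.exp (-(1 / 2)) * (Real.sin ⟪g', w y⟫ * Real.exp (‖w y‖ ^ 2 / 2))
        = (Real.exp (-(1 / 2)) * Real.exp (‖w y‖ ^ 2 / 2))
          * (Real.sin ⟪g, w y⟫ - Real.sin ⟪g', w y⟫) := by ring
    rw [e1, abs_mul, abs_of_pos (by positivity), one_mul]
    have h1 : |Real.sin ⟪g, w y⟫ - Real.sin ⟪g', w y⟫| ≤ ‖g - g'‖ := by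
      have h2 := Real.abs_sin_sub_sin_le ⟪g, w y⟫ ⟪g', w y⟫
      refine h2.trans ?_
      rw [← inner_sub_left]
      refine (abs_real_inner_le_norm _ _).trans ?_
      exact mul_le_of_le_one_right (norm_nonneg _) (hw1 y)
    calc _ ≤ 1 * ‖g - g'‖ := mul_le_mul (hx y) h1 (abs_nonneg _) zero_le_one
      _ = _ := one_mul _

/-- soft change of a mode -/
lemma mode_soft {e e' : E → ℝ} (he : UI e) (he' : UI e') {a b : ℝ} (h : Soft e e' a b)
    {w : E → E} (hw : Measurable w) (hw1 : ∀ y, ‖w y‖ ≤ 1) {c s : ℝ} (hcs : c ^ 2 + s ^ 2 = 1)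
    (hs : 0 < s) :
    |mode e' c s w - mode e c s w| ≤ Real.exp (1 / 2) * (a + 3 / s * b) := by
  have h1 := h.ker he he' (ker_mode hw hw1) zero_le_one hcs hs
  have e1 : mode e' c s w - mode e c s w = Real.exp (1 / 2)
      * ∫ p : E × E, (e' (c • p.1 + s • p.2) - e (c • p.1 + s • p.2))
        * (Real.exp (-(1 / 2)) * (Real.sin ⟪p.2, w p.1⟫ * Real.exp (‖w p.1‖ ^ 2 / 2))) ∂(gg E) := by
    unfold mode
    rw [← integral_sub (integrable_mode he' hw hw1 c s) (integrable_mode he hw hw1 c s),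
      ← integral_const_mul]
    congr 1; funext p
    have e2 : Real.exp (1 / 2) * Real.exp (-(1 / 2)) = 1 := by
      rw [← Real.exp_add]; norm_num
    linear_combination (-(e' (c • p.1 + s • p.2) - e (c • p.1 + s • p.2))
      * (Real.sin ⟪p.2, w p.1⟫ * Real.exp (‖w p.1‖ ^ 2 / 2))) * e2
  rw [e1, abs_mul, abs_of_pos (Real.exp_pos _)]
  have h2 : (1 + 2) / s = 3 / s := by norm_num
  rw [h2] at h1
  exact mul_le_mul_of_nonneg_left h1 (Real.exp_pos _).le

/-- **Path bound** for softly moving fields. -/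
theorem path_bound' {e : ℕ → E → ℝ} (he : ∀ t, UI (e t)) {v : ℕ → E} {F : ℕ → ℝ} {c s : ℝ}
    (hcs : c ^ 2 + s ^ 2 = 1) (hs : 0 < s) {κ : ℕ → E → ℝ} (hκm : ∀ t, Measurable (κ t))
    (hκ : ∀ t y, |κ t y| ≤ 1) (n : ℕ) (hF : ∀ t < n, FluxLe (e t) (v t) (F t))
    {a b : ℕ → ℝ} (hab : ∀ t < n, Soft (e t) (e (t + 1)) (a t) (b t))
    (hw : ∀ t ≤ n, ∀ y, ‖∑ r ∈ Finset.range t, κ r y • v r‖ ≤ 1) :
    |mode (e n) c s (fun y => ∑ r ∈ Finset.range n, κ r y • v r)|
      ≤ Real.exp (1 / 2) * ∑ t ∈ Finset.range n, (s * F t + (a t + 3 / s * b t)) := by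
  have hwm : ∀ t, Measurable (fun y => ∑ r ∈ Finset.range t, κ r y • v r) := fun t =>
    Finset.measurable_sum _ fun r _ => (hκm r).smul_const (v r)
  induction n with
  | zero => simp [mode]
  | succ n ih =>
    have ih' := ih (fun t ht => hF t (Nat.lt_succ_of_lt ht)) (fun t ht => hab t (Nat.lt_succ_of_lt ht))
      (fun t ht => hw t (Nat.le_succ_of_le ht))
    have h1 := mode_step (he n) (hF n (Nat.lt_succ_self n)) hcs hs (hwm n) (hκm n) (hκ n)
      (hw n (Nat.le_succ n)) (fun y => by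
        have := hw (n + 1) le_rfl y
        rwa [Finset.sum_range_succ] at this)
    have h2 := mode_soft (he n) (he (n + 1)) (hab n (Nat.lt_succ_self n)) (hwm (n + 1))
      (hw (n + 1) le_rfl) hcs hs
    have e1 : (fun y => ∑ r ∈ Finset.range n, κ r y • v r + κ n y • v n)
        = fun y => ∑ r ∈ Finset.range (n + 1), κ r y • v r := by
      funext y; rw [Finset.sum_range_succ]
    rw [e1] at h1
    rw [Finset.sum_range_succ, mul_add]
    have h3 := abs_sub_abs_le_abs_sub (mode (e (n + 1)) c s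
      (fun y => ∑ r ∈ Finset.range (n + 1), κ r y • v r)) (mode (e n) c s
      (fun y => ∑ r ∈ Finset.range (n + 1), κ r y • v r))
    have h4 := abs_sub_abs_le_abs_sub (mode (e n) c s
      (fun y => ∑ r ∈ Finset.range (n + 1), κ r y • v r)) (mode (e n) c s
      (fun y => ∑ r ∈ Finset.range n, κ r y • v r))
    have h5 : s * Real.exp (1 / 2) * F n = Real.exp (1 / 2) * (s * F n) := by ring
    rw [mul_add]
    linarith

/-- the linearisation of the mode -/
theorem supp_mode {e : ℕ → E → ℝ} (he : ∀ t, UI (e t)) {v : ℕ → E} {c s : ℝ}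
    (hcs : c ^ 2 + s ^ 2 = 1) (hs : 0 < s) {κ : ℕ → E → ℝ} (hκm : ∀ t, Measurable (κ t))
    (n : ℕ) {N : ℝ}
    (hadm : ∀ y, Adm v n N (fun t => κ t y))
    (hpos : ∀ y, 0 ≤ ⟪∑ r ∈ Finset.range n, κ r y • v r, mom (e n) s (c • y)⟫)
    {ε T : ℝ} (hε : 0 < ε) (hε1 : ε ≤ 1) (hT : 1 ≤ T) {BB : ℝ}
    (hpath : |mode (e n) c s (fun y => ε • ∑ r ∈ Finset.range n, κ r y • v r)| ≤ BB) :
    ε * ∫ y, ⟪∑ r ∈ Finset.range n, κ r y • v r, mom (e n) s (c • y)⟫ ∂(stdGaussian E)
      ≤ BB
        + Real.exp (1 / 2) * (ε ^ 3 / 6 * (N ^ 3 * (8 * T ^ 3 * ∫ x, e n x ∂(stdGaussian E)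
            + 96 * Real.exp (-(T ^ 2 / 2))))) := by
  set w : E → E := fun y => ∑ r ∈ Finset.range n, κ r y • v r with hw
  have hN : 0 ≤ N := (norm_nonneg _).trans (hadm 0).final_le
  have hwm : Measurable w := Finset.measurable_sum _ fun r _ => (hκm r).smul_const (v r)
  have hw1 : ∀ y, ‖w y‖ ≤ 1 := fun y => (hadm y).partial_le n le_rfl
  have hwN : ∀ y, ‖w y‖ ≤ N := fun y => (hadm y).final_le
  have hwe : (fun y => ∑ r ∈ Finset.range n, (ε * κ r y) • v r) = fun y => ε • w y := by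
    funext y
    rw [hw, Finset.smul_sum]
    exact Finset.sum_congr rfl fun r _ => by rw [mul_smul]
  -- the mode from below
  have hεw : ∀ y, ‖ε • w y‖ ≤ 1 := fun y => by
    rw [norm_smul, Real.norm_eq_abs, abs_of_pos hε]
    exact mul_le_one₀ hε1 (norm_nonneg _) (hw1 y)
  have hmi := integrable_mode (he n) (w := fun y => ε • w y) (hwm.const_smul ε) hεw c s
  have hfy : ∀ y, UI (fun g => e n (c • y + s • g)) := fun y => UI.comp (he n) (by fun_prop)
  have hD : ∫ y, ∫ g, e n (c • y + s • g) ∂(stdGaussian E) ∂(stdGaussian E)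
      = ∫ x, e n x ∂(stdGaussian E) := by
    have := integral_add_smul' (a := c) (b := s) (c := 1) (by rw [hcs]; norm_num) (he n).meas
      (B := 1) (fun x => by rw [abs_of_nonneg ((he n).nonneg x)]; exact (he n).le_one x)
    simpa using this
  have hDm : UI (fun y => ∫ g, e n (c • y + s • g) ∂(stdGaussian E)) :=
    UI.integral (E := E) (F := E) (f := fun p : E × E => e n (c • p.1 + s • p.2))
      (UI.comp (he n) (by fun_prop)) (stdGaussian E)
  set K3 : ℝ := Real.exp (1 / 2) * (ε ^ 3 / 6) * N ^ 3 with hK3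
  have hK30 : 0 ≤ K3 := by positivity
  have hpt : ∀ y, ε * ⟪w y, mom (e n) s (c • y)⟫
      - K3 * (8 * T ^ 3 * ∫ g, e n (c • y + s • g) ∂(stdGaussian E)
          + 96 * Real.exp (-(T ^ 2 / 2)))
      ≤ ∫ g, e n (c • y + s • g) * (Real.sin ⟪g, ε • w y⟫ * Real.exp (‖ε • w y‖ ^ 2 / 2))
        ∂(stdGaussian E) := by
    intro y
    set Z := Real.exp (‖ε • w y‖ ^ 2 / 2) with hZ
    have hZ1 : 1 ≤ Z := Real.one_le_exp (by positivity)
    have hZ2 : Z ≤ Real.exp (1 / 2) := by
      apply Real.exp_le_exp.mpr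
      have := hεw y
      have := norm_nonneg (ε • w y)
      nlinarith
    have hin : ⟪w y, mom (e n) s (c • y)⟫ = ∫ g, e n (c • y + s • g) * ⟪g, w y⟫ ∂(stdGaussian E) := by
      have h1 := (innerSL ℝ (w y)).integral_comp_comm (UI.integrable_smul (hfy y))
      simp only [innerSL_apply_apply] at h1
      rw [mom, ← h1]
      congr 1; funext g
      rw [real_inner_smul_right, real_inner_comm]
    have hi1 : Integrable (fun g => e n (c • y + s • g) * ⟪g, w y⟫) (stdGaussian E) := by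
      refine (integrable_inner (w y)).norm.mono' ((hfy y).meas.mul (by fun_prop)).aestronglyMeasurable
        (Eventually.of_forall fun g => ?_)
      rw [norm_mul, Real.norm_eq_abs, abs_of_nonneg ((hfy y).nonneg g), real_inner_comm]
      exact mul_le_of_le_one_left (norm_nonneg _) ((hfy y).le_one g)
    have hi3 : Integrable (fun g => e n (c • y + s • g) * |⟪g, w y⟫| ^ 3) (stdGaussian E) := by
      refine (integrable_cube (w y)).mono' ((hfy y).meas.mul (by fun_prop)).aestronglyMeasurable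
        (Eventually.of_forall fun g => ?_)
      rw [Real.norm_eq_abs, abs_mul, abs_of_nonneg ((hfy y).nonneg g), abs_of_nonneg (by positivity)]
      exact mul_le_of_le_one_left (by positivity) ((hfy y).le_one g)
    have his : Integrable (fun g => e n (c • y + s • g) * Real.sin ⟪g, ε • w y⟫)
        (stdGaussian E) := by
      refine Integrable.of_bound ((hfy y).meas.mul (by fun_prop)).aestronglyMeasurable 1
        (Eventually.of_forall fun g => ?_)
      rw [norm_mul, Real.norm_eq_abs, abs_of_nonneg ((hfy y).nonneg g), Real.norm_eq_abs]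
      exact mul_le_one₀ ((hfy y).le_one g) (abs_nonneg _) (Real.abs_sin_le_one _)
    have h1 : ε * ∫ g, e n (c • y + s • g) * ⟪g, w y⟫ ∂(stdGaussian E)
        - ε ^ 3 / 6 * ∫ g, e n (c • y + s • g) * |⟪g, w y⟫| ^ 3 ∂(stdGaussian E)
        ≤ ∫ g, e n (c • y + s • g) * Real.sin ⟪g, ε • w y⟫ ∂(stdGaussian E) := by
      rw [← integral_const_mul, ← integral_const_mul, ← integral_sub (hi1.const_mul ε)
        (hi3.const_mul _)]
      apply integral_mono ((hi1.const_mul ε).sub (hi3.const_mul _)) his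
      intro g
      show ε * (e n (c • y + s • g) * ⟪g, w y⟫)
          - ε ^ 3 / 6 * (e n (c • y + s • g) * |⟪g, w y⟫| ^ 3)
          ≤ e n (c • y + s • g) * Real.sin ⟪g, ε • w y⟫
      rw [real_inner_smul_right]
      have h2 := (hfy y).nonneg g
      set u := ε * ⟪g, w y⟫ with hu
      have h3 : u - |u| ^ 3 / 6 ≤ Real.sin u := by
        rcases le_total 0 u with h | h
        · rw [abs_of_nonneg h]
          have := Real.sin_ge_sub_cube h
          linarith
        · rw [abs_of_nonpos h]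
          have := Real.sin_le (neg_nonneg.mpr h)
          rw [Real.sin_neg] at this
          have h4 : 0 ≤ (-u) ^ 3 := by
            have : 0 ≤ -u := by linarith
            positivity
          linarith
      have h5 : |u| ^ 3 = ε ^ 3 * |⟪g, w y⟫| ^ 3 := by
        rw [hu, abs_mul, abs_of_pos hε, mul_pow]
      rw [h5] at h3
      have h6 := mul_le_mul_of_nonneg_left h3 h2
      have h7 : ε * (e n (c • y + s • g) * ⟪g, w y⟫)
          - ε ^ 3 / 6 * (e n (c • y + s • g) * |⟪g, w y⟫| ^ 3)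
          = e n (c • y + s • g) * (u - ε ^ 3 * |⟪g, w y⟫| ^ 3 / 6) := by rw [hu]; ring
      rw [h7]; exact h6
    have h8 : ∫ g, e n (c • y + s • g) * (Real.sin ⟪g, ε • w y⟫ * Z) ∂(stdGaussian E)
        = Z * ∫ g, e n (c • y + s • g) * Real.sin ⟪g, ε • w y⟫ ∂(stdGaussian E) := by
      rw [← integral_const_mul]
      congr 1; funext g; ring
    rw [h8]
    have h9 := cube_bound (hfy y) (hwN y) hT
    have hp := hpos y
    rw [← hin] at h1
    have hp' : 0 ≤ ε * ⟪w y, mom (e n) s (c • y)⟫ := mul_nonneg hε.le hp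
    set S := ∫ g, e n (c • y + s • g) * Real.sin ⟪g, ε • w y⟫ ∂(stdGaussian E) with hS
    set Q := ∫ g, e n (c • y + s • g) * |⟪g, w y⟫| ^ 3 ∂(stdGaussian E) with hQ
    have hQ0 : 0 ≤ Q := integral_nonneg fun g => mul_nonneg ((hfy y).nonneg g) (by positivity)
    set a := ε * ⟪w y, mom (e n) s (c • y)⟫ with ha
    -- Z S ≥ Z (a - ε³/6 Q) ≥ a - √e ε³/6 Q
    have h10 : Z * (a - ε ^ 3 / 6 * Q) ≤ Z * S := mul_le_mul_of_nonneg_left h1 (by linarith)
    have h11 : a - Real.exp (1 / 2) * (ε ^ 3 / 6 * Q) ≤ Z * (a - ε ^ 3 / 6 * Q) := by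
      have h12 : 0 ≤ ε ^ 3 / 6 * Q := by positivity
      nlinarith [mul_le_mul_of_nonneg_right hZ2 h12, mul_nonneg (sub_nonneg.mpr hZ1) hp']
    have h13 : Real.exp (1 / 2) * (ε ^ 3 / 6 * Q)
        ≤ K3 * (8 * T ^ 3 * ∫ g, e n (c • y + s • g) ∂(stdGaussian E)
          + 96 * Real.exp (-(T ^ 2 / 2))) := by
      have h14 := mul_le_mul_of_nonneg_left h9 (show 0 ≤ Real.exp (1 / 2) * (ε ^ 3 / 6) by positivity)
      rw [hK3]
      calc Real.exp (1 / 2) * (ε ^ 3 / 6 * Q) = Real.exp (1 / 2) * (ε ^ 3 / 6) * Q := by ring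
        _ ≤ _ := h14
        _ = _ := by ring
    linarith
  -- integrate
  have hmode : ∫ y, ∫ g, e n (c • y + s • g)
        * (Real.sin ⟪g, ε • w y⟫ * Real.exp (‖ε • w y‖ ^ 2 / 2)) ∂(stdGaussian E) ∂(stdGaussian E)
      = mode (e n) c s (fun y => ε • w y) := by
    unfold mode
    rw [integral_prod _ hmi]
  have hiL : Integrable (fun y => ⟪w y, mom (e n) s (c • y)⟫) (stdGaussian E) := by
    refine Integrable.of_bound (hwm.inner ((measurable_mom (he n) s).comp
      (by fun_prop))).aestronglyMeasurable 1 (Eventually.of_forall fun y => ?_)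
    refine (norm_inner_le_norm _ _).trans ?_
    exact mul_le_one₀ (hw1 y) (norm_nonneg _) ((norm_mom_le (he n) s _).trans (Ip_le_one _))
  have hiD := (hDm.integrable (stdGaussian E))
  have hint : ∫ y, (ε * ⟪w y, mom (e n) s (c • y)⟫
      - K3 * (8 * T ^ 3 * ∫ g, e n (c • y + s • g) ∂(stdGaussian E)
          + 96 * Real.exp (-(T ^ 2 / 2)))) ∂(stdGaussian E)
      ≤ mode (e n) c s (fun y => ε • w y) := by
    rw [← hmode]
    refine integral_mono ((hiL.const_mul ε).sub (((hiD.const_mul _).add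
      (integrable_const _)).const_mul K3)) hmi.integral_prod_left hpt
  have hiD2 : Integrable (fun y => 8 * T ^ 3 * ∫ g, e n (c • y + s • g) ∂(stdGaussian E)
      + 96 * Real.exp (-(T ^ 2 / 2))) (stdGaussian E) := (hiD.const_mul _).add (integrable_const _)
  rw [integral_sub (hiL.const_mul ε) (hiD2.const_mul K3),
    integral_const_mul, integral_const_mul, integral_add (hiD.const_mul _) (integrable_const _),
    integral_const_mul, hD] at hint
  simp only [integral_const, probReal_univ, smul_eq_mul, one_mul] at hint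
  have h20 := (le_abs_self _).trans hpath
  have h21 : K3 * (8 * T ^ 3 * ∫ x, e n x ∂(stdGaussian E) + 96 * Real.exp (-(T ^ 2 / 2)))
      = Real.exp (1 / 2) * (ε ^ 3 / 6 * (N ^ 3 * (8 * T ^ 3 * ∫ x, e n x ∂(stdGaussian E)
            + 96 * Real.exp (-(T ^ 2 / 2))))) := by rw [hK3]; ring
  linarith


/-- **Support function bound** for softly moving fields, measurable selection. -/
theorem supp_sel' {e : ℕ → E → ℝ} (he : ∀ t, UI (e t)) {v : ℕ → E} {F : ℕ → ℝ} {c s : ℝ}
    (hcs : c ^ 2 + s ^ 2 = 1) (hs : 0 < s) {κ : ℕ → E → ℝ} (hκm : ∀ t, Measurable (κ t))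
    (n : ℕ) (hF : ∀ t < n, FluxLe (e t) (v t) (F t))
    {a b : ℕ → ℝ} (hab : ∀ t < n, Soft (e t) (e (t + 1)) (a t) (b t)) {N : ℝ}
    (hadm : ∀ y, Adm v n N (fun t => κ t y))
    (hpos : ∀ y, 0 ≤ ⟪∑ r ∈ Finset.range n, κ r y • v r, mom (e n) s (c • y)⟫)
    {ε T : ℝ} (hε : 0 < ε) (hε1 : ε ≤ 1) (hT : 1 ≤ T) :
    ε * ∫ y, ⟪∑ r ∈ Finset.range n, κ r y • v r, mom (e n) s (c • y)⟫ ∂(stdGaussian E)
      ≤ Real.exp (1 / 2) * ∑ t ∈ Finset.range n, (s * F t + (a t + 3 / s * b t))
        + Real.exp (1 / 2) * (ε ^ 3 / 6 * (N ^ 3 * (8 * T ^ 3 * ∫ x, e n x ∂(stdGaussian E)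
            + 96 * Real.exp (-(T ^ 2 / 2))))) := by
  refine supp_mode he hcs hs hκm n hadm hpos hε hε1 hT ?_
  have hpath := path_bound' he hcs hs (v := v) (F := F) (κ := fun t y => ε * κ t y)
    (fun t => (hκm t).const_mul ε) (fun t y => by
      rw [abs_mul, abs_of_pos hε]
      exact mul_le_one₀ hε1 (abs_nonneg _) ((hadm y).abs_le t)) n hF hab
    (fun t ht y => by
      have h1 : ∑ r ∈ Finset.range t, (ε * κ r y) • v r
          = ε • ∑ r ∈ Finset.range t, κ r y • v r := by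
        rw [Finset.smul_sum]
        exact Finset.sum_congr rfl fun r _ => by rw [mul_smul]
      rw [h1, norm_smul, Real.norm_eq_abs, abs_of_pos hε]
      exact mul_le_one₀ hε1 (norm_nonneg _) ((hadm y).partial_le t ht))
  have hwe : (fun y => ∑ r ∈ Finset.range n, (ε * κ r y) • v r)
      = fun y => ε • ∑ r ∈ Finset.range n, κ r y • v r := by
    funext y
    rw [Finset.smul_sum]
    exact Finset.sum_congr rfl fun r _ => by rw [mul_smul]
  rwa [hwe] at hpath

end Vale.Agent.P262.H174
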