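import Vale.Agent.P262.H174.Soft3

/-!
# P262, scheme S1: support bound and change of the first moments for softly moving fields
-/

set_option linter.unusedSectionVars false
set_option linter.unusedVariables false

namespace Vale.Agent.P262.H174

open MeasureTheory ProbabilityTheory Set Filter Topology
open scoped RealInnerProductSpace ENNReal
open Vale.Agent.P262.H847 Vale.Agent.P262.H912 Vale.Agent.P262.H941

variable {E : Type*} [NormedAddCommGroup E] [InnerProductSpace ℝ E] [FiniteDimensional ℝ E]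
  [MeasurableSpace E] [BorelSpace E]

/-- **Support function bound** for softly moving fields. -/
theorem supp_bound' {e : ℕ → E → ℝ} (he : ∀ t, UI (e t)) {v : ℕ → E} {F : ℕ → ℝ} {c s : ℝ}
    (hcs : c ^ 2 + s ^ 2 = 1) (hs : 0 < s) (hs1 : s ≤ 1)
    (n : ℕ) (hF : ∀ t < n, FluxLe (e t) (v t) (F t))
    {a b : ℕ → ℝ} (hab : ∀ t < n, Soft (e t) (e (t + 1)) (a t) (b t)) {N : ℝ} (hN : 0 ≤ N)
    {P : E →L[ℝ] E} {lam : ℝ}
    (hP : ∀ m : E, ∀ δ : ℝ, 0 < δ → ∃ κ, Adm v n N κ ∧
      lam * ‖P m‖ ≤ ⟪∑ r ∈ Finset.range n, κ r • v r, m⟫ + δ)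
    {ε T : ℝ} (hε : 0 < ε) (hε1 : ε ≤ 1) (hT : 1 ≤ T) :
    ε * (lam * ∫ y, ‖P (mom (e n) s (c • y))‖ ∂(stdGaussian E))
      ≤ Real.exp (1 / 2) * ∑ t ∈ Finset.range n, (F t + (a t + 3 / s * b t))
        + Real.exp (1 / 2) * (ε ^ 3 / 6 * (N ^ 3 * (8 * T ^ 3 * ∫ x, e n x ∂(stdGaussian E)
            + 96 * Real.exp (-(T ^ 2 / 2))))) := by
  apply le_of_forall_pos_le_add
  intro δ hδ
  set δ' := δ / 2 with hδ'
  have hδ'0 : 0 < δ' := by positivity
  set 𝒲 : Set E := {w | ∃ κ, Adm v n N κ ∧ w = ∑ r ∈ Finset.range n, κ r • v r} with h𝒲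
  have htb : TotallyBounded 𝒲 := by
    refine (isCompact_closedBall (0:E) 1).totallyBounded.subset ?_
    rintro w ⟨κ, hκ, rfl⟩
    rw [mem_closedBall_zero_iff]
    exact hκ.partial_le n le_rfl
  obtain ⟨t, ht, htf, htc⟩ := Metric.finite_approx_of_totallyBounded htb δ' hδ'0
  -- coefficients of the net
  have hch : ∀ w ∈ t, ∃ κ, Adm v n N κ ∧ w = ∑ r ∈ Finset.range n, κ r • v r := fun w hw => ht hw
  choose! cf hcf using hch
  set L : List (ℕ → ℝ) := (htf.toFinset.toList).map cf with hL
  have hLadm : ∀ κ ∈ L, Adm v n N κ := by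
    intro κ hκ
    rw [hL, List.mem_map] at hκ
    obtain ⟨w, hw, rfl⟩ := hκ
    rw [Finset.mem_toList, Set.Finite.mem_toFinset] at hw
    exact (hcf w hw).1
  set M : E → E := fun y => mom (e n) s (c • y) with hM
  have hMm : Measurable M := (measurable_mom (he n) s).comp (by fun_prop)
  obtain ⟨κ, h1, h2, h3, h4⟩ := exists_selection hMm L hLadm hN
  have hsel := supp_sel' he hcs hs h1 n hF hab h2 h3 hε hε1 hT
  -- comparison
  have hcmp : ∀ y, lam * ‖P (M y)‖
      ≤ ⟪∑ r ∈ Finset.range n, κ r y • v r, M y⟫ + 2 * δ' := by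
    intro y
    obtain ⟨κ', hκ', hle⟩ := hP (M y) δ' hδ'0
    have hw' : (∑ r ∈ Finset.range n, κ' r • v r) ∈ 𝒲 := ⟨κ', hκ', rfl⟩
    obtain ⟨w, hw⟩ := mem_iUnion.mp (htc hw')
    obtain ⟨hwt, hwd⟩ := mem_iUnion.mp hw
    have h5 := h4 (cf w) (by
      rw [hL, List.mem_map]
      exact ⟨w, by rw [Finset.mem_toList, Set.Finite.mem_toFinset]; exact hwt, rfl⟩) y
    rw [← (hcf w hwt).2] at h5
    have h6 : ⟪∑ r ∈ Finset.range n, κ' r • v r, M y⟫ ≤ ⟪w, M y⟫ + δ' := by
      have h7 : ⟪∑ r ∈ Finset.range n, κ' r • v r, M y⟫ - ⟪w, M y⟫ ≤ δ' := by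
        rw [← inner_sub_left]
        refine (real_inner_le_norm _ _).trans ?_
        have h8 : ‖∑ r ∈ Finset.range n, κ' r • v r - w‖ ≤ δ' := by
          rw [← dist_eq_norm]; exact (Metric.mem_ball.mp hwd).le
        have h9 := norm_mom_le_one (he n) s (c • y)
        calc _ ≤ δ' * 1 := mul_le_mul h8 h9 (norm_nonneg _) hδ'0.le
          _ = δ' := mul_one _
      linarith
    linarith
  have hwm : Measurable (fun y => ∑ r ∈ Finset.range n, κ r y • v r) :=
    Finset.measurable_sum _ fun r _ => (h1 r).smul_const (v r)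
  have hi1 : Integrable (fun y => ⟪∑ r ∈ Finset.range n, κ r y • v r, M y⟫) (stdGaussian E) := by
    refine Integrable.of_bound (hwm.inner hMm).aestronglyMeasurable 1
      (Eventually.of_forall fun y => ?_)
    refine (norm_inner_le_norm _ _).trans ?_
    exact mul_le_one₀ ((h2 y).partial_le n le_rfl) (norm_nonneg _) (norm_mom_le_one (he n) s _)
  have hi2 := (integrable_norm_mom (he n) P c s).const_mul lam
  have hint : lam * ∫ y, ‖P (M y)‖ ∂(stdGaussian E)
      ≤ ∫ y, ⟪∑ r ∈ Finset.range n, κ r y • v r, M y⟫ ∂(stdGaussian E) + 2 * δ' := by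
    rw [← integral_const_mul]
    have : ∫ y, (⟪∑ r ∈ Finset.range n, κ r y • v r, M y⟫ + 2 * δ') ∂(stdGaussian E)
        = ∫ y, ⟪∑ r ∈ Finset.range n, κ r y • v r, M y⟫ ∂(stdGaussian E) + 2 * δ' := by
      rw [integral_add hi1 (integrable_const _)]; simp
    rw [← this]
    exact integral_mono hi2 (hi1.add (integrable_const _)) hcmp
  have hFs : ∑ t ∈ Finset.range n, (s * F t + (a t + 3 / s * b t))
      ≤ ∑ t ∈ Finset.range n, (F t + (a t + 3 / s * b t)) := by
    apply Finset.sum_le_sum
    intro t ht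
    have h0 := (hF t (Finset.mem_range.mp ht)).nonneg
    nlinarith
  have hexp := Real.exp_pos (1 / 2 : ℝ)
  have h10 := mul_le_mul_of_nonneg_left hint hε.le
  have h11 := mul_le_mul_of_nonneg_left hFs hexp.le
  have h12 : ε * (2 * δ') ≤ δ := by rw [hδ']; nlinarith
  have h13 : ε * (∫ y, ⟪∑ r ∈ Finset.range n, κ r y • v r, M y⟫ ∂(stdGaussian E) + 2 * δ')
      = ε * ∫ y, ⟪∑ r ∈ Finset.range n, κ r y • v r, M y⟫ ∂(stdGaussian E) + ε * (2 * δ') := by
    ring
  rw [h13] at h10
  linarith


/-- the clipped linear kernel -/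
lemma ker_clip {β : E → E} (hβ : Measurable β) (hβ1 : ∀ y, ‖β y‖ ≤ 1) {T : ℝ} (hT : 1 ≤ T) :
    Ker (fun y g => max (-(2 * T)) (min (2 * T) ⟪β y, g⟫) / (2 * T)) 1 := by
  have hT2 : 0 < 2 * T := by linarith
  refine ⟨?_, fun y g => ?_, fun y g g' => ?_⟩
  · have h1 : Measurable (fun p : E × E => β p.1) := hβ.comp measurable_fst
    have h2 : Measurable (fun p : E × E => ⟪β p.1, p.2⟫) := h1.inner measurable_snd
    exact ((measurable_const.max (measurable_const.min h2))).div_const _
  · rw [abs_div, abs_of_pos hT2, div_le_one hT2, abs_le]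
    refine ⟨le_max_left _ _, max_le (by linarith) (min_le_left _ _)⟩
  · rw [← sub_div, abs_div, abs_of_pos hT2, div_le_iff₀ hT2]
    have h1 : |max (-(2 * T)) (min (2 * T) ⟪β y, g⟫) - max (-(2 * T)) (min (2 * T) ⟪β y, g'⟫)|
        ≤ |⟪β y, g⟫ - ⟪β y, g'⟫| := by
      refine (abs_max_sub_max_le_max _ _ _ _).trans ?_
      refine max_le (by simp) ?_
      refine (abs_min_sub_min_le_max _ _ _ _).trans ?_
      exact max_le (by simp) le_rfl
    have h2 : |⟪β y, g⟫ - ⟪β y, g'⟫| ≤ ‖g - g'‖ := by
      rw [← inner_sub_right]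
      refine (abs_real_inner_le_norm _ _).trans ?_
      exact mul_le_of_le_one_left (norm_nonneg _) (hβ1 y)
    have h3 := norm_nonneg (g - g')
    nlinarith

/-- change of the first moments when the field changes softly -/
theorem mom_change' {f g : E → ℝ} (hf : UI f) (hg : UI g) {a b : ℝ} (hab : Soft f g a b)
    {c s : ℝ} (hcs : c ^ 2 + s ^ 2 = 1) (hs : 0 < s) {T : ℝ} (hT : 1 ≤ T) :
    ∫ y, ‖mom f s (c • y) - mom g s (c • y)‖ ∂(stdGaussian E)
      ≤ 2 * T * (a + 3 / s * b) + 12 * Real.exp (-(T ^ 2 / 2)) := by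
  have hT2 : 0 < 2 * T := by linarith
  set m : E → E := fun y => mom g s (c • y) - mom f s (c • y) with hm
  have hmm : Measurable m := ((measurable_mom hg s).comp (by fun_prop)).sub
    ((measurable_mom hf s).comp (by fun_prop))
  set β : E → E := fun y => ‖m y‖⁻¹ • m y with hβ
  have hβm : Measurable β := (hmm.norm.inv).smul hmm
  have hβ1 : ∀ y, ‖β y‖ ≤ 1 := by
    intro y
    rw [hβ]; simp only []
    rw [norm_smul, norm_inv, norm_norm]
    rcases eq_or_ne ‖m y‖ 0 with h | h
    · rw [h]; simp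
    · rw [inv_mul_cancel₀ h]
  obtain ⟨Φ, hΦ⟩ : ∃ Φ : E → E → ℝ,
      Φ = fun y z => max (-(2 * T)) (min (2 * T) ⟪β y, z⟫) / (2 * T) := ⟨_, rfl⟩
  have hker : Ker Φ 1 := by rw [hΦ]; exact ker_clip hβm hβ1 hT
  have hmain := hab.ker hf hg hker zero_le_one hcs hs
  have hmI : Integrable (fun y => ‖m y‖) (stdGaussian E) := by
    have h1 := integrable_norm_mom hg (ContinuousLinearMap.id ℝ E) c s
    have h2 := integrable_norm_mom hf (ContinuousLinearMap.id ℝ E) c s
    refine (h1.add h2).mono' hmm.norm.aestronglyMeasurable (Eventually.of_forall fun y => ?_)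
    rw [norm_norm]
    exact norm_sub_le _ _
  have hfg : Measurable (fun p : E × E => g (c • p.1 + s • p.2) - f (c • p.1 + s • p.2)) :=
    (hg.meas.comp (by fun_prop)).sub (hf.meas.comp (by fun_prop))
  have hfgb : ∀ x, |g x - f x| ≤ 1 := fun x => by
    have := hf.nonneg x; have := hf.le_one x
    have := hg.nonneg x; have := hg.le_one x
    rw [abs_le]; constructor <;> linarith
  have hI : Integrable (fun p : E × E => (g (c • p.1 + s • p.2) - f (c • p.1 + s • p.2))
      * Φ p.1 p.2) (gg E) := by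
    refine Integrable.of_bound (hfg.mul hker.meas).aestronglyMeasurable 1
      (Eventually.of_forall fun p => ?_)
    rw [norm_mul, Real.norm_eq_abs, Real.norm_eq_abs]
    exact mul_le_one₀ (hfgb _) (abs_nonneg _) (hker.bd _ _)
  have hpt : ∀ y, ‖m y‖ ≤ 2 * T * ∫ z, (g (c • y + s • z) - f (c • y + s • z)) * Φ y z
      ∂(stdGaussian E) + 12 * Real.exp (-(T ^ 2 / 2)) := by
    intro y
    have hfy : UI (fun z => f (c • y + s • z)) := UI.comp hf (by fun_prop)
    have hgy : UI (fun z => g (c • y + s • z)) := UI.comp hg (by fun_prop)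
    have hΦy : Measurable (Φ y) := hker.meas.of_uncurry_left
    rcases eq_or_ne (m y) 0 with h0 | h0
    · have hb0 : β y = 0 := by rw [hβ]; simp only []; rw [h0, smul_zero]
      have hΦ0 : ∀ z, Φ y z = 0 := by
        intro z
        rw [hΦ]
        simp only [hb0, inner_zero_left]
        rw [min_eq_right hT2.le, max_eq_right (by linarith), zero_div]
      simp only [hΦ0, mul_zero, integral_zero, h0, norm_zero]
      positivity
    have hm0 : 0 < ‖m y‖ := norm_pos_iff.mpr h0
    have hb1 : ‖β y‖ = 1 := by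
      rw [hβ]; simp only []
      rw [norm_smul, norm_inv, norm_norm, inv_mul_cancel₀ hm0.ne']
    have hi0 := (UI.integrable_smul hgy).sub (UI.integrable_smul hfy)
    have e1 : m y = ∫ z, (g (c • y + s • z) • z - f (c • y + s • z) • z) ∂(stdGaussian E) := by
      rw [integral_sub (UI.integrable_smul hgy) (UI.integrable_smul hfy)]; rfl
    have e2 : ‖m y‖ = ∫ z, (g (c • y + s • z) - f (c • y + s • z)) * ⟪β y, z⟫ ∂(stdGaussian E) := by
      have h1 : ‖m y‖ = ⟪β y, m y⟫ := by
        rw [hβ]; simp only []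
        rw [real_inner_smul_left, real_inner_self_eq_norm_sq]; field_simp
      have h2 := (innerSL ℝ (β y)).integral_comp_comm hi0
      simp only [innerSL_apply_apply, Pi.sub_apply] at h2
      rw [h1, e1, ← h2]
      congr 1; funext z
      rw [← sub_smul, real_inner_smul_right]
    have hdm : Measurable (fun z => g (c • y + s • z) - f (c • y + s • z)) :=
      hgy.meas.sub hfy.meas
    have hi1 : Integrable (fun z => (g (c • y + s • z) - f (c • y + s • z)) * Φ y z)
        (stdGaussian E) := by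
      refine Integrable.of_bound (hdm.mul hΦy).aestronglyMeasurable 1
        (Eventually.of_forall fun z => ?_)
      rw [norm_mul, Real.norm_eq_abs, Real.norm_eq_abs]
      exact mul_le_one₀ (hfgb _) (abs_nonneg _) (hker.bd _ _)
    have hi2 := (integrable_exp_sq_unit hb1).const_mul (8 * Real.exp (-(T ^ 2 / 2)))
    have hi3 : Integrable (fun z => (g (c • y + s • z) - f (c • y + s • z)) * ⟪β y, z⟫)
        (stdGaussian E) := by
      refine (integrable_inner (β y)).norm.mono' (hdm.mul (by fun_prop)).aestronglyMeasurable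
        (Eventually.of_forall fun z => ?_)
      rw [norm_mul, Real.norm_eq_abs]
      exact mul_le_of_le_one_left (norm_nonneg _) (hfgb _)
    have h3 : ∫ z, (g (c • y + s • z) - f (c • y + s • z)) * ⟪β y, z⟫ ∂(stdGaussian E)
        ≤ ∫ z, (2 * T * ((g (c • y + s • z) - f (c • y + s • z)) * Φ y z)
          + 8 * Real.exp (-(T ^ 2 / 2)) * Real.exp (1 / 2 * ⟪β y, z⟫ ^ 2 / 2))
            ∂(stdGaussian E) := by
      apply integral_mono hi3 ((hi1.const_mul (2 * T)).add hi2)
      intro z
      show (g (c • y + s • z) - f (c • y + s • z)) * ⟪β y, z⟫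
        ≤ 2 * T * ((g (c • y + s • z) - f (c • y + s • z)) * Φ y z)
          + 8 * Real.exp (-(T ^ 2 / 2)) * Real.exp (1 / 2 * ⟪β y, z⟫ ^ 2 / 2)
      set r := ⟪β y, z⟫ with hr
      have h4 := abs_le_tail (x := r) hT
      have h7 : 0 ≤ 8 * Real.exp (-(T ^ 2 / 2)) * Real.exp (1 / 2 * r ^ 2 / 2) := by
        positivity
      have h5 : |r - max (-(2 * T)) (min (2 * T) r)|
          ≤ 8 * Real.exp (-(T ^ 2 / 2)) * Real.exp (1 / 2 * r ^ 2 / 2) := by
        rcases le_total r (-(2 * T)) with h | h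
        · have e3 : max (-(2 * T)) (min (2 * T) r) = -(2 * T) := by
            rw [min_eq_right (by linarith), max_eq_left h]
          rw [e3]
          rw [abs_of_nonpos (by linarith : r ≤ 0)] at h4
          rw [abs_of_nonpos (by linarith)]
          linarith
        · rcases le_total r (2 * T) with h' | h'
          · have e3 : max (-(2 * T)) (min (2 * T) r) = r := by
              rw [min_eq_right h', max_eq_right h]
            rw [e3, sub_self, abs_zero]
            exact h7
          · have e3 : max (-(2 * T)) (min (2 * T) r) = 2 * T := by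
              rw [min_eq_left h', max_eq_right (by linarith)]
            rw [e3]
            rw [abs_of_nonneg (by linarith : 0 ≤ r)] at h4
            rw [abs_of_nonneg (by linarith)]
            linarith
      have e4 : 2 * T * ((g (c • y + s • z) - f (c • y + s • z)) * Φ y z)
          = (g (c • y + s • z) - f (c • y + s • z)) * max (-(2 * T)) (min (2 * T) r) := by
        have e5 : Φ y z = max (-(2 * T)) (min (2 * T) r) / (2 * T) := by rw [hΦ]
        rw [e5]
        have e6 : 2 * T * ((g (c • y + s • z) - f (c • y + s • z))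
            * (max (-(2 * T)) (min (2 * T) r) / (2 * T)))
            = (g (c • y + s • z) - f (c • y + s • z))
              * (2 * T * (max (-(2 * T)) (min (2 * T) r) / (2 * T))) := by ring
        rw [e6, mul_div_cancel₀ _ hT2.ne']
      rw [e4]
      have h8 := hfgb (c • y + s • z)
      have h9 : (g (c • y + s • z) - f (c • y + s • z)) * (r - max (-(2 * T)) (min (2 * T) r))
          ≤ 8 * Real.exp (-(T ^ 2 / 2)) * Real.exp (1 / 2 * r ^ 2 / 2) := by
        refine (le_abs_self _).trans ?_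
        rw [abs_mul]
        exact (mul_le_of_le_one_left (abs_nonneg _) h8).trans h5
      nlinarith
    rw [e2]
    refine h3.trans ?_
    rw [integral_add (hi1.const_mul (2 * T)) hi2, integral_const_mul, integral_const_mul]
    have h9 := integral_exp_sq_unit hb1
    have h10 : 0 < Real.exp (-(T ^ 2 / 2)) := Real.exp_pos _
    nlinarith
  have hsy : ∀ y, ‖mom f s (c • y) - mom g s (c • y)‖ = ‖m y‖ := fun y => norm_sub_rev _ _
  simp_rw [hsy]
  have hI' := hI.integral_prod_left
  calc ∫ y, ‖m y‖ ∂(stdGaussian E)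
      ≤ ∫ y, (2 * T * ∫ z, (g (c • y + s • z) - f (c • y + s • z)) * Φ y z
          ∂(stdGaussian E) + 12 * Real.exp (-(T ^ 2 / 2))) ∂(stdGaussian E) :=
        integral_mono hmI ((hI'.const_mul _).add (integrable_const _)) hpt
    _ = 2 * T * (∫ p : E × E, (g (c • p.1 + s • p.2) - f (c • p.1 + s • p.2))
          * Φ p.1 p.2 ∂(gg E)) + 12 * Real.exp (-(T ^ 2 / 2)) := by
        rw [integral_add (hI'.const_mul _) (integrable_const _), integral_const_mul,
          integral_prod _ hI]
        simp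
    _ ≤ _ := by
        have h1 := (le_abs_self _).trans hmain
        have h2 : (1 + 2) / s = 3 / s := by norm_num
        rw [h2] at h1
        have := mul_le_mul_of_nonneg_left h1 hT2.le
        linarith

end Vale.Agent.P262.H174
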