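import Vale.Agent.P262.H174.Soft4
import Vale.Agent.P262.H941.GainCost3

/-!
# P262, scheme S1: the scale bounds of a softly moving sequence of fields
-/

set_option linter.unusedSectionVars false
set_option linter.unusedVariables false

namespace Vale.Agent.P262.H174

open MeasureTheory ProbabilityTheory Set Filter Topology Module
open scoped RealInnerProductSpace ENNReal
open Vale.Agent.P262.H847 Vale.Agent.P262.H912 Vale.Agent.P262.H941
open Vale.Agent.P262.H274 (Slow SlowEx PivotAt Cost Gam)

variable {E : Type*} [NormedAddCommGroup E] [InnerProductSpace ℝ E] [FiniteDimensional ℝ E]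
  [MeasurableSpace E] [BorelSpace E]

/-- softly moving sequence: the distance of two members -/
lemma Soft.path {f : ℕ → E → ℝ} (hf : ∀ t, UI (f t)) {α β : ℕ → ℝ} {a b : ℕ}
    (hab : ∀ t, a ≤ t → t < b → Soft (f t) (f (t + 1)) (α t) (β t)) {t u : ℕ} (hat : a ≤ t)
    (htu : t ≤ u) (hub : u ≤ b) :
    Soft (f t) (f u) (∑ r ∈ Finset.Ico t u, α r) (∑ r ∈ Finset.Ico t u, β r) := by
  induction u, htu using Nat.le_induction with
  | base => simpa using Soft.refl (f t)
  | succ u htu ih =>
    rw [Finset.sum_Ico_succ_top htu, Finset.sum_Ico_succ_top htu]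
    exact (ih (by omega)).trans (hf _) (hf _) (hf _) (hab u (by omega) (by omega))

/-- **The scale bounds of a softly moving sequence of fields.** -/
theorem scaleBds_of_soft {f : ℕ → E → ℝ} (hf : ∀ t, UI (f t)) {v : ℕ → E} {F α β : ℕ → ℝ}
    {N : ℝ} (hN : 0 ≤ N) {a b : ℕ} (hF : ∀ t, a ≤ t → t < b → FluxLe (f t) (v t) (F t))
    (hab : ∀ t, a ≤ t → t < b → Soft (f t) (f (t + 1)) (α t) (β t))
    (hβ : ∀ t, a ≤ t → t < b → 0 ≤ β t) :
    ScaleBds f v (fun t => F t + α t + β t) N a b := by
  have hg0 : ∀ t, a ≤ t → t < b → 0 ≤ F t + α t + β t := fun t h1 h2 => by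
    have := (hF t h1 h2).nonneg
    have := (hab t h1 h2).nonneg
    have := hβ t h1 h2
    linarith
  have hsqrt : ∀ s : ℝ, 0 < s → s ≤ 1 → Real.sqrt (1 - s ^ 2) ^ 2 + s ^ 2 = 1 := by
    intro s hs hs1
    rw [Real.sq_sqrt (by nlinarith)]; ring
  refine ⟨hg0, ?_, ?_, ?_⟩
  · intro l u hal hlu hub s hs hs1 P lam hP ε T hε hε1 hT
    have h := supp_bound' (e := fun t => f (l + t)) (fun t => hf (l + t))
      (v := fun t => v (l + t)) (F := fun t => F (l + t)) (hsqrt s hs hs1) hs hs1 (u - l)
      (fun t ht => hF (l + t) (by omega) (by omega)) (a := fun t => α (l + t))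
      (b := fun t => β (l + t)) (fun t ht => hab (l + t) (by omega) (by omega)) hN
      (P := P) (lam := lam) hP hε hε1 hT
    have hlu' : l + (u - l) = u := by omega
    simp only [hlu'] at h
    refine h.trans (add_le_add ?_ le_rfl)
    apply mul_le_mul_of_nonneg_left _ (Real.exp_pos _).le
    unfold Gam
    rw [Finset.sum_Ico_eq_sum_range, Finset.mul_sum]
    apply Finset.sum_le_sum
    intro t ht
    rw [Finset.mem_range] at ht
    have h1 := (hF (l + t) (by omega) (by omega)).nonneg
    have h2 := (hab (l + t) (by omega) (by omega)).nonneg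
    have h3 := hβ (l + t) (by omega) (by omega)
    have h4 : 1 ≤ 4 / s := by rw [le_div_iff₀ hs]; linarith
    have h5 : 3 / s ≤ 4 / s := div_le_div_of_nonneg_right (by norm_num) hs.le
    have h6 : 3 / s * β (l + t) ≤ 4 / s * β (l + t) := mul_le_mul_of_nonneg_right h5 h3
    nlinarith
  · intro t u hat htu hub s hs hs1 T hT
    have hp := Soft.path hf hab hat htu hub
    have h := mom_change' (hf t) (hf u) hp (hsqrt s hs hs1) hs hT
    refine h.trans (add_le_add ?_ le_rfl)
    apply mul_le_mul_of_nonneg_left _ (by linarith)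
    unfold Gam
    rw [Finset.mul_sum, Finset.mul_sum, ← Finset.sum_add_distrib]
    apply Finset.sum_le_sum
    intro r hr
    rw [Finset.mem_Ico] at hr
    have h1 := (hF r (by omega) (by omega)).nonneg
    have h2 := (hab r (by omega) (by omega)).nonneg
    have h3 := hβ r (by omega) (by omega)
    have h4 : 1 ≤ 4 / s := by rw [le_div_iff₀ hs]; linarith
    have h5 : 3 / s ≤ 4 / s := div_le_div_of_nonneg_right (by norm_num) hs.le
    have h6 : 3 / s * β r ≤ 4 / s * β r := mul_le_mul_of_nonneg_right h5 h3
    nlinarith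
  · intro t u hat htu hub
    have hp := Soft.path hf hab hat htu hub
    have h := hp.mass (hf t) (hf u)
    rw [abs_sub_comm]
    refine h.trans ?_
    unfold Gam
    apply Finset.sum_le_sum
    intro r hr
    rw [Finset.mem_Ico] at hr
    have h1 := (hF r (by omega) (by omega)).nonneg
    have h3 := hβ r (by omega) (by omega)
    linarith

end Vale.Agent.P262.H174
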