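import Vale.Agent.P262.H174.Soft5
import Vale.Agent.P262.H118.Rot

/-!
# P262, scheme S1: rotation of a hidden field by a small angle, and the soft gain-cost lemma
-/

set_option linter.unusedSectionVars false
set_option linter.unusedVariables false

namespace Vale.Agent.P262.H174

open MeasureTheory ProbabilityTheory Set Filter Topology Module
open scoped RealInnerProductSpace ENNReal
open Vale.Agent.P262.H847 Vale.Agent.P262.H912 Vale.Agent.P262.H941
open Vale.Agent.P262.H118 (rotL rotL_apply rotE rotE_apply rotE_symm_apply ON)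
open Vale.Agent.P262.H274 (Slow SlowEx PivotAt Cost Gam)

variable {E : Type*} [NormedAddCommGroup E] [InnerProductSpace ℝ E] [FiniteDimensional ℝ E]
  [MeasurableSpace E] [BorelSpace E]

lemma int_inner_le {u : E → ℝ} (hu : UI u) {b : E} (hb : ‖b‖ = 1) :
    ∫ x, u x * ⟪b, x⟫ ∂(stdGaussian E) ≤ Ip (∫ x, u x ∂(stdGaussian E)) := by
  have h1 := (innerSL ℝ b).integral_comp_comm (UI.integrable_smul hu)
  simp only [innerSL_apply_apply] at h1
  simp only [real_inner_smul_right] at h1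
  rw [h1]
  refine (real_inner_le_norm _ _).trans ?_
  rw [hb, one_mul]
  exact bathtub hu

lemma UI.int_abs_inner {h : E → ℝ} (hh : UI h) (b : E) :
    Integrable (fun x => h x * |⟪b, x⟫|) (stdGaussian E) := by
  refine (integrable_inner b).norm.mono' (hh.meas.mul (by fun_prop)).aestronglyMeasurable
    (Eventually.of_forall fun x => ?_)
  rw [norm_mul, Real.norm_eq_abs, abs_of_nonneg (hh.nonneg x), Real.norm_eq_abs, abs_abs,
    Real.norm_eq_abs]
  exact mul_le_of_le_one_left (abs_nonneg _) (hh.le_one x)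

/-- the bathtub bound of the absolute first moment -/
theorem int_abs_inner_le {h : E → ℝ} (hh : UI h) {b : E} (hb : ‖b‖ = 1) :
    ∫ x, h x * |⟪b, x⟫| ∂(stdGaussian E) ≤ 4 * LL (∫ x, h x ∂(stdGaussian E)) := by
  have hmS : MeasurableSet {x : E | 0 ≤ ⟪b, x⟫} := measurableSet_le measurable_const (by fun_prop)
  set S := {x : E | 0 ≤ ⟪b, x⟫} with hS
  have hU : ∀ T : Set E, MeasurableSet T → UI (T.indicator h) := fun T hT =>
    ⟨hh.meas.indicator hT, fun x => indicator_nonneg (fun _ _ => hh.nonneg _) x, fun x => by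
      by_cases hx : x ∈ T
      · rw [indicator_of_mem hx]; exact hh.le_one x
      · rw [indicator_of_notMem hx]; norm_num⟩
  have hI : ∀ T : Set E, MeasurableSet T → ∫ x, T.indicator h x ∂(stdGaussian E)
      ≤ ∫ x, h x ∂(stdGaussian E) := fun T hT =>
    integral_mono ((hU T hT).integrable _) (hh.integrable _) fun x => by
      by_cases hx : x ∈ T
      · show T.indicator h x ≤ h x
        rw [indicator_of_mem hx]
      · show T.indicator h x ≤ h x
        rw [indicator_of_notMem hx]; exact hh.nonneg x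
  have h1 : ∫ x, h x ∂(stdGaussian E) ≤ 1 := by
    have := integral_mono (hh.integrable (stdGaussian E)) (integrable_const (1:ℝ)) hh.le_one
    simpa using this
  have key : ∀ T : Set E, MeasurableSet T → ∀ e : E, ‖e‖ = 1 →
      ∫ x, T.indicator h x * ⟪e, x⟫ ∂(stdGaussian E) ≤ 2 * LL (∫ x, h x ∂(stdGaussian E)) := by
    intro T hT e he
    refine (int_inner_le (hU T hT) he).trans ?_
    exact Ip_le_LL' (integral_nonneg fun x => (hU T hT).nonneg x) (hI T hT) h1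
  have e1 : ∀ x, h x * |⟪b, x⟫| = S.indicator h x * ⟪b, x⟫ + Sᶜ.indicator h x * ⟪-b, x⟫ := by
    intro x
    by_cases hx : x ∈ S
    · rw [indicator_of_mem hx, indicator_of_notMem (by simpa using hx)]
      have : 0 ≤ ⟪b, x⟫ := hx
      rw [abs_of_nonneg this]; ring
    · rw [indicator_of_notMem hx, indicator_of_mem (by simpa using hx)]
      have : ⟪b, x⟫ < 0 := by
        by_contra hc; exact hx (not_lt.mp hc)
      rw [abs_of_neg this, inner_neg_left]; ring
  have i1 : ∀ T : Set E, MeasurableSet T → ∀ e : E,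
      Integrable (fun x => T.indicator h x * ⟪e, x⟫) (stdGaussian E) := by
    intro T hT e
    refine (integrable_inner e).norm.mono' ((hU T hT).meas.mul (by fun_prop)).aestronglyMeasurable
      (Eventually.of_forall fun x => ?_)
    rw [norm_mul, Real.norm_eq_abs, abs_of_nonneg ((hU T hT).nonneg x)]
    exact mul_le_of_le_one_left (norm_nonneg _) ((hU T hT).le_one x)
  simp_rw [e1]
  rw [integral_add (i1 S hmS b) (i1 Sᶜ hmS.compl (-b))]
  have h2 := key S hmS b hb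
  have h3 := key Sᶜ hmS.compl (-b) (by rw [norm_neg]; exact hb)
  linarith

/-- displacement of a plane rotation -/
lemma rotL_disp {p q : E} (h : ON p q) (φ : ℝ) (x : E) :
    ‖rotL p q φ x - x‖ ≤ |φ| * (|⟪p, x⟫| + |⟪q, x⟫|) := by
  have e1 : rotL p q φ x - x = ((Real.cos φ - 1) * ⟪p, x⟫ - Real.sin φ * ⟪q, x⟫) • p
      + (Real.sin φ * ⟪p, x⟫ + (Real.cos φ - 1) * ⟪q, x⟫) • q := by
    rw [rotL_apply]; abel
  have e2 : ‖rotL p q φ x - x‖ ^ 2 = (2 - 2 * Real.cos φ) * (⟪p, x⟫ ^ 2 + ⟪q, x⟫ ^ 2) := by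
    rw [e1, ← real_inner_self_eq_norm_sq]
    simp only [inner_add_left, inner_add_right, real_inner_smul_left, real_inner_smul_right,
      h.pp, h.qq, h.hpq, h.qp]
    linear_combination (⟪p, x⟫ ^ 2 + ⟪q, x⟫ ^ 2) * Real.sin_sq_add_cos_sq φ
  have h2 : 2 - 2 * Real.cos φ ≤ φ ^ 2 := by
    have := Real.one_sub_sq_div_two_le_cos (x := φ)
    linarith
  have h3 : ‖rotL p q φ x - x‖ ^ 2 ≤ (|φ| * (|⟪p, x⟫| + |⟪q, x⟫|)) ^ 2 := by
    rw [e2, mul_pow, sq_abs]
    apply mul_le_mul h2 _ (by positivity) (sq_nonneg φ)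
    have := mul_nonneg (abs_nonneg ⟪p, x⟫) (abs_nonneg ⟪q, x⟫)
    nlinarith [sq_abs ⟪p, x⟫, sq_abs ⟪q, x⟫]
  exact le_of_sq_le_sq h3 (by positivity)

/-- **plane rotation of an arbitrary (hidden) field** -/
theorem Soft.rotE {h : E → ℝ} (hh : UI h) {p q : E} (hpq : ON p q) (φ : ℝ) :
    Soft h (fun x => h (Vale.Agent.P262.H118.rotE hpq φ x)) 0
      (8 * |φ| * LL (∫ x, h x ∂(stdGaussian E))) := by
  refine (Soft.rot hh (Vale.Agent.P262.H118.rotE hpq φ)).mono le_rfl ?_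
  have h1 := int_abs_inner_le hh hpq.hp
  have h2 := int_abs_inner_le hh hpq.hq
  have i1 := UI.int_abs_inner hh p
  have i2 := UI.int_abs_inner hh q
  have h3 : ∫ x, h x * ‖(Vale.Agent.P262.H118.rotE hpq φ).symm x - x‖ ∂(stdGaussian E)
      ≤ |φ| * (∫ x, h x * |⟪p, x⟫| ∂(stdGaussian E) + ∫ x, h x * |⟪q, x⟫| ∂(stdGaussian E)) := by
    rw [← integral_add i1 i2, ← integral_const_mul]
    refine integral_mono_of_nonneg (Eventually.of_forall fun x =>
      mul_nonneg (hh.nonneg x) (norm_nonneg _)) ((i1.add i2).const_mul _)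
      (Eventually.of_forall fun x => ?_)
    show h x * ‖(Vale.Agent.P262.H118.rotE hpq φ).symm x - x‖
      ≤ |φ| * (h x * |⟪p, x⟫| + h x * |⟪q, x⟫|)
    rw [rotE_symm_apply]
    have h4 := rotL_disp hpq (-φ) x
    rw [abs_neg] at h4
    calc h x * ‖rotL p q (-φ) x - x‖ ≤ h x * (|φ| * (|⟪p, x⟫| + |⟪q, x⟫|)) :=
          mul_le_mul_of_nonneg_left h4 (hh.nonneg x)
      _ = _ := by ring
  refine h3.trans ?_
  have h5 : |φ| * (∫ x, h x * |⟪p, x⟫| ∂(stdGaussian E) + ∫ x, h x * |⟪q, x⟫| ∂(stdGaussian E))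
      ≤ |φ| * (4 * LL (∫ x, h x ∂(stdGaussian E)) + 4 * LL (∫ x, h x ∂(stdGaussian E))) :=
    mul_le_mul_of_nonneg_left (add_le_add h1 h2) (abs_nonneg φ)
  linarith

/-- **GAIN-COST LEMMA for softly moving visible fields.** -/
theorem gain_cost_soft {f h : ℕ → E → ℝ} (hf : ∀ t, UI (f t)) (hh : ∀ t, UI (h t))
    {K : ℕ → Set E} (hK : ∀ t, Convex ℝ (K t)) (hKm : ∀ t, MeasurableSet (K t))
    (hfh : ∀ t x, f t x + h t x = (K t)ᶜ.indicator (fun _ => (1:ℝ)) x)
    {v : ℕ → E} {F α β : ℕ → ℝ} {N ρ : ℝ} (hN0 : 0 < N) (hN1 : N ≤ 1)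
    (hρ0 : 0 < ρ) (hρ1 : ρ ≤ 1 / 324) {a b : ℕ} (hab : a < b)
    (hF : ∀ t, a ≤ t → t < b → FluxLe (f t) (v t) (F t))
    (hso : ∀ t, a ≤ t → t < b → Soft (f t) (f (t + 1)) (α t) (β t))
    (hβ : ∀ t, a ≤ t → t < b → 0 ≤ β t)
    (hD0 : ∀ t, a ≤ t → t ≤ b → 0 < (stdGaussian E).real (K t)ᶜ)
    (hD1 : ∀ t, a ≤ t → t ≤ b → (stdGaussian E).real (K t)ᶜ ≤ 7 / 8)
    (hNc : ∀ t, a ≤ t → t ≤ b →
      N * Real.sqrt (1 - Real.log ((stdGaussian E).real (K t)ᶜ)) ≤ 1 / 10 ^ 9)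
    (hhid : ∀ t, a ≤ t → t ≤ b →
      ∫ x, h t x ∂(stdGaussian E) ≤ 1 / 10 ^ 10 * (stdGaussian E).real (K t)ᶜ)
    (hS : ¬ Slow v N 1 a b) {t0 : ℕ} (ht0a : a ≤ t0) (ht0b : t0 ≤ b) :
    1 / 10 ^ 15 * (N * LL ((stdGaussian E).real (K t0)ᶜ)) * Cost (Slow v N) ρ a b
      ≤ Gam (fun t => F t + α t + β t) a b :=
  gain_cost' hf hh hK hKm hfh hN0 hN1 hρ0 hρ1 hab
    (scaleBds_of_soft hf hN0.le hF hso hβ) hD0 hD1 hNc hhid hS ht0a ht0b

end Vale.Agent.P262.H174
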